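import Mathlib

namespace Vale.Agent.P012
open Finset

lemma card_le_of_modEq (s : Finset ℕ) (a H ρ : ℕ) (_hρ : 0 < ρ) (hs : ∀ x ∈ s, a ≤ x ∧ x < a + H)
    (hmod : ∀ x ∈ s, ∀ y ∈ s, x ≡ y [MOD ρ]) : s.card ≤ H / ρ + 1 := by
  rw [← card_range (H / ρ + 1)]
  apply card_le_card_of_injOn (fun x => (x - a) / ρ)
  · intro x hx
    have h := hs x (by simpa using hx)
    simp only [coe_range, Set.mem_Iio]
    have : (x - a) / ρ ≤ H / ρ := Nat.div_le_div_right (by omega)
    omega
  · intro x hx y hy hxy
    have hx' := hs x (by simpa using hx)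
    have hy' := hs y (by simpa using hy)
    have hm := hmod x (by simpa using hx) y (by simpa using hy)
    simp only at hxy
    have h1 : x - a ≡ y - a [MOD ρ] := by
      have h2 : (x - a) + a ≡ (y - a) + a [MOD ρ] := by
        rw [Nat.sub_add_cancel hx'.1, Nat.sub_add_cancel hy'.1]
        exact hm
      exact Nat.ModEq.add_right_cancel' _ h2
    have h3 : x - a = y - a := by
      rw [← Nat.div_add_mod (x - a) ρ, ← Nat.div_add_mod (y - a) ρ, hxy]
      congr 1
    omega

/-- large subsets -/
def subs (P : Finset ℕ) : Finset (Finset ℕ) := P.powerset.filter (fun S => P.card ≤ 2 * S.card)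

/-- products over large subsets -/
def DD (P : Finset ℕ) : Finset ℕ := (subs P).image (fun S => ∏ p ∈ S, p)

lemma prod_injOn (P : Finset ℕ) (hP : ∀ p ∈ P, p.Prime) :
    Set.InjOn (fun S : Finset ℕ => ∏ p ∈ S, p) (P.powerset : Finset (Finset ℕ)) := by
  intro S hS T hT hST
  simp only at hST
  have h1 : (∏ p ∈ S, p).primeFactors = S := Nat.primeFactors_prod (fun p hp =>
    hP p (mem_powerset.mp (by simpa using hS) hp))
  have h2 : (∏ p ∈ T, p).primeFactors = T := Nat.primeFactors_prod (fun p hp =>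
    hP p (mem_powerset.mp (by simpa using hT) hp))
  rw [← h1, ← h2, hST]

lemma card_DD (P : Finset ℕ) (hP : ∀ p ∈ P, p.Prime) : (DD P).card = (subs P).card := by
  rw [DD, card_image_of_injOn]
  exact (prod_injOn P hP).mono (by
    intro S hS
    exact mem_coe.mpr (mem_filter.mp (mem_coe.mp hS)).1)

lemma card_subs_le (P : Finset ℕ) : (subs P).card ≤ 2 ^ P.card := by
  rw [← card_powerset]
  exact card_le_card (filter_subset _ _)

lemma le_card_subs (P : Finset ℕ) : 2 ^ P.card ≤ 2 * (subs P).card := by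
  classical
  rw [← card_powerset, ← card_filter_add_card_filter_not (fun S : Finset ℕ => P.card ≤ 2 * S.card)]
  have : (P.powerset.filter (fun S => ¬ (P.card ≤ 2 * S.card))).card ≤ (subs P).card := by
    apply card_le_card_of_injOn (fun S => P \ S)
    · intro S hS
      simp only [coe_filter, Set.mem_ofPred_eq, mem_powerset] at hS
      simp only [subs, coe_filter, Set.mem_ofPred_eq, mem_powerset]
      refine ⟨sdiff_subset, ?_⟩
      rw [card_sdiff_of_subset hS.1]
      have := card_le_card hS.1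
      omega
    · intro S hS T hT hST
      simp only [coe_filter, Set.mem_ofPred_eq, mem_powerset] at hS hT
      simp only at hST
      rw [← Finset.sdiff_sdiff_eq_self hS.1, ← Finset.sdiff_sdiff_eq_self hT.1, hST]
  have h2 : (P.powerset.filter (fun S => P.card ≤ 2 * S.card)).card = (subs P).card := rfl
  omega

/-- products of random subsets are spread in residue classes -/
lemma small_range (P : Finset ℕ) (Z : ℕ) (hP : ∀ p ∈ P, p.Prime ∧ p ≤ Z) (ρ : ℕ) (hρ : 0 < ρ)
    (hcop : ∀ p ∈ P, Nat.Coprime p ρ) (j c : ℕ) :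
    ((subs P).filter (fun S => (∏ p ∈ S, p) % ρ = c)).card * ((P.card + 1) / 2).choose j
      ≤ 2 ^ P.card * (Z ^ j / ρ + 1) := by
  classical
  -- pairs (S, T)
  have h1 : ((subs P).filter (fun S => (∏ p ∈ S, p) % ρ = c)).card * ((P.card + 1) / 2).choose j
      ≤ (((subs P).filter (fun S => (∏ p ∈ S, p) % ρ = c)).sigma
          (fun S => powersetCard j S)).card := by
    rw [card_sigma, card_eq_sum_ones, sum_mul]
    apply sum_le_sum
    intro S hS
    rw [one_mul, card_powersetCard]
    apply Nat.choose_le_choose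
    have := (mem_filter.mp (mem_filter.mp hS).1).2
    omega
  have h2 : (((subs P).filter (fun S => (∏ p ∈ S, p) % ρ = c)).sigma
          (fun S => powersetCard j S)).card
      ≤ (P.powerset.sigma (fun S' => (powersetCard j P).filter
          (fun T => ((∏ p ∈ S', p) * (∏ p ∈ T, p)) % ρ = c))).card := by
    apply card_le_card_of_injOn (fun q => ⟨q.1 \ q.2, q.2⟩)
    · rintro ⟨S, T⟩ hq
      simp only [coe_sigma, Set.mem_sigma_iff, mem_coe, mem_filter, subs, mem_powerset,
        mem_powersetCard] at hq ⊢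
      obtain ⟨⟨⟨hS, _⟩, hc⟩, hT, hTj⟩ := hq
      refine ⟨sdiff_subset.trans hS, ⟨hT.trans hS, hTj⟩, ?_⟩
      rw [prod_sdiff hT]
      exact hc
    · rintro ⟨S, T⟩ hq ⟨S', T'⟩ hq' heq
      simp only [coe_sigma, Set.mem_sigma_iff, mem_coe, mem_filter, subs, mem_powerset,
        mem_powersetCard] at hq hq'
      simp only [Sigma.mk.injEq] at heq
      obtain ⟨h3, h4⟩ := heq
      have h5 : T = T' := eq_of_heq h4
      subst h5
      have : S = S' := by
        rw [← sdiff_union_of_subset hq.2.1, ← sdiff_union_of_subset hq'.2.1, h3]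
      subst this
      rfl
  refine h1.trans (h2.trans ?_)
  rw [card_sigma]
  calc ∑ S' ∈ P.powerset, ((powersetCard j P).filter
          (fun T => ((∏ p ∈ S', p) * (∏ p ∈ T, p)) % ρ = c)).card
      ≤ ∑ _S' ∈ P.powerset, (Z ^ j / ρ + 1) := by
        apply sum_le_sum
        intro S' hS'
        rw [mem_powerset] at hS'
        set 𝒯 := (powersetCard j P).filter
          (fun T => ((∏ p ∈ S', p) * (∏ p ∈ T, p)) % ρ = c) with h𝒯
        have hinj : Set.InjOn (fun S : Finset ℕ => ∏ p ∈ S, p) (𝒯 : Finset (Finset ℕ)) := by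
          apply (prod_injOn P (fun p hp => (hP p hp).1)).mono
          intro T hT
          have := (mem_powersetCard.mp (mem_filter.mp (mem_coe.mp hT)).1).1
          exact mem_coe.mpr (mem_powerset.mpr this)
        rw [← card_image_of_injOn hinj]
        apply card_le_of_modEq _ 1 (Z ^ j) ρ hρ
        · intro x hx
          obtain ⟨T, hT, rfl⟩ := mem_image.mp hx
          obtain ⟨hTP, hTj⟩ := mem_powersetCard.mp (mem_filter.mp hT).1
          constructor
          · apply Nat.pos_of_ne_zero
            rw [prod_ne_zero_iff]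
            intro p hp
            exact (hP p (hTP hp)).1.ne_zero
          · have : ∏ p ∈ T, p ≤ Z ^ T.card := prod_le_pow_card _ _ _ (fun p hp => (hP p (hTP hp)).2)
            rw [hTj] at this
            omega
        · intro x hx y hy
          obtain ⟨T, hT, rfl⟩ := mem_image.mp hx
          obtain ⟨T', hT', rfl⟩ := mem_image.mp hy
          have e1 := (mem_filter.mp hT).2
          have e2 := (mem_filter.mp hT').2
          have hc2 : Nat.Coprime ρ (∏ p ∈ S', p) :=
            Nat.Coprime.prod_right (fun p hp => (hcop p (hS' hp)).symm)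
          have h3 : (∏ p ∈ S', p) * (∏ p ∈ T, p) ≡ (∏ p ∈ S', p) * (∏ p ∈ T', p) [MOD ρ] := by
            unfold Nat.ModEq
            rw [e1, e2]
          exact Nat.ModEq.cancel_left_of_coprime hc2 h3
    _ = 2 ^ P.card * (Z ^ j / ρ + 1) := by
        rw [sum_const, card_powerset, smul_eq_mul]

/-- lower bound for binomial coefficients -/
lemma choose_ge (N j B : ℕ) (hj : 0 < j) (h : j * (B + 1) ≤ N) : B ^ j ≤ N.choose j := by
  have h1 := Nat.pow_le_choose (α := ℚ) j N
  have h2 : (j.factorial : ℚ) ≤ (j : ℚ) ^ j := by exact_mod_cast Nat.factorial_le_pow j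
  have h3 : ((j * B : ℕ) : ℚ) ≤ ((N + 1 - j : ℕ) : ℚ) := by
    have : j * B ≤ N + 1 - j := by
      have : j * (B + 1) = j * B + j := by ring
      omega
    exact_mod_cast this
  have hjf : (0 : ℚ) < j.factorial := by exact_mod_cast Nat.factorial_pos j
  rw [div_le_iff₀ hjf] at h1
  have h4 : ((j * B : ℕ) : ℚ) ^ j ≤ ((N + 1 - j : ℕ) : ℚ) ^ j := by gcongr
  have h5 : (N.choose j : ℚ) * j.factorial ≤ (N.choose j : ℚ) * (j : ℚ) ^ j := by gcongr
  have h6 : (j : ℚ) ^ j * (B : ℚ) ^ j ≤ (j : ℚ) ^ j * (N.choose j : ℚ) := by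
    calc (j : ℚ) ^ j * (B : ℚ) ^ j = ((j * B : ℕ) : ℚ) ^ j := by push_cast; rw [mul_pow]
      _ ≤ (N.choose j : ℚ) * (j : ℚ) ^ j := by
          refine h4.trans (le_trans ?_ h5)
          exact_mod_cast h1
      _ = _ := by ring
  have h7 : (0 : ℚ) < (j : ℚ) ^ j := by positivity
  have h8 := le_of_mul_le_mul_left h6 h7
  exact_mod_cast h8

end Vale.Agent.P012
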