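import Mathlib

namespace Vale.Agent.P012
open Finset

/-- `x` is a sum of `K` divisors of `M`, all at least `lo`, the `s`-th of them having 2-adic
valuation `s` (so they are distinct) -/
def SlotSum (M K lo x : ℕ) : Prop :=
  ∃ g : ℕ → ℕ, (∀ s < K, g s ∣ M ∧ lo ≤ g s ∧ padicValNat 2 (g s) = s) ∧ x = ∑ s ∈ range K, g s

lemma slot_zero (M lo : ℕ) : SlotSum M 0 lo 0 := ⟨fun _ => 0, by simp, by simp⟩

lemma slot_combine {M M' M'' K K' lo lo' lo'' x y lam : ℕ} (h1 : SlotSum M K lo x)
    (h2 : SlotSum M' K' lo' y) (hM : M ∣ M'') (hM' : lam * M' ∣ M'')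
    (hlam : padicValNat 2 lam = K) (hlam0 : lam ≠ 0) (hlo : lo'' ≤ lo) (hlo2 : lo'' ≤ lam * lo')
    (hlo' : 0 < lo') : SlotSum M'' (K + K') lo'' (x + lam * y) := by
  obtain ⟨g1, hg1, rfl⟩ := h1
  obtain ⟨g2, hg2, rfl⟩ := h2
  refine ⟨fun s => if s < K then g1 s else lam * g2 (s - K), ?_, ?_⟩
  · intro s hs
    by_cases hsK : s < K
    · simp only [hsK, if_true]
      obtain ⟨ha, hb, hc⟩ := hg1 s hsK
      exact ⟨ha.trans hM, hlo.trans hb, hc⟩
    · simp only [hsK, if_false]
      obtain ⟨ha, hb, hc⟩ := hg2 (s - K) (by omega)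
      refine ⟨(Nat.mul_dvd_mul_left lam ha).trans hM', hlo2.trans (Nat.mul_le_mul_left _ hb), ?_⟩
      rw [padicValNat.mul hlam0 (by omega), hlam, hc]
      omega
  · rw [sum_range_add]
    congr 1
    · apply sum_congr rfl
      intro s hs
      simp [mem_range.mp hs]
    · rw [mul_sum]
      apply sum_congr rfl
      intro s _
      simp

lemma slot_many {M k0 lo : ℕ} (k : ℕ) (x lam : ℕ → ℕ) (hx : ∀ i < k, SlotSum M k0 1 (x i))
    (hlam : ∀ i < k, padicValNat 2 (lam i) = i * k0 ∧ lo ≤ lam i ∧ lam i ≠ 0) :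
    SlotSum (M * ∏ i ∈ range k, lam i) (k * k0) lo (∑ i ∈ range k, lam i * x i) := by
  induction k with
  | zero => simpa using slot_zero M lo
  | succ k ih =>
    have ih' := ih (fun i hi => hx i (by omega)) (fun i hi => hlam i (by omega))
    rw [sum_range_succ, add_mul, one_mul]
    obtain ⟨h1, h2, h3⟩ := hlam k (by omega)
    refine slot_combine ih' (hx k (by omega)) ?_ ?_ h1 h3 le_rfl (by simpa using h2) one_pos
    · rw [prod_range_succ, ← mul_assoc]
      exact Dvd.intro _ rfl
    · rw [prod_range_succ]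
      exact ⟨∏ i ∈ range k, lam i, by ring⟩

/-- the tree of dilates -/
lemma tree (D : Finset ℕ) (MD n : ℕ) (hMD : 0 < MD) (hD : ∀ d ∈ D, d ∣ MD ∧ Odd d)
    (hn : D.card ≤ 2 ^ n) (l : ℕ) :
    ∃ X : Finset ℕ, ∃ M : ℕ, 0 < M ∧ M ≤ MD * 2 ^ ((4 * n + 3) * (2 ^ l - 1)) ∧
      X.card = D.card ^ (2 ^ l) ∧ (∀ x ∈ X, SlotSum M (2 ^ l) 1 x) ∧
      (∀ ρ t, (∀ c, (D.filter (fun d => d % ρ = c)).card ≤ t) →
        ∀ c, (X.filter (fun x => x % ρ = c)).card * D.card ≤ t * X.card) := by
  classical
  induction l with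
  | zero =>
    refine ⟨D, MD, hMD, by simp, by simp, ?_, ?_⟩
    · intro d hd
      obtain ⟨h1, h2⟩ := hD d hd
      refine ⟨fun _ => d, ?_, by simp⟩
      intro s hs
      have hs0 : s = 0 := by simpa using hs
      subst hs0
      refine ⟨h1, Nat.pos_of_ne_zero (by rintro rfl; simp at h2), ?_⟩
      apply padicValNat.eq_zero_of_not_dvd
      intro h3
      exact (Nat.not_even_iff_odd.mpr h2) (even_iff_two_dvd.mpr h3)
    · intro ρ t ht c
      exact Nat.mul_le_mul_right _ (ht c)
  | succ l ih =>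
    obtain ⟨X, M, hM, hMb, hcard, hslot, hmu⟩ := ih
    -- choose the dilation
    set C : Finset ℕ := (range (X.card ^ 4 + 1)).image (fun v => 2 ^ (2 ^ l) * (2 * v + 1)) with hC
    have hCcard : C.card = X.card ^ 4 + 1 := by
      rw [hC, card_image_of_injective, card_range]
      intro a b hab
      simp only at hab
      have h2 : 0 < 2 ^ (2 ^ l) := by positivity
      have := Nat.eq_of_mul_eq_mul_left h2 hab
      omega
    set E : Finset ℕ := ((X ×ˢ X) ×ˢ (X ×ˢ X)).image
      (fun p => ((p.1.1 : ℤ) - p.2.1).natAbs / ((p.2.2 : ℤ) - p.1.2).natAbs) with hE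
    have hEcard : E.card ≤ X.card ^ 4 := by
      refine card_image_le.trans ?_
      rw [card_product, card_product]
      apply le_of_eq
      ring
    obtain ⟨a, haC, haE⟩ := exists_mem_notMem_of_card_lt_card (s := E) (t := C) (by omega)
    obtain ⟨v, hv, rfl⟩ := mem_image.mp haC
    set a := 2 ^ (2 ^ l) * (2 * v + 1) with ha
    have ha0 : 0 < a := by positivity
    have hinj : Set.InjOn (fun p : ℕ × ℕ => p.1 + a * p.2) (X ×ˢ X : Finset (ℕ × ℕ)) := by
      rintro ⟨p1, p2⟩ hp ⟨q1, q2⟩ hq hpq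
      simp only [coe_product, Set.mem_prod, mem_coe] at hp hq
      simp only at hpq
      by_cases h22 : p2 = q2
      · subst h22
        simp only [Prod.mk.injEq, and_true]
        omega
      · exfalso
        apply haE
        rw [hE]
        refine mem_image.mpr ⟨((p1, p2), (q1, q2)), ?_, ?_⟩
        · simp [hp.1, hp.2, hq.1, hq.2]
        · simp only
          have h3 : (p1 : ℤ) - q1 = a * ((q2 : ℤ) - p2) := by
            have : (p1 : ℤ) + a * p2 = q1 + a * q2 := by exact_mod_cast hpq
            linarith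
          rw [h3, Int.natAbs_mul, Int.natAbs_natCast]
          apply Nat.mul_div_cancel
          rw [Int.natAbs_pos]
          intro h4
          apply h22
          omega
    refine ⟨(X ×ˢ X).image (fun p => p.1 + a * p.2), M * a, Nat.mul_pos hM ha0, ?_, ?_, ?_, ?_⟩
    · -- size of M
      have hvb : v ≤ X.card ^ 4 := by
        have := mem_range.mp hv
        omega
      have hXb : X.card ^ 4 ≤ 2 ^ (4 * n * 2 ^ l) := by
        rw [hcard]
        calc (D.card ^ 2 ^ l) ^ 4 ≤ ((2 ^ n) ^ 2 ^ l) ^ 4 := by gcongr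
          _ = 2 ^ (4 * n * 2 ^ l) := by
            rw [← pow_mul, ← pow_mul]
            congr 1
            ring
      have h2l : 1 ≤ 2 ^ l := Nat.one_le_two_pow
      have hab : a ≤ 2 ^ ((4 * n + 3) * 2 ^ l) := by
        have h5 : 1 ≤ 2 ^ (4 * n * 2 ^ l) := Nat.one_le_two_pow
        calc a = 2 ^ (2 ^ l) * (2 * v + 1) := ha
          _ ≤ 2 ^ (2 ^ l) * (2 ^ (4 * n * 2 ^ l) * 2 ^ 2) := by
              apply Nat.mul_le_mul_left
              omega
          _ = 2 ^ (2 ^ l + 4 * n * 2 ^ l + 2) := by rw [pow_add, pow_add]; ring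
          _ ≤ 2 ^ ((4 * n + 3) * 2 ^ l) := by
              apply Nat.pow_le_pow_right (by norm_num)
              have : (4 * n + 3) * 2 ^ l = 4 * n * 2 ^ l + 3 * 2 ^ l := by ring
              omega
      calc M * a ≤ (MD * 2 ^ ((4 * n + 3) * (2 ^ l - 1))) * 2 ^ ((4 * n + 3) * 2 ^ l) :=
            Nat.mul_le_mul hMb hab
        _ = MD * 2 ^ ((4 * n + 3) * (2 ^ (l + 1) - 1)) := by
            rw [mul_assoc, ← pow_add, ← mul_add]
            congr 3
            rw [pow_succ]
            omega
    · rw [card_image_of_injOn hinj, card_product, hcard, ← pow_add]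
      congr 1
      rw [pow_succ]
      omega
    · intro x hx
      obtain ⟨⟨x1, x2⟩, hp, rfl⟩ := mem_image.mp hx
      obtain ⟨hx1, hx2⟩ := mem_product.mp hp
      have h2l : 2 ^ (l + 1) = 2 ^ l + 2 ^ l := by rw [pow_succ]; omega
      rw [h2l]
      refine slot_combine (hslot x1 hx1) (hslot x2 hx2) (Dvd.intro _ rfl)
        (dvd_of_eq (mul_comm _ _)) ?_ (by omega) le_rfl (by omega) one_pos
      rw [ha, padicValNat.mul (by positivity) (by omega), padicValNat.prime_pow]
      rw [padicValNat.eq_zero_of_not_dvd (by omega)]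
      omega
    · intro ρ t ht c
      have hmu' := hmu ρ t ht
      have h1 : (((X ×ˢ X).image (fun p => p.1 + a * p.2)).filter (fun x => x % ρ = c)).card
          ≤ ((X ×ˢ X).filter (fun p => (p.1 + a * p.2) % ρ = c)).card := by
        rw [filter_image]
        exact card_image_le
      have h2 : ((X ×ˢ X).filter (fun p => (p.1 + a * p.2) % ρ = c)).card
          = ∑ x2 ∈ X, (X.filter (fun x1 => (x1 + a * x2) % ρ = c)).card := by
        rw [card_filter, sum_product_right]
        apply sum_congr rfl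
        intro x2 _
        rw [card_filter]
      have h3 : ∀ x2 ∈ X, (X.filter (fun x1 => (x1 + a * x2) % ρ = c)).card * D.card
          ≤ t * X.card := by
        intro x2 _
        by_cases hne : (X.filter (fun x1 => (x1 + a * x2) % ρ = c)).Nonempty
        · obtain ⟨y, hy⟩ := hne
          have hy' := (mem_filter.mp hy).2
          refine le_trans (Nat.mul_le_mul_right _ (card_le_card ?_)) (hmu' (y % ρ))
          intro x hx
          obtain ⟨hxX, hx'⟩ := mem_filter.mp hx
          refine mem_filter.mpr ⟨hxX, ?_⟩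
          have h4 : x + a * x2 ≡ y + a * x2 [MOD ρ] := by
            unfold Nat.ModEq
            rw [hx', hy']
          exact Nat.ModEq.add_right_cancel' _ h4
        · rw [not_nonempty_iff_eq_empty.mp hne]
          simp
      calc _ ≤ (∑ x2 ∈ X, (X.filter (fun x1 => (x1 + a * x2) % ρ = c)).card) * D.card := by
            rw [← h2]
            exact Nat.mul_le_mul_right _ h1
        _ = ∑ x2 ∈ X, (X.filter (fun x1 => (x1 + a * x2) % ρ = c)).card * D.card := by
            rw [sum_mul]
        _ ≤ ∑ _x2 ∈ X, t * X.card := sum_le_sum h3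
        _ = t * ((X ×ˢ X).image (fun p => p.1 + a * p.2)).card := by
            rw [card_image_of_injOn hinj, card_product, sum_const, smul_eq_mul]
            ring

end Vale.Agent.P012
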