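import Mathlib
import Vale.Agent.P012.Base
import Vale.Agent.P012.Tree

namespace Vale.Agent.P012
open Finset

/-- enough odd primes up to `2L` -/
lemma primes_exist (ν : ℕ) (hν : 1 ≤ ν) (n : ℕ) (hn : n * (20 * ν) ≤ 2 ^ (20 * ν) + 20 * ν) :
    ∃ P : Finset ℕ, P.card = n ∧ ∀ p ∈ P, p.Prime ∧ p ≠ 2 ∧ p ≤ 2 * 2 ^ (20 * ν) := by
  classical
  set L := 2 ^ (20 * ν) with hL
  have h1 := Chebyshev.pi_ge (2 * L)
  have hlog : Real.log ((2 * L : ℕ) : ℝ) = (20 * ν + 1) * Real.log 2 := by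
    rw [hL, ← pow_succ']
    push_cast
    rw [Real.log_pow]
    push_cast
    ring
  have hL20 : (2:ℝ) ^ 20 ≤ L := by
    have : 2 ^ 20 ≤ 2 ^ (20 * ν) := Nat.pow_le_pow_right (by norm_num) (by omega)
    rw [hL]
    exact_mod_cast this
  have hlog2 : 0 < Real.log 2 := Real.log_pos (by norm_num)
  have hlog3 : Real.log (((2 * L : ℕ) : ℝ) + 1) ≤ (20 * ν + 2) * Real.log 2 := by
    have h2 : (((2 * L : ℕ) : ℝ) + 1) ≤ 2 ^ (20 * ν + 2) := by
      push_cast
      have : (2:ℝ) ^ (20 * ν + 2) = 4 * L := by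
        rw [hL]
        push_cast
        ring
      rw [this]
      nlinarith
    calc Real.log (((2 * L : ℕ) : ℝ) + 1) ≤ Real.log (2 ^ (20 * ν + 2)) :=
          Real.log_le_log (by positivity) h2
      _ = (20 * ν + 2) * Real.log 2 := by
          rw [Real.log_pow]; push_cast; ring
  have h3 : ((2 * L : ℝ) - (20 * ν + 2)) / (20 * ν + 1) ≤ (Nat.primeCounting (2 * L) : ℝ) := by
    refine le_trans ?_ h1
    rw [hlog]
    rw [div_le_div_iff₀ (by positivity) (by positivity)]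
    have : ((2 * L : ℕ) : ℝ) = 2 * L := by push_cast; ring
    rw [this] at hlog3 ⊢
    have h5 : (0:ℝ) < 20 * ν + 1 := by positivity
    nlinarith [mul_le_mul_of_nonneg_right hlog3 h5.le]
  have hπ : n + 1 ≤ Nat.primeCounting (2 * L) := by
    have hn' : (n : ℝ) * (20 * ν) ≤ L + 20 * ν := by
      rw [hL]
      exact_mod_cast hn
    have hν' : (1:ℝ) ≤ ν := by exact_mod_cast hν
    rw [div_le_iff₀ (by positivity)] at h3
    by_contra hcon
    push Not at hcon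
    have hcon' : (Nat.primeCounting (2 * L) : ℝ) ≤ n := by
      exact_mod_cast (Nat.lt_succ_iff.mp hcon)
    -- (2L - (20ν+2)) ≤ n (20ν+1), n*20ν ≤ L+20ν
    have h6 : (2 * L : ℝ) - (20 * ν + 2) ≤ n * (20 * ν + 1) :=
      h3.trans (mul_le_mul_of_nonneg_right hcon' (by positivity))
    have h7 : ((2 * L : ℝ) - (20 * ν + 2)) * (20 * ν) ≤ (L + 20 * ν) * (20 * ν + 1) := by
      calc ((2 * L : ℝ) - (20 * ν + 2)) * (20 * ν) ≤ (n * (20 * ν + 1)) * (20 * ν) :=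
            mul_le_mul_of_nonneg_right h6 (by positivity)
        _ = (n * (20 * ν)) * (20 * ν + 1) := by ring
        _ ≤ _ := mul_le_mul_of_nonneg_right hn' (by positivity)
    -- L (20ν - 1) ≤ 20ν(20ν+2) + 20ν(20ν+1)
    have h8 : (L : ℝ) * (20 * ν - 1) ≤ 20 * ν * (40 * ν + 3) := by nlinarith
    have hνL : (ν : ℝ) * 2 ^ 15 ≤ L := by
      have h9 : ν * 2 ^ 15 ≤ L := by
        have h10 : ν < 2 ^ ν := Nat.lt_two_pow_self
        calc ν * 2 ^ 15 ≤ 2 ^ ν * 2 ^ 15 := Nat.mul_le_mul_right _ h10.le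
          _ = 2 ^ (ν + 15) := by rw [pow_add]
          _ ≤ L := by rw [hL]; apply Nat.pow_le_pow_right (by norm_num); omega
      exact_mod_cast h9
    have h11 : (ν : ℝ) * 2 ^ 15 * (20 * ν - 1) ≤ 20 * ν * (40 * ν + 3) :=
      le_trans (mul_le_mul_of_nonneg_right hνL (by linarith)) h8
    nlinarith [mul_pos (show (0:ℝ) < ν by linarith) (show (0:ℝ) < ν by linarith)]
  have hcard : ((Nat.primesLE (2 * L)).erase 2).card ≥ n := by
    have h1 := pred_card_le_card_erase (s := Nat.primesLE (2 * L)) (a := 2)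
    rw [Nat.primesLE_card_eq_primeCounting] at h1
    omega
  obtain ⟨P, hP, hPn⟩ := exists_subset_card_eq hcard
  refine ⟨P, hPn, fun p hp => ?_⟩
  have := hP hp
  rw [mem_erase, Nat.mem_primesLE] at this
  exact ⟨this.2.2, this.1, this.2.1⟩

/-- the structured set used throughout -/
structure Core (ν k0 : ℕ) (X : Finset ℕ) (MX : ℕ) : Prop where
  k0_ge : 40 * ν ≤ k0
  k0_le : k0 ≤ 80 * ν
  MX_pos : 0 < MX
  MX_le : MX ≤ 2 ^ (13 * 2 ^ (20 * ν))
  X_card : 2 ^ (2 * 2 ^ (20 * ν)) ≤ X.card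
  X_le : ∀ x ∈ X, x ≤ 2 ^ (14 * 2 ^ (20 * ν))
  slot : ∀ x ∈ X, SlotSum MX k0 1 x
  small : ∀ ρ, Nat.Coprime (primorial (2 * 2 ^ (20 * ν))) ρ → 2 * 2 ^ (20 * ν) < ρ →
    ρ ≤ (2 * 2 ^ (20 * ν)) ^ (2 ^ (5 * ν)) →
    ∀ c, ((X.filter (fun x => x % ρ = c)).card : ℝ) ≤ (ρ : ℝ) ^ (-(1/30) : ℝ) * X.card

lemma k0_exists (ν : ℕ) (hν : 1 ≤ ν) : ∃ m, 40 * ν ≤ 2 ^ m ∧ 2 ^ m ≤ 80 * ν := by
  refine ⟨Nat.clog 2 (40 * ν), Nat.le_pow_clog (by norm_num) _, ?_⟩
  have h1 : 2 ^ (Nat.clog 2 (40 * ν)).pred < 40 * ν :=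
    Nat.pow_pred_clog_lt_self (by norm_num) (by omega)
  have h2 : 0 < Nat.clog 2 (40 * ν) := Nat.clog_pos (by norm_num) (by omega)
  have h3 : 2 ^ (Nat.clog 2 (40 * ν)) = 2 * 2 ^ (Nat.clog 2 (40 * ν)).pred := by
    rw [← pow_succ']
    congr 1
    exact (Nat.succ_pred_eq_of_pos h2).symm
  omega

lemma nu_pow (ν : ℕ) (hν : 11 ≤ ν) : 160 * ν ≤ 2 ^ ν := by
  induction ν, hν using Nat.le_induction with
  | base => norm_num
  | succ n hn ih =>
    rw [pow_succ]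
    omega

lemma core_arith (ν L ρ n j t C D Xc cnt : ℕ) (hL : L = 2 ^ (20 * ν)) (hν : 11 ≤ ν) (hρ0 : 0 < ρ)
    (hL0 : 0 < L) (hj1 : ρ ≤ (2 * L) ^ j) (hj3 : 2 ≤ j) (hC0 : 0 < C) (hchoose : 2 ^ (14 * ν * j) ≤ C)
    (hD0 : 0 < D) (hD : 2 ^ n ≤ 2 * D) (ht : t * C ≤ 2 ^ n * (2 * L + 1))
    (hmu : cnt * D ≤ t * Xc) : (cnt : ℝ) ≤ (ρ : ℝ) ^ (-(1/30) : ℝ) * Xc := by
  have hD0' : (0:ℝ) < D := by exact_mod_cast hD0
  have hC0' : (0:ℝ) < C := by exact_mod_cast hC0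
  have h1 : (cnt : ℝ) * D ≤ t * Xc := by exact_mod_cast hmu
  have h2 : (t : ℝ) * C ≤ 2 ^ n * (2 * L + 1) := by exact_mod_cast ht
  have h3 : (2:ℝ) ^ n ≤ 2 * D := by exact_mod_cast hD
  have h4 : (2:ℝ) ^ (14 * ν * j) ≤ C := by exact_mod_cast hchoose
  have h5 : (ρ : ℝ) ^ ((1:ℝ)/30) ≤ 2 ^ (ν * j) := by
    have h6 : (ρ : ℝ) ≤ (2 ^ (ν * j)) ^ 30 := by
      have h7 : ρ ≤ (2 ^ (ν * j)) ^ 30 := by
        calc ρ ≤ (2 * L) ^ j := hj1
          _ = 2 ^ ((20 * ν + 1) * j) := by rw [hL, ← pow_succ', ← pow_mul]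
          _ ≤ 2 ^ (ν * j * 30) := by
              apply Nat.pow_le_pow_right (by norm_num)
              nlinarith
          _ = _ := by rw [pow_mul]
      exact_mod_cast h7
    calc (ρ : ℝ) ^ ((1:ℝ)/30) ≤ ((2 ^ (ν * j)) ^ 30 : ℝ) ^ ((1:ℝ)/30) :=
          Real.rpow_le_rpow (by positivity) h6 (by norm_num)
      _ = 2 ^ (ν * j) := by
          rw [← Real.rpow_natCast ((2:ℝ) ^ (ν * j)) 30, ← Real.rpow_mul (by positivity)]
          norm_num
  have h8 : (2 * L + 1 : ℝ) * 2 * 2 ^ (ν * j) ≤ 2 ^ (14 * ν * j) := by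
    have h9 : (2 * L + 1) * 2 * 2 ^ (ν * j) ≤ 2 ^ (14 * ν * j) := by
      calc (2 * L + 1) * 2 * 2 ^ (ν * j) ≤ 2 ^ (20 * ν + 3) * 2 ^ (ν * j) := by
            apply Nat.mul_le_mul_right
            rw [pow_add, ← hL]
            omega
        _ = 2 ^ (20 * ν + 3 + ν * j) := by rw [← pow_add]
        _ ≤ _ := by
            apply Nat.pow_le_pow_right (by norm_num)
            nlinarith
    exact_mod_cast h9
  have hρ' : (0:ℝ) < ρ := by exact_mod_cast hρ0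
  have hX0 : (0:ℝ) ≤ Xc := by positivity
  have h10 : (ρ : ℝ) ^ (-(1/30) : ℝ) = ((ρ : ℝ) ^ ((1:ℝ)/30))⁻¹ := Real.rpow_neg hρ'.le _
  rw [h10]
  set w := (ρ : ℝ) ^ ((1:ℝ)/30) with hw
  have hw0 : 0 < w := Real.rpow_pos_of_pos hρ' _
  have h11 : (2 * L + 1 : ℝ) * 2 * w ≤ C :=
    le_trans (mul_le_mul_of_nonneg_left h5 (by positivity)) (h8.trans h4)
  have h12 : (cnt : ℝ) * D * C ≤ (2 * D) * (2 * L + 1) * Xc := by
    calc (cnt : ℝ) * D * C ≤ t * Xc * C := mul_le_mul_of_nonneg_right h1 hC0'.le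
      _ = (t * C) * Xc := by ring
      _ ≤ (2 ^ n * (2 * L + 1)) * Xc := mul_le_mul_of_nonneg_right h2 hX0
      _ ≤ _ := by
          apply mul_le_mul_of_nonneg_right _ hX0
          exact mul_le_mul_of_nonneg_right h3 (by positivity)
  have h13 : (cnt : ℝ) * C ≤ 2 * (2 * L + 1) * Xc := by
    have h14 : ((cnt : ℝ) * C) * D ≤ (2 * (2 * L + 1) * Xc) * D := by
      calc ((cnt : ℝ) * C) * D = cnt * D * C := by ring
        _ ≤ _ := h12
        _ = _ := by ring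
    exact le_of_mul_le_mul_right h14 hD0'
  have hcnt0 : (0:ℝ) ≤ cnt := by positivity
  have h15 : cnt * w * ((2 * L + 1 : ℝ) * 2) ≤ Xc * ((2 * L + 1 : ℝ) * 2) := by
    calc cnt * w * ((2 * L + 1 : ℝ) * 2) = cnt * ((2 * L + 1 : ℝ) * 2 * w) := by ring
      _ ≤ cnt * C := mul_le_mul_of_nonneg_left h11 hcnt0
      _ ≤ _ := h13
      _ = _ := by ring
  have h16 : (cnt : ℝ) * w ≤ Xc := le_of_mul_le_mul_right h15 (by positivity)
  rw [inv_mul_eq_div, le_div_iff₀ hw0]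
  exact h16

theorem core_exists (ν : ℕ) (hν : 11 ≤ ν) : ∃ k0 X MX, Core ν k0 X MX := by
  classical
  obtain ⟨m, hm1, hm2⟩ := k0_exists ν (by omega)
  set L := 2 ^ (20 * ν) with hL
  have h160 := nu_pow ν hν
  have hνL : 160 * ν ≤ 2 ^ ν := h160
  have hLν : 2 ^ ν * 2 ^ 19 ≤ L := by
    rw [hL, ← pow_add]
    exact Nat.pow_le_pow_right (by norm_num) (by omega)
  have hmle : m ≤ 20 * ν + 1 := by
    by_contra hcon
    push Not at hcon
    have : 2 ^ (20 * ν + 1) ≤ 2 ^ m := Nat.pow_le_pow_right (by norm_num) (by omega)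
    rw [pow_succ] at this
    omega
  set q := 2 ^ (20 * ν + 1 - m) with hq
  have hqk : q * 2 ^ m = 2 * L := by
    rw [hq, ← pow_add, Nat.sub_add_cancel hmle, pow_succ, mul_comm]
  set n := q + 1 with hn
  have hn20 : n * (20 * ν) ≤ 2 ^ (20 * ν) + 20 * ν := by
    rw [hn, add_mul, one_mul]
    have : q * (40 * ν) ≤ q * 2 ^ m := Nat.mul_le_mul_left _ hm1
    have h2 : q * (40 * ν) = 2 * (q * (20 * ν)) := by ring
    omega
  obtain ⟨P, hPn, hP⟩ := primes_exist ν (by omega) n hn20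
  have hPprime : ∀ p ∈ P, p.Prime := fun p hp => (hP p hp).1
  have hD1 : (DD P).card ≤ 2 ^ n := by
    rw [card_DD P hPprime, ← hPn]
    exact card_subs_le P
  have hD2 : 2 ^ q ≤ (DD P).card := by
    have := le_card_subs P
    rw [card_DD P hPprime]
    rw [hPn, hn, pow_succ] at this
    omega
  have hMD0 : 0 < ∏ p ∈ P, p := prod_pos (fun p hp => (hPprime p hp).pos)
  have hMDle : ∏ p ∈ P, p ≤ 2 ^ (4 * L) := by
    have h1 : ∏ p ∈ P, p ∣ primorial (2 * L) := by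
      rw [primorial_eq_prod_primesLE]
      apply prod_dvd_prod_of_subset
      intro p hp
      rw [Nat.mem_primesLE]
      exact ⟨(hP p hp).2.2, (hP p hp).1⟩
    calc ∏ p ∈ P, p ≤ primorial (2 * L) := Nat.le_of_dvd (primorial_pos _) h1
      _ ≤ 4 ^ (2 * L) := primorial_le_four_pow _
      _ = 2 ^ (4 * L) := by
        rw [show (4:ℕ) = 2 ^ 2 by norm_num, ← pow_mul]
        congr 1
        ring
  have hDdvd : ∀ d ∈ DD P, d ∣ ∏ p ∈ P, p ∧ Odd d := by
    intro d hd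
    obtain ⟨S, hS, rfl⟩ := mem_image.mp hd
    have hSP := mem_powerset.mp (mem_filter.mp hS).1
    refine ⟨prod_dvd_prod_of_subset _ _ _ hSP, ?_⟩
    apply Finset.prod_induction _ (fun x => Odd x) (fun a b ha hb => ha.mul hb) odd_one
    intro p hp
    exact (hPprime p (hSP hp)).odd_of_ne_two (hP p (hSP hp)).2.1
  obtain ⟨X, M, hM0, hMle, hXcard, hslot, hmu⟩ := tree (DD P) (∏ p ∈ P, p) n hMD0 hDdvd hD1 m
  have h7k : 7 * 2 ^ m ≤ L := by omega
  have hMle2 : M ≤ 2 ^ (13 * L) := by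
    calc M ≤ (∏ p ∈ P, p) * 2 ^ ((4 * n + 3) * (2 ^ m - 1)) := hMle
      _ ≤ 2 ^ (4 * L) * 2 ^ ((4 * n + 3) * 2 ^ m) := by
          apply Nat.mul_le_mul hMDle
          apply Nat.pow_le_pow_right (by norm_num)
          exact Nat.mul_le_mul_left _ (Nat.sub_le _ _)
      _ = 2 ^ (4 * L + (4 * n + 3) * 2 ^ m) := by rw [pow_add]
      _ ≤ 2 ^ (13 * L) := by
          apply Nat.pow_le_pow_right (by norm_num)
          have : (4 * n + 3) * 2 ^ m = 4 * (q * 2 ^ m) + 7 * 2 ^ m := by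
            rw [hn]; ring
          omega
  refine ⟨2 ^ m, X, M, ⟨hm1, hm2, hM0, hMle2, ?_, ?_, hslot, ?_⟩⟩
  · rw [hXcard]
    calc 2 ^ (2 * L) = (2 ^ q) ^ (2 ^ m) := by rw [← pow_mul, hqk]
      _ ≤ (DD P).card ^ (2 ^ m) := Nat.pow_le_pow_left hD2 _
  · intro x hx
    obtain ⟨g, hg, rfl⟩ := hslot x hx
    calc ∑ s ∈ range (2 ^ m), g s ≤ ∑ _s ∈ range (2 ^ m), M :=
          sum_le_sum (fun s hs => Nat.le_of_dvd hM0 (hg s (mem_range.mp hs)).1)
      _ = 2 ^ m * M := by rw [sum_const, card_range, smul_eq_mul]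
      _ ≤ 2 ^ L * 2 ^ (13 * L) := by
          apply Nat.mul_le_mul _ hMle2
          have h1 : L < 2 ^ L := Nat.lt_two_pow_self
          omega
      _ = 2 ^ (14 * 2 ^ (20 * ν)) := by rw [← hL, ← pow_add]; congr 1; ring
  · intro ρ hcop hρ1 hρ2 c
    rw [← hL] at hρ1 hρ2 hcop
    have hρ0 : 0 < ρ := by omega
    -- find j
    have hex : ∃ j, ρ ≤ (2 * L) ^ j := ⟨_, hρ2⟩
    set j := Nat.find hex with hj
    have hj1 : ρ ≤ (2 * L) ^ j := Nat.find_spec hex
    have hj2 : j ≤ 2 ^ (5 * ν) := Nat.find_min' hex hρ2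
    have hL0 : 0 < L := by positivity
    have hj3 : 2 ≤ j := by
      by_contra hcon
      have : j = 0 ∨ j = 1 := by omega
      rcases this with h | h
      · rw [h] at hj1; simp at hj1; omega
      · rw [h] at hj1; simp at hj1; omega
    have hj4 : (2 * L) ^ (j - 1) < ρ := by
      by_contra hcon
      push Not at hcon
      have := Nat.find_min' hex hcon
      omega
    have hdiv : (2 * L) ^ j / ρ ≤ 2 * L := by
      apply Nat.div_le_of_le_mul
      calc (2 * L) ^ j = (2 * L) ^ (j - 1) * (2 * L) := by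
            rw [← pow_succ]; congr 1; omega
        _ ≤ ρ * (2 * L) := Nat.mul_le_mul_right _ hj4.le
    have hcopP : ∀ p ∈ P, Nat.Coprime p ρ := by
      intro p hp
      apply Nat.Coprime.coprime_dvd_left _ hcop
      rw [primorial_eq_prod_primesLE]
      apply dvd_prod_of_mem
      rw [Nat.mem_primesLE]
      exact ⟨(hP p hp).2.2, (hP p hp).1⟩
    have hchoose : 2 ^ (14 * ν * j) ≤ ((P.card + 1) / 2).choose j := by
      rw [pow_mul]
      apply choose_ge _ _ _ (by omega)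
      rw [hPn, hn]
      have h1 : j * (2 ^ (14 * ν) + 1) ≤ 2 ^ (19 * ν + 1) := by
        calc j * (2 ^ (14 * ν) + 1) ≤ 2 ^ (5 * ν) * (2 * 2 ^ (14 * ν)) := by
              apply Nat.mul_le_mul hj2
              have : 1 ≤ 2 ^ (14 * ν) := Nat.one_le_two_pow
              omega
          _ = 2 ^ (19 * ν + 1) := by
              rw [← pow_succ', ← pow_add]
              congr 1
              ring
      have h2 : 2 * 2 ^ (19 * ν + 1) ≤ q := by
        have h3 : 2 * 2 ^ (19 * ν + 1) * (80 * ν) ≤ q * (80 * ν) := by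
          calc 2 * 2 ^ (19 * ν + 1) * (80 * ν) = 2 ^ (19 * ν + 1) * (160 * ν) := by ring
            _ ≤ 2 ^ (19 * ν + 1) * 2 ^ ν := Nat.mul_le_mul_left _ h160
            _ = 2 * L := by
                rw [hL, ← pow_add, ← pow_succ']
                congr 1
                ring
            _ = q * 2 ^ m := hqk.symm
            _ ≤ q * (80 * ν) := Nat.mul_le_mul_left _ hm2
        exact Nat.le_of_mul_le_mul_right h3 (by omega)
      omega
    set C := ((P.card + 1) / 2).choose j with hC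
    have hC0 : 0 < C := lt_of_lt_of_le (by positivity) hchoose
    set t := 2 ^ n * (2 * L + 1) / C with ht
    have hcount : ∀ c, ((DD P).filter (fun d => d % ρ = c)).card ≤ t := by
      intro c
      rw [ht, Nat.le_div_iff_mul_le hC0]
      have h1 : ((DD P).filter (fun d => d % ρ = c)).card
          ≤ ((subs P).filter (fun S => (∏ p ∈ S, p) % ρ = c)).card := by
        rw [DD, filter_image]
        exact card_image_le
      have h2 := small_range P (2 * L) (fun p hp => ⟨(hP p hp).1, (hP p hp).2.2⟩) ρ hρ0 hcopP j c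
      rw [← hC, hPn] at h2
      calc _ ≤ ((subs P).filter (fun S => (∏ p ∈ S, p) % ρ = c)).card * C :=
            Nat.mul_le_mul_right _ h1
        _ ≤ 2 ^ n * ((2 * L) ^ j / ρ + 1) := h2
        _ ≤ _ := Nat.mul_le_mul_left _ (by omega)
    have hmu' := hmu ρ t hcount c
    exact core_arith ν L ρ n j t C (DD P).card X.card _ hL hν hρ0 hL0 hj1 hj3 hC0 hchoose
      (lt_of_lt_of_le (by positivity) hD2) (by rw [hn, pow_succ]; omega)
      (Nat.div_mul_le_self _ _) hmu'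

end Vale.Agent.P012
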