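import Mathlib

namespace Vale.Agent.P012
open Finset

/-- `q` is a sum of at most `k` distinct unit fractions. -/
def Egy (q : ℚ) (k : ℕ) : Prop :=
  ∃ S : Finset ℕ, 0 ∉ S ∧ S.card ≤ k ∧ ∑ n ∈ S, (1 : ℚ) / n = q

lemma Egy.mono {q : ℚ} {k l : ℕ} (h : Egy q k) (hkl : k ≤ l) : Egy q l := by
  obtain ⟨S, h0, h1, h2⟩ := h
  exact ⟨S, h0, h1.trans hkl, h2⟩

lemma egy_zero (k : ℕ) : Egy 0 k := ⟨∅, by simp, by simp, by simp⟩

/-- Unit fractions all larger than `q2` can be put in front of an expansion of `q2`. -/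
lemma egy_combine {q2 : ℚ} {k2 : ℕ} (S1 : Finset ℕ) (h0 : 0 ∉ S1)
    (hbig : ∀ n ∈ S1, q2 < 1 / (n : ℚ)) (h2 : Egy q2 k2) :
    Egy (∑ n ∈ S1, (1 : ℚ) / n + q2) (S1.card + k2) := by
  classical
  obtain ⟨S2, h20, h21, h22⟩ := h2
  have hdis : Disjoint S1 S2 := by
    rw [disjoint_left]
    intro n hn1 hn2
    have h1 := hbig n hn1
    have h3 : 1 / (n : ℚ) ≤ q2 := by
      rw [← h22]
      exact single_le_sum (f := fun n : ℕ => (1 : ℚ) / n) (fun i _ => by positivity) hn2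
    linarith
  refine ⟨S1 ∪ S2, ?_, ?_, ?_⟩
  · rw [mem_union]; tauto
  · rw [card_union_of_disjoint hdis]; omega
  · rw [sum_union hdis, h22]

/-- the unit fractions `g s / N` -/
lemma unit_fracs (K N : ℕ) (hN : 0 < N) (g : ℕ → ℕ)
    (hg : ∀ s < K, g s ∣ N) (hinj : ∀ s < K, ∀ t < K, g s = g t → s = t) :
    ∃ S : Finset ℕ, 0 ∉ S ∧ S.card ≤ K ∧ ∑ n ∈ S, (1 : ℚ) / n = (∑ s ∈ range K, (g s : ℚ)) / N ∧
      ∀ n ∈ S, ∃ s < K, (1 : ℚ) / n = (g s : ℚ) / N ∧ n * g s = N := by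
  classical
  have hpos : ∀ s < K, 0 < g s := fun s hs => Nat.pos_of_dvd_of_pos (hg s hs) hN
  have hval : ∀ s < K, (1 : ℚ) / ((N / g s : ℕ) : ℚ) = (g s : ℚ) / N := by
    intro s hs
    rw [Nat.cast_div (hg s hs) (by exact_mod_cast (hpos s hs).ne'), one_div_div]
  refine ⟨(range K).image (fun s => N / g s), ?_, ?_, ?_, ?_⟩
  · intro h
    obtain ⟨s, hs, hs2⟩ := mem_image.mp h
    have h1 := hpos s (mem_range.mp hs)
    have h2 := Nat.div_pos (Nat.le_of_dvd hN (hg s (mem_range.mp hs))) h1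
    omega
  · exact card_image_le.trans (by rw [card_range])
  · rw [sum_image, sum_div]
    · apply sum_congr rfl
      intro s hs
      exact hval s (mem_range.mp hs)
    · intro s hs t ht hst
      have hs' := mem_range.mp hs
      have ht' := mem_range.mp ht
      simp only at hst
      apply hinj s hs' t ht'
      have h1 := Nat.div_mul_cancel (hg s hs')
      have h2 := Nat.div_mul_cancel (hg t ht')
      rw [hst] at h1
      have h3 : 0 < N / g t := Nat.div_pos (Nat.le_of_dvd hN (hg t ht')) (hpos t ht')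
      exact Nat.eq_of_mul_eq_mul_left h3 (h1.trans h2.symm)
  · intro n hn
    obtain ⟨s, hs, rfl⟩ := mem_image.mp hn
    exact ⟨s, mem_range.mp hs, hval s (mem_range.mp hs), Nat.div_mul_cancel (hg s (mem_range.mp hs))⟩

/-- one real batch -/
lemma real_step (K D0 B r w r' MR : ℕ) (g : ℕ → ℕ) (k : ℕ) (hB : D0 * MR ∣ B) (hB0 : 0 < B)
    (hw : 0 < w) (hD0 : 0 < D0)
    (hg : ∀ s < K, g s ∣ MR ∧ padicValNat 2 (g s) = s ∧ r < D0 * g s)
    (heq : r * w = D0 * (∑ s ∈ range K, g s) + r') (hr' : r' ≤ r)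
    (h : Egy ((r' : ℚ) / ((B * w : ℕ) : ℚ)) k) : Egy ((r : ℚ) / B) (K + k) := by
  have hBw : 0 < B * w := Nat.mul_pos hB0 hw
  obtain ⟨S, hS0, hSK, hSsum, hS⟩ := unit_fracs K (B * w) hBw (fun s => D0 * g s)
    (fun s hs => Dvd.dvd.mul_right ((Nat.mul_dvd_mul_left D0 (hg s hs).1).trans hB) w)
    (fun s hs t ht hst => by
      have : g s = g t := Nat.eq_of_mul_eq_mul_left hD0 hst
      rw [← (hg s hs).2.1, ← (hg t ht).2.1, this])
  have hq : (0 : ℚ) < ((B * w : ℕ) : ℚ) := by exact_mod_cast hBw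
  have hcomb := egy_combine S hS0 (q2 := (r' : ℚ) / ((B * w : ℕ) : ℚ)) (k2 := k) (fun n hn => by
    obtain ⟨s, hs, h1, _⟩ := hS n hn
    rw [h1]
    apply div_lt_div_of_pos_right _ hq
    exact_mod_cast lt_of_le_of_lt hr' (hg s hs).2.2) h
  have hval : ∑ n ∈ S, (1 : ℚ) / n + (r' : ℚ) / ((B * w : ℕ) : ℚ) = (r : ℚ) / B := by
    rw [hSsum, ← add_div]
    have e1 : ((∑ s ∈ range K, ((D0 * g s : ℕ) : ℚ)) + (r' : ℚ)) = (r : ℚ) * w := by
      have : ((D0 * (∑ s ∈ range K, g s) + r' : ℕ) : ℚ) = ((r * w : ℕ) : ℚ) := by rw [heq]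
      push_cast at this ⊢
      rw [← this, mul_sum]
    rw [e1]
    push_cast
    have hw' : (w : ℚ) ≠ 0 := by exact_mod_cast hw.ne'
    have hB' : (B : ℚ) ≠ 0 := by exact_mod_cast hB0.ne'
    field_simp
  rw [hval] at hcomb
  exact hcomb.mono (by omega)

/-- the final batch -/
lemma mod_step (K B r W w' MM : ℕ) (g : ℕ → ℕ) (hB : MM ∣ B) (hB0 : 0 < B)
    (hW : 0 < W) (hw' : 0 < w') (hrW : 1 < r * W)
    (hg : ∀ s < K, g s ∣ MM ∧ padicValNat 2 (g s) = s ∧ w' < g s)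
    (heq : (r * W - 1) * w' = ∑ s ∈ range K, g s) :
    Egy ((r : ℚ) / B) (K + 1) := by
  have hN : 0 < B * W * w' := Nat.mul_pos (Nat.mul_pos hB0 hW) hw'
  obtain ⟨S, hS0, hSK, hSsum, hS⟩ := unit_fracs K (B * W * w') hN g
    (fun s hs => Dvd.dvd.mul_right (Dvd.dvd.mul_right ((hg s hs).1.trans hB) W) w')
    (fun s hs t ht hst => by
      rw [← (hg s hs).2.1, ← (hg t ht).2.1, hst])
  have hq : (0 : ℚ) < ((B * W * w' : ℕ) : ℚ) := by exact_mod_cast hN
  have hBW : 0 < B * W := Nat.mul_pos hB0 hW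
  have hEgy1 : Egy ((1 : ℚ) / ((B * W : ℕ) : ℚ)) 1 :=
    ⟨{B * W}, by simp; omega, by simp, by simp⟩
  have hcomb := egy_combine S hS0 (q2 := (1 : ℚ) / ((B * W : ℕ) : ℚ)) (k2 := 1) (fun n hn => by
    obtain ⟨s, hs, h1, h2⟩ := hS n hn
    have h3 := (hg s hs).2.2
    have hn0 : 0 < n := by
      rcases Nat.eq_zero_or_pos n with h | h
      · rw [h] at hn; exact absurd hn hS0
      · exact h
    have h4 : n < B * W := by
      by_contra hcon
      push Not at hcon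
      have : B * W * w' < n * g s :=
        calc B * W * w' < B * W * g s := Nat.mul_lt_mul_of_pos_left h3 hBW
          _ ≤ n * g s := Nat.mul_le_mul_right _ hcon
      omega
    apply one_div_lt_one_div_of_lt
    · exact_mod_cast hn0
    · exact_mod_cast h4) hEgy1
  have hval : ∑ n ∈ S, (1 : ℚ) / n + (1 : ℚ) / ((B * W : ℕ) : ℚ) = (r : ℚ) / B := by
    rw [hSsum]
    have e1 : (∑ s ∈ range K, ((g s : ℕ) : ℚ)) = ((r : ℚ) * W - 1) * w' := by
      have h1 : ((∑ s ∈ range K, g s : ℕ) : ℚ) = (((r * W - 1) * w' : ℕ) : ℚ) := by rw [heq]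
      rw [Nat.cast_mul, Nat.cast_sub hrW.le] at h1
      push_cast at h1
      exact h1
    rw [e1]
    push_cast
    have h1 : (W : ℚ) ≠ 0 := by exact_mod_cast hW.ne'
    have h2 : (B : ℚ) ≠ 0 := by exact_mod_cast hB0.ne'
    have h3 : (w' : ℚ) ≠ 0 := by exact_mod_cast hw'.ne'
    field_simp
    ring
  rw [hval] at hcomb
  exact hcomb.mono (by omega)

/-- the chain of divisors -/
lemma chain (E Q' y : ℕ) (hQ' : 0 < Q') (hQ'le : Q' ≤ 2 ^ E) (hy1 : 1 ≤ y) (hy2 : y ≤ 2 ^ E * Q') :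
    ∃ D0, D0 ∣ 2 ^ E * Q' ∧ 0 < D0 ∧ D0 ≤ y ∧ y < 2 * D0 := by
  rcases le_or_gt y (2 ^ E) with h | h
  · refine ⟨2 ^ (Nat.log 2 y), ?_, by positivity, Nat.pow_log_le_self 2 (by omega), ?_⟩
    · apply Dvd.dvd.mul_right
      apply pow_dvd_pow
      calc Nat.log 2 y ≤ Nat.log 2 (2 ^ E) := Nat.log_mono_right h
        _ = E := Nat.log_pow (by norm_num) E
    · have := Nat.lt_pow_succ_log_self (b := 2) (by norm_num) y
      rw [pow_succ] at this
      omega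
  · set j := Nat.log 2 (y / Q') with hj
    have hyQ : 1 ≤ y / Q' := (Nat.one_le_div_iff hQ').mpr (by omega)
    have h1 : 2 ^ j ≤ y / Q' := Nat.pow_log_le_self 2 (by omega)
    have h2 : y / Q' < 2 ^ (j + 1) := Nat.lt_pow_succ_log_self (b := 2) (by norm_num) _
    have h3 : 2 ^ j * Q' ≤ y := (Nat.mul_le_mul_right _ h1).trans (Nat.div_mul_le_self y Q')
    have h4 : y < 2 ^ (j + 1) * Q' := (Nat.div_lt_iff_lt_mul hQ').mp h2
    have h5 : j ≤ E := by
      have : 2 ^ j * Q' ≤ 2 ^ E * Q' := h3.trans hy2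
      have h6 := Nat.le_of_mul_le_mul_right this hQ'
      exact (Nat.pow_le_pow_iff_right (by norm_num)).mp h6
    refine ⟨2 ^ j * Q', ?_, by positivity, h3, ?_⟩
    · exact Nat.mul_dvd_mul_right (pow_dvd_pow 2 h5) Q'
    · rw [pow_succ] at h4
      calc y < 2 ^ j * 2 * Q' := h4
        _ = 2 * (2 ^ j * Q') := by ring

end Vale.Agent.P012
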