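import Mathlib

namespace Vale.Agent.P012
open Finset

/-- the additive character `e(x) = exp(2 pi i x)` -/
noncomputable def ee (x : ℝ) : ℂ := Complex.exp (((2 * Real.pi * x : ℝ) : ℂ) * Complex.I)

lemma ee_add (x y : ℝ) : ee (x + y) = ee x * ee y := by
  unfold ee
  rw [← Complex.exp_add]
  congr 1
  push_cast
  ring

lemma norm_ee (x : ℝ) : ‖ee x‖ = 1 := by
  unfold ee
  exact Complex.norm_exp_ofReal_mul_I _

lemma ee_zero : ee 0 = 1 := by
  unfold ee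
  simp

lemma ee_int (n : ℤ) : ee n = 1 := by
  unfold ee
  rw [Complex.exp_eq_one_iff]
  exact ⟨n, by push_cast; ring⟩

lemma ee_add_int (x : ℝ) (n : ℤ) : ee (x + n) = ee x := by
  rw [ee_add, ee_int, mul_one]

lemma ee_sub_int (x : ℝ) (n : ℤ) : ee (x - n) = ee x := by
  have := ee_add_int x (-n)
  push_cast at this
  rw [← this]
  ring_nf

lemma ee_neg (x : ℝ) : ee (-x) = (starRingEnd ℂ) (ee x) := by
  unfold ee
  rw [← Complex.exp_conj]
  congr 1
  rw [map_mul, Complex.conj_ofReal, Complex.conj_I]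
  push_cast
  ring

lemma ee_ne_zero (x : ℝ) : ee x ≠ 0 := Complex.exp_ne_zero _

lemma ee_nat_mul (n : ℕ) (x : ℝ) : ee (n * x) = ee x ^ n := by
  unfold ee
  rw [← Complex.exp_nat_mul]
  congr 1
  push_cast
  ring

lemma ee_sum {ι : Type*} (s : Finset ι) (f : ι → ℝ) : ee (∑ i ∈ s, f i) = ∏ i ∈ s, ee (f i) := by
  classical
  induction s using Finset.induction_on with
  | empty => simp [ee_zero]
  | insert a s ha ih => rw [sum_insert ha, prod_insert ha, ee_add, ih]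

lemma norm_ee_sub_one {x δ : ℝ} (k : ℤ) (h1 : δ ≤ |x - k|) (h2 : |x - k| ≤ 1 / 2) :
    4 * δ ≤ ‖ee x - 1‖ := by
  rw [← ee_sub_int x k]
  set y := x - k
  have h3 : ‖ee y - 1‖ = 2 * |Real.sin (Real.pi * y)| := by
    have : ee y = Complex.exp (Complex.I * ((2 * Real.pi * y : ℝ) : ℂ)) := by
      unfold ee; rw [mul_comm]
    rw [this, Complex.norm_exp_I_mul_ofReal_sub_one]
    rw [norm_mul, Real.norm_eq_abs, Real.norm_eq_abs, abs_of_pos (by norm_num : (0:ℝ) < 2)]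
    congr 3
    ring
  rw [h3]
  have h4 : |Real.sin (Real.pi * y)| = Real.sin (Real.pi * |y|) := by
    rcases le_total 0 y with hy | hy
    · rw [abs_of_nonneg hy]
      rw [abs_of_nonneg hy] at h2
      apply abs_of_nonneg
      apply Real.sin_nonneg_of_nonneg_of_le_pi (by positivity)
      nlinarith [Real.pi_pos]
    · rw [abs_of_nonpos hy]
      rw [abs_of_nonpos hy] at h2
      have : Real.pi * y = -(Real.pi * (-y)) := by ring
      rw [this, Real.sin_neg, abs_neg]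
      apply abs_of_nonneg
      apply Real.sin_nonneg_of_nonneg_of_le_pi
      · have := Real.pi_pos
        nlinarith
      · nlinarith [Real.pi_pos]
  rw [h4]
  have h5 : 2 / Real.pi * (Real.pi * |y|) ≤ Real.sin (Real.pi * |y|) := by
    apply Real.mul_le_sin (by positivity)
    nlinarith [Real.pi_pos]
  have h6 : 2 / Real.pi * (Real.pi * |y|) = 2 * |y| := by
    field_simp
  rw [h6] at h5
  linarith

lemma norm_geom {x δ : ℝ} (k : ℤ) (hδ : 0 < δ) (h1 : δ ≤ |x - k|) (h2 : |x - k| ≤ 1 / 2) (n : ℕ) :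
    ‖∑ v ∈ range n, ee (v * x)‖ ≤ 1 / (2 * δ) := by
  have h := norm_ee_sub_one k h1 h2
  have hne : ee x - 1 ≠ 0 := by
    intro h0
    rw [h0] at h
    simp at h
    linarith
  have h3 : ∑ v ∈ range n, ee (v * x) = (ee x ^ n - 1) / (ee x - 1) := by
    rw [← geom_sum_eq (sub_ne_zero.mp hne)]
    apply sum_congr rfl
    intro v _
    exact ee_nat_mul v x
  rw [h3, norm_div]
  have h4 : ‖ee x ^ n - 1‖ ≤ 2 := by
    calc ‖ee x ^ n - 1‖ ≤ ‖ee x ^ n‖ + ‖(1:ℂ)‖ := norm_sub_le _ _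
      _ = 2 := by rw [norm_pow, norm_ee]; norm_num
  rw [div_le_div_iff₀ (by linarith) (by linarith)]
  nlinarith [norm_nonneg (ee x ^ n - 1)]

/-- expansion of the square of the norm of an exponential sum -/
lemma norm_sq_sum (X : Finset ℕ) (α : ℝ) :
    ((‖∑ x ∈ X, ee (α * x)‖ ^ 2 : ℝ) : ℂ) = ∑ p ∈ X ×ˢ X, ee (α * ((p.1 : ℝ) - p.2)) := by
  have h1 : ((‖∑ x ∈ X, ee (α * x)‖ ^ 2 : ℝ) : ℂ)
      = (∑ x ∈ X, ee (α * x)) * (starRingEnd ℂ) (∑ x ∈ X, ee (α * x)) := by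
    rw [Complex.mul_conj]
    norm_cast
    rw [Complex.normSq_eq_norm_sq]
  rw [h1, map_sum, sum_mul_sum, ← sum_product']
  apply sum_congr rfl
  intro p _
  rw [← ee_neg, ← ee_add]
  congr 1
  ring

/-- average of `|S(λ α)|^2` over the multipliers `λ = c(2v+1)`, `v ∈ [U, 2U)` -/
lemma sum_sq_le (X : Finset ℕ) (c U : ℕ) (α δ : ℝ) (hδ : 0 < δ) (Bad : Finset (ℕ × ℕ))
    (hBad : ∀ p ∈ X ×ˢ X, p ∉ Bad → ∃ k : ℤ, δ ≤ |2 * c * α * ((p.1 : ℝ) - p.2) - k| ∧
      |2 * c * α * ((p.1 : ℝ) - p.2) - k| ≤ 1 / 2) :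
    ∑ v ∈ Ico U (2 * U), ‖∑ x ∈ X, ee (((c * (2 * v + 1) : ℕ) : ℝ) * α * x)‖ ^ 2
      ≤ (Bad.card : ℝ) * U + (X.card : ℝ) ^ 2 / (2 * δ) := by
  classical
  have h1 : ((∑ v ∈ Ico U (2 * U), ‖∑ x ∈ X, ee (((c * (2 * v + 1) : ℕ) : ℝ) * α * x)‖ ^ 2 : ℝ) : ℂ)
      = ∑ p ∈ X ×ˢ X, ∑ v ∈ Ico U (2 * U), ee (((c * (2 * v + 1) : ℕ) : ℝ) * α * ((p.1 : ℝ) - p.2)) := by
    rw [sum_comm, Complex.ofReal_sum]
    apply sum_congr rfl
    intro v _
    exact norm_sq_sum X _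
  have h2 : ∑ v ∈ Ico U (2 * U), ‖∑ x ∈ X, ee (((c * (2 * v + 1) : ℕ) : ℝ) * α * x)‖ ^ 2
      ≤ ∑ p ∈ X ×ˢ X,
        ‖∑ v ∈ Ico U (2 * U), ee (((c * (2 * v + 1) : ℕ) : ℝ) * α * ((p.1 : ℝ) - p.2))‖ := by
    have h3 : 0 ≤ ∑ v ∈ Ico U (2 * U), ‖∑ x ∈ X, ee (((c * (2 * v + 1) : ℕ) : ℝ) * α * x)‖ ^ 2 :=
      sum_nonneg fun _ _ => by positivity
    rw [← Complex.norm_of_nonneg h3, h1]
    exact norm_sum_le _ _
  refine h2.trans ?_
  have h4 : ∀ p ∈ X ×ˢ X,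
      ‖∑ v ∈ Ico U (2 * U), ee (((c * (2 * v + 1) : ℕ) : ℝ) * α * ((p.1 : ℝ) - p.2))‖
        ≤ (if p ∈ Bad then (U : ℝ) else 0) + 1 / (2 * δ) := by
    intro p hp
    split_ifs with hb
    · have : ‖∑ v ∈ Ico U (2 * U), ee (((c * (2 * v + 1) : ℕ) : ℝ) * α * ((p.1 : ℝ) - p.2))‖
          ≤ U := by
        refine (norm_sum_le _ _).trans ?_
        simp only [norm_ee, sum_const, Nat.card_Ico, nsmul_eq_mul, mul_one]
        have : 2 * U - U = U := by omega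
        rw [this]
      have h0 : 0 < 1 / (2 * δ) := by positivity
      linarith
    · obtain ⟨k, hk1, hk2⟩ := hBad p hp hb
      rw [zero_add]
      have h5 : ∑ v ∈ Ico U (2 * U), ee (((c * (2 * v + 1) : ℕ) : ℝ) * α * ((p.1 : ℝ) - p.2))
          = ee (((c * (2 * U + 1) : ℕ) : ℝ) * α * ((p.1 : ℝ) - p.2)) *
            ∑ v ∈ range U, ee (v * (2 * c * α * ((p.1 : ℝ) - p.2))) := by
        rw [sum_Ico_eq_sum_range, mul_sum]
        have : 2 * U - U = U := by omega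
        rw [this]
        apply sum_congr rfl
        intro v _
        rw [← ee_add]
        congr 1
        push_cast
        ring
      rw [h5, norm_mul, norm_ee, one_mul]
      exact norm_geom k hδ hk1 hk2 U
  refine (sum_le_sum h4).trans ?_
  rw [sum_add_distrib, ← sum_filter, sum_const, sum_const, nsmul_eq_mul, nsmul_eq_mul]
  have h6 : (((X ×ˢ X).filter (· ∈ Bad)).card : ℝ) ≤ Bad.card := by
    exact_mod_cast card_le_card (fun p hp => (mem_filter.mp hp).2)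
  have h7 : ((X ×ˢ X).card : ℝ) = (X.card : ℝ) ^ 2 := by
    rw [card_product]; push_cast; ring
  rw [h7]
  have h8 : (X.card : ℝ) ^ 2 * (1 / (2 * δ)) = (X.card : ℝ) ^ 2 / (2 * δ) := by ring
  rw [h8]
  have : (((X ×ˢ X).filter (· ∈ Bad)).card : ℝ) * U ≤ Bad.card * U := by
    apply mul_le_mul_of_nonneg_right h6 (by positivity)
  linarith

/-- detecting divisibility by exponential sums -/
lemma sum_ee_div (N : ℕ) (hN : 0 < N) (z : ℤ) :
    ∑ θ ∈ range N, ee ((θ : ℝ) * z / N) = if (N : ℤ) ∣ z then (N : ℂ) else 0 := by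
  split_ifs with h
  · obtain ⟨k, rfl⟩ := h
    have : ∀ θ ∈ range N, ee ((θ : ℝ) * ((N * k : ℤ) : ℝ) / N) = 1 := by
      intro θ _
      have : (θ : ℝ) * ((N * k : ℤ) : ℝ) / N = ((θ * k : ℤ) : ℝ) := by
        push_cast
        field_simp
      rw [this, ee_int]
    rw [sum_congr rfl this]
    simp
  · have h1 : ∀ θ ∈ range N, ee ((θ : ℝ) * z / N) = ee ((z : ℝ) / N) ^ θ := by
      intro θ _
      rw [← ee_nat_mul]
      congr 1
      ring
    rw [sum_congr rfl h1]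
    have h2 : ee ((z : ℝ) / N) ≠ 1 := by
      intro h3
      unfold ee at h3
      rw [Complex.exp_eq_one_iff] at h3
      obtain ⟨n, hn⟩ := h3
      apply h
      refine ⟨n, ?_⟩
      have h4 : ((2 * Real.pi * ((z : ℝ) / N) : ℝ) : ℂ) = ((2 * Real.pi * n : ℝ) : ℂ) := by
        have h5 : ((2 * Real.pi * ((z : ℝ) / N) : ℝ) : ℂ) * Complex.I
            = ((2 * Real.pi * n : ℝ) : ℂ) * Complex.I := by
          rw [hn]; push_cast; ring
        exact mul_right_cancel₀ Complex.I_ne_zero h5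
      have h6 : 2 * Real.pi * ((z : ℝ) / N) = 2 * Real.pi * n := by exact_mod_cast h4
      have h7 : (z : ℝ) / N = n := by
        have : (2 * Real.pi) ≠ 0 := by positivity
        exact mul_left_cancel₀ this h6
      have h8 : (z : ℝ) = N * n := by
        have : (N : ℝ) ≠ 0 := by positivity
        field_simp at h7
        linarith
      exact_mod_cast h8
    rw [geom_sum_eq h2]
    have h3 : ee ((z : ℝ) / N) ^ N = 1 := by
      rw [← ee_nat_mul]
      have : (N : ℝ) * ((z : ℝ) / N) = ((z : ℤ) : ℝ) := by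
        field_simp
      rw [this, ee_int]
    rw [h3]
    simp

/-- hitting a residue class: if the nontrivial Fourier coefficients are small in total, then the
sumset of the sets `Z j` (shifted by `t`) contains a multiple of `N` -/
lemma hit {J : Type*} [Fintype J] [DecidableEq J] (N : ℕ) (hN : 0 < N) (Z : J → Finset ℤ) (t : ℤ)
    (H : ∑ θ ∈ Ico 1 N, ∏ j, ‖∑ z ∈ Z j, ee ((θ : ℝ) * z / N)‖ < ∏ j, ((Z j).card : ℝ)) :
    ∃ z : J → ℤ, (∀ j, z j ∈ Z j) ∧ (N : ℤ) ∣ t + ∑ j, z j := by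
  by_contra hcon
  push Not at hcon
  have h1 : ∑ z ∈ Fintype.piFinset Z, ∑ θ ∈ range N, ee ((θ : ℝ) * ((t + ∑ j, z j : ℤ) : ℝ) / N)
      = 0 := by
    apply sum_eq_zero
    intro z hz
    rw [sum_ee_div N hN, if_neg]
    exact hcon z (fun j => (Fintype.mem_piFinset.mp hz) j)
  rw [sum_comm] at h1
  have h2 : ∀ θ ∈ range N, ∑ z ∈ Fintype.piFinset Z, ee ((θ : ℝ) * ((t + ∑ j, z j : ℤ) : ℝ) / N)
      = ee ((θ : ℝ) * t / N) * ∏ j, ∑ z ∈ Z j, ee ((θ : ℝ) * z / N) := by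
    intro θ _
    rw [prod_univ_sum, mul_sum]
    apply sum_congr rfl
    intro z _
    rw [← ee_sum, ← ee_add]
    congr 1
    push_cast
    rw [mul_add, add_div, mul_sum, sum_div]
  rw [sum_congr rfl h2, range_eq_Ico, sum_eq_sum_Ico_succ_bot hN] at h1
  simp only [Nat.cast_zero, zero_mul, zero_div, ee_zero, one_mul, sum_const, nsmul_eq_mul, mul_one,
    zero_add] at h1
  have h3 : (∏ j, ((Z j).card : ℝ)) ≤ ∑ θ ∈ Ico 1 N, ∏ j, ‖∑ z ∈ Z j, ee ((θ : ℝ) * z / N)‖ := by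
    have h4 : (∏ j, ((Z j).card : ℂ)) = - ∑ θ ∈ Ico 1 N, ee ((θ : ℝ) * t / N) *
        ∏ j, ∑ z ∈ Z j, ee ((θ : ℝ) * z / N) := by
      linear_combination h1
    have h5 : (∏ j, ((Z j).card : ℝ)) = ‖(∏ j, ((Z j).card : ℂ))‖ := by
      rw [norm_prod]
      simp
    rw [h5, h4, norm_neg]
    refine (norm_sum_le _ _).trans (sum_le_sum fun θ _ => ?_)
    rw [norm_mul, norm_ee, one_mul, norm_prod]
  linarith

end Vale.Agent.P012
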