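import Mathlib
import Vale.Agent.P012.Egy

namespace Vale.Agent.P012
open Finset

/-- One step of the greedy algorithm. -/
lemma greedy_num (r B : ℕ) (hr : 0 < r) (hrB : r < B) :
    ∃ n r', 2 ≤ n ∧ r' < r ∧ r * n = B + r' := by
  refine ⟨(B + r - 1) / r, r * ((B + r - 1) / r) - B, ?_, ?_, ?_⟩
  · rw [Nat.le_div_iff_mul_le hr]; omega
  · have h1 := Nat.mul_div_le (B + r - 1) r
    have h2 := Nat.lt_mul_div_succ (B + r - 1) hr
    rw [mul_add, mul_one] at h2
    omega
  · have h1 := Nat.mul_div_le (B + r - 1) r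
    have h2 := Nat.lt_mul_div_succ (B + r - 1) hr
    rw [mul_add, mul_one] at h2
    omega

lemma greedy_step (r B n r' k : ℕ) (hrB : r < B) (hn : 2 ≤ n) (hr' : r' < r)
    (heq : r * n = B + r') (h : Egy ((r' : ℚ) / ((B * n : ℕ) : ℚ)) k) :
    Egy ((r : ℚ) / B) (1 + k) := by
  have hB : (0 : ℚ) < B := by exact_mod_cast (by omega : 0 < B)
  have hn0 : (0 : ℚ) < n := by exact_mod_cast (by omega : 0 < n)
  have hcomb := egy_combine {n} (by simp; omega) (q2 := (r' : ℚ) / ((B * n : ℕ) : ℚ)) (k2 := k)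
    (fun m hm => by
      rw [mem_singleton] at hm
      subst hm
      push_cast
      rw [div_lt_div_iff₀ (by positivity) hn0]
      have : (r' : ℚ) < B := by exact_mod_cast (by omega : r' < B)
      nlinarith) h
  rw [sum_singleton, card_singleton] at hcomb
  have hval : (1 : ℚ) / n + (r' : ℚ) / ((B * n : ℕ) : ℚ) = (r : ℚ) / B := by
    have h1 : ((r * n : ℕ) : ℚ) = ((B + r' : ℕ) : ℚ) := by rw [heq]
    push_cast at h1 ⊢
    rw [eq_comm, div_eq_iff hB.ne']
    field_simp
    linarith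
  rw [hval] at hcomb
  exact hcomb

/-- Greedy steps until `2 r T ≤ B`. -/
lemma greedy_loop (b T k : ℕ) (hb : 0 < b)
    (H : ∀ r B, 0 < B → 2 * r * T ≤ B → r ≤ b → B ≤ 2 * b * T * (2 * T + 1) + b →
      Egy ((r : ℚ) / B) k) :
    ∀ m r B X, r < B → T ≤ X ^ (2 ^ m) → 2 * r * X ≤ B → r ≤ b →
      B ≤ 2 * b * T * (2 * T + 1) + b → Egy ((r : ℚ) / B) (m + k) := by
  intro m
  induction m with
  | zero =>
    intro r B X hrB hTX hX hrb hBb
    rw [pow_zero, pow_one] at hTX
    have := H r B (by omega) ((Nat.mul_le_mul_left _ hTX).trans hX) hrb hBb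
    exact this.mono (by omega)
  | succ m ih =>
    intro r B X hrB hTX hX hrb hBb
    rcases le_or_gt (2 * r * T) B with h | h
    · exact (H r B (by omega) h hrb hBb).mono (by omega)
    · have hr : 0 < r := by
        rcases Nat.eq_zero_or_pos r with h0 | h0
        · subst h0; simp at h
        · exact h0
      obtain ⟨n, r', hn, hr', heq⟩ := greedy_num r B hr hrB
      have hnT : n ≤ 2 * T + 1 := by
        by_contra hcon
        push Not at hcon
        have h1 : r * (2 * T + 2) ≤ r * n := Nat.mul_le_mul_left _ hcon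
        rw [heq] at h1
        have h2 : r * (2 * T + 2) = 2 * r * T + 2 * r := by ring
        omega
      have hBn : B * n ≤ 2 * b * T * (2 * T + 1) + b := by
        calc B * n ≤ (2 * r * T) * (2 * T + 1) := Nat.mul_le_mul h.le hnT
          _ ≤ (2 * b * T) * (2 * T + 1) := by gcongr
          _ ≤ _ := Nat.le_add_right _ _
      have hX2 : 2 * r' * X ^ 2 ≤ B * n := by
        -- 2 r X ≤ B and 2 r X ≤ B ≤ r n
        have h1 : 2 * X ≤ n := by
          have : r * (2 * X) ≤ r * n := by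
            calc r * (2 * X) = 2 * r * X := by ring
              _ ≤ B := hX
              _ ≤ r * n := by omega
          exact Nat.le_of_mul_le_mul_left this hr
        calc 2 * r' * X ^ 2 ≤ 2 * r * X ^ 2 := by gcongr
          _ = (2 * r * X) * X := by ring
          _ ≤ B * n := Nat.mul_le_mul hX (by omega)
      have hrBn : r' < B * n := by
        calc r' < r := hr'
          _ < B := hrB
          _ ≤ B * n := Nat.le_mul_of_pos_right _ (by omega)
      have hTX2 : T ≤ (X ^ 2) ^ (2 ^ m) := by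
        rw [← pow_mul, ← pow_succ']; exact hTX
      have := ih r' (B * n) (X ^ 2) hrBn hTX2 hX2 (by omega) hBn
      exact (greedy_step r B n r' _ hrB hn hr' heq this).mono (by omega)

/-- two initial steps -/
lemma greedy (b T k m : ℕ) (hb : 0 < b) (hT : b ^ 3 ≤ T) (hTm : T ≤ 2 ^ (2 ^ m))
    (H : ∀ r B, 0 < B → 2 * r * T ≤ B → r ≤ b → B ≤ 2 * b * T * (2 * T + 1) + b →
      Egy ((r : ℚ) / B) k) (a : ℕ) (hab : a < b) : Egy ((a : ℚ) / b) (2 + m + k) := by
  rcases Nat.eq_zero_or_pos a with h0 | h0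
  · subst h0; simpa using egy_zero _
  obtain ⟨n, r, hn, hr, heq⟩ := greedy_num a b h0 hab
  have hn1 : n ≤ 2 * b := by
    have : n ≤ a * n := Nat.le_mul_of_pos_left _ h0
    omega
  have hrb : r < b * n := by
    calc r < b := by omega
      _ ≤ b * n := Nat.le_mul_of_pos_right _ (by omega)
  suffices Egy ((r : ℚ) / ((b * n : ℕ) : ℚ)) (1 + m + k) from
    (greedy_step a b n r _ hab hn hr heq this).mono (by omega)
  rcases Nat.eq_zero_or_pos r with h1 | h1
  · subst h1; simpa using egy_zero _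
  obtain ⟨n2, r2, hn2, hr2, heq2⟩ := greedy_num r (b * n) h1 hrb
  have hn22 : n2 ≤ b * n + b := by
    have : n2 ≤ r * n2 := Nat.le_mul_of_pos_left _ h1
    omega
  have hb2 : 2 ≤ b := by omega
  -- `n2 ≥ 4`: `r n2 ≥ b n ≥ ... `
  have hX : 2 * r2 * 2 ≤ b * n * n2 := by
    have h3 : b * 2 ≤ b * n := Nat.mul_le_mul_left _ hn
    calc 2 * r2 * 2 ≤ (b * 2) * 2 := by nlinarith
      _ ≤ b * n * n2 := Nat.mul_le_mul h3 hn2
  have hrb2 : r2 < b * n * n2 := by
    calc r2 < b * n := by omega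
      _ ≤ b * n * n2 := Nat.le_mul_of_pos_right _ (by omega)
  have hsize : b * n * n2 ≤ 2 * b * T * (2 * T + 1) + b := by
    have e1 : b * n ≤ b * (2 * b) := Nat.mul_le_mul_left _ hn1
    have e2 : n2 ≤ b * (2 * b) + b := hn22.trans (by omega)
    have e3 : b * (2 * b) + b ≤ 2 * b ^ 3 := by nlinarith [Nat.mul_le_mul hb2 (le_refl (b ^ 2))]
    calc b * n * n2 ≤ (b * (2 * b)) * (b * (2 * b) + b) := Nat.mul_le_mul e1 e2
      _ ≤ (2 * b ^ 3) * (2 * b ^ 3) := Nat.mul_le_mul (by omega) e3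
      _ ≤ (2 * T) * (2 * T + 1) := Nat.mul_le_mul (by omega) (by omega)
      _ ≤ (2 * b * T) * (2 * T + 1) := by
          apply Nat.mul_le_mul_right
          nlinarith
      _ ≤ _ := Nat.le_add_right _ _
  have := greedy_loop b T k hb H m r2 (b * n * n2) 2 hrb2 hTm hX (by omega) hsize
  exact (greedy_step r (b * n) n2 r2 _ hrb hn2 hr2 heq2 this).mono (by omega)

end Vale.Agent.P012
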