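import Mathlib

namespace Vale.Agent.P012

lemma loglog_ge_one (b : ℕ) (hb : 16 ≤ b) : 1 ≤ Real.log (Real.log b) := by
  have h1 : (2.7725 : ℝ) ≤ Real.log b := by
    calc (2.7725 : ℝ) ≤ 4 * Real.log 2 := by
          have := Real.log_two_gt_d9
          linarith
      _ = Real.log ((2 : ℝ) ^ 4) := by rw [Real.log_pow]; norm_num
      _ ≤ Real.log b := by
          apply Real.log_le_log (by norm_num)
          have : (16 : ℝ) ≤ b := by exact_mod_cast hb
          linarith
  rw [Real.le_log_iff_exp_le (by linarith)]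
  have := Real.exp_one_lt_d9
  linarith

/-- choice of `ν` -/
lemma exists_nu (b : ℕ) (hb : 16 ≤ b) :
    ∃ ν : ℕ, 11 ≤ ν ∧ b ≤ 2 ^ (2 ^ (20 * ν)) ∧ (ν : ℝ) ≤ 17 * Real.log (Real.log b) := by
  have hx := loglog_ge_one b hb
  set ℓ := Nat.clog 2 b with hℓ
  set m := Nat.clog 2 ℓ with hm
  have h1 : b ≤ 2 ^ ℓ := Nat.le_pow_clog (by norm_num) b
  have h2 : ℓ ≤ 2 ^ m := Nat.le_pow_clog (by norm_num) ℓ
  have hℓ1 : 3 < ℓ := by
    rw [hℓ, Nat.lt_clog_iff_pow_lt (by norm_num)]
    omega
  have hm1 : 1 < m := by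
    rw [hm, Nat.lt_clog_iff_pow_lt (by norm_num)]
    omega
  have h3 : 2 ^ (ℓ - 1) < b := by
    rw [← Nat.lt_clog_iff_pow_lt (by norm_num)]
    omega
  have h4 : 2 ^ (m - 1) < ℓ := by
    rw [← Nat.lt_clog_iff_pow_lt (by norm_num)]
    omega
  refine ⟨m / 20 + 11, by omega, ?_, ?_⟩
  · calc b ≤ 2 ^ ℓ := h1
      _ ≤ 2 ^ (2 ^ m) := Nat.pow_le_pow_right (by norm_num) h2
      _ ≤ 2 ^ (2 ^ (20 * (m / 20 + 11))) := by
          apply Nat.pow_le_pow_right (by norm_num)
          apply Nat.pow_le_pow_right (by norm_num)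
          omega
  · have hlog2 : (0.6931471803 : ℝ) < Real.log 2 := Real.log_two_gt_d9
    have hlog2' : Real.log 2 < (0.6931471808 : ℝ) := Real.log_two_lt_d9
    have hlogb : (1 : ℝ) < Real.log b := by
      by_contra hcon
      push Not at hcon
      have h0 : 0 ≤ Real.log b := Real.log_natCast_nonneg b
      have := Real.log_nonpos h0 hcon
      linarith
    have h5 : ((ℓ : ℝ) - 1) * Real.log 2 ≤ Real.log b := by
      have e : Real.log ((2 : ℝ) ^ (ℓ - 1)) ≤ Real.log b := by
        apply Real.log_le_log (by positivity)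
        exact_mod_cast h3.le
      rw [Real.log_pow, Nat.cast_sub (by omega)] at e
      push_cast at e
      exact e
    have h6 : (ℓ : ℝ) ≤ 3 * Real.log b := by nlinarith
    have h7 : ((m : ℝ) - 1) * Real.log 2 ≤ Real.log ℓ := by
      have e : Real.log ((2 : ℝ) ^ (m - 1)) ≤ Real.log ℓ := by
        apply Real.log_le_log (by positivity)
        exact_mod_cast h4.le
      rw [Real.log_pow, Nat.cast_sub (by omega)] at e
      push_cast at e
      exact e
    have h8 : Real.log ℓ ≤ Real.log 3 + Real.log (Real.log b) := by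
      rw [← Real.log_mul (by norm_num) (by linarith)]
      apply Real.log_le_log _ h6
      exact_mod_cast (by omega : 0 < ℓ)
    have h9 : Real.log 3 ≤ 2 * Real.log 2 := by
      rw [show (2 : ℝ) * Real.log 2 = Real.log (2 ^ 2) by rw [Real.log_pow]; norm_num]
      apply Real.log_le_log <;> norm_num
    have h10 : (m : ℝ) ≤ 6 * Real.log (Real.log b) := by
      nlinarith
    have h11 : ((m / 20 : ℕ) : ℝ) ≤ m := by exact_mod_cast Nat.div_le_self m 20
    push_cast
    linarith

lemma lower_log (b k : ℕ) (hb : 16 ≤ b) (hk : 1 ≤ k) (h : b ≤ (2 * k) ^ (2 ^ k)) :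
    1 / 3 * Real.log (Real.log b) ≤ k := by
  have hkr : (1 : ℝ) ≤ k := by exact_mod_cast hk
  have hx := loglog_ge_one b hb
  have hlogb : (1 : ℝ) < Real.log b := by
    by_contra hcon
    push Not at hcon
    have h0 : 0 ≤ Real.log b := Real.log_natCast_nonneg b
    have := Real.log_nonpos h0 hcon
    linarith
  have hlog2k : 0 < Real.log (2 * k) := Real.log_pos (by linarith)
  have h1 : Real.log b ≤ 2 ^ k * Real.log (2 * k) := by
    have e : Real.log b ≤ Real.log ((2 * (k : ℝ)) ^ (2 ^ k)) := by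
      apply Real.log_le_log
      · exact_mod_cast (by omega : 0 < b)
      · exact_mod_cast h
    rw [Real.log_pow] at e
    push_cast at e
    exact e
  have h2 : Real.log (Real.log b) ≤ k * Real.log 2 + Real.log (Real.log (2 * k)) := by
    calc Real.log (Real.log b) ≤ Real.log (2 ^ k * Real.log (2 * k)) :=
          Real.log_le_log (by linarith) h1
      _ = _ := by rw [Real.log_mul (by positivity) hlog2k.ne', Real.log_pow]
  have h3 : Real.log (2 * k) ≤ 2 * k := (Real.log_le_sub_one_of_pos (by linarith)).trans (by linarith)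
  have h4 : Real.log (Real.log (2 * k)) ≤ Real.log (2 * k) :=
    (Real.log_le_sub_one_of_pos hlog2k).trans (by linarith)
  have h5 : Real.log 2 ≤ 1 := by
    have := Real.log_two_lt_d9
    linarith
  nlinarith

end Vale.Agent.P012
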