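import Mathlib

namespace Vale.Agent.P012
open Finset

/-- greedy choice of multipliers by averaging -/
lemma select {A : Type*} (𝒜 : Finset A) (c β : A → ℝ) (hc : ∀ a ∈ 𝒜, 0 ≤ c a)
    (hβ : ∀ a ∈ 𝒜, 0 < β a) (G : ℕ → A → ℝ) (hG : ∀ l, ∀ a ∈ 𝒜, 0 ≤ G l a)
    (Λ : ℕ → Finset ℕ) (hΛ : ∀ i, (Λ i).Nonempty)
    (h : ∀ i, ∀ a ∈ 𝒜, ∑ l ∈ Λ i, G l a ≤ β a * (Λ i).card) (k : ℕ) :
    ∃ lam : ℕ → ℕ, (∀ i < k, lam i ∈ Λ i) ∧
      ∑ a ∈ 𝒜, c a * ∏ i ∈ range k, (G (lam i) a / β a) ≤ ∑ a ∈ 𝒜, c a := by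
  induction k with
  | zero => exact ⟨fun _ => 0, by simp, by simp⟩
  | succ k ih =>
    obtain ⟨lam, hlam, hsum⟩ := ih
    set w : A → ℝ := fun a => c a * ∏ i ∈ range k, (G (lam i) a / β a) with hw
    have hw0 : ∀ a ∈ 𝒜, 0 ≤ w a := by
      intro a ha
      apply mul_nonneg (hc a ha)
      apply prod_nonneg
      intro i _
      exact div_nonneg (hG _ a ha) (hβ a ha).le
    have h1 : ∑ l ∈ Λ k, ∑ a ∈ 𝒜, w a * (G l a / β a) ≤ ∑ l ∈ Λ k, ∑ a ∈ 𝒜, w a := by
      rw [sum_comm]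
      rw [sum_const, nsmul_eq_mul, mul_sum]
      apply sum_le_sum
      intro a ha
      rw [← mul_sum, ← sum_div]
      have h2 := h k a ha
      have h3 := hβ a ha
      have h4 : (∑ l ∈ Λ k, G l a) / β a ≤ (Λ k).card := by
        rw [div_le_iff₀ h3]
        linarith
      calc w a * ((∑ l ∈ Λ k, G l a) / β a) ≤ w a * (Λ k).card :=
            mul_le_mul_of_nonneg_left h4 (hw0 a ha)
        _ = (Λ k).card * w a := by ring
    obtain ⟨l, hl, hle⟩ := exists_le_of_sum_le (hΛ k) h1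
    refine ⟨fun i => if i = k then l else lam i, ?_, ?_⟩
    · intro i hi
      by_cases hik : i = k
      · simp [hik, hl]
      · simp only [hik, if_false]
        exact hlam i (by omega)
    · refine le_trans (le_of_eq ?_) (hle.trans hsum)
      apply sum_congr rfl
      intro a _
      rw [prod_range_succ, ← mul_assoc]
      simp only [if_true]
      congr 2
      apply prod_congr rfl
      intro i hi
      have : i ≠ k := by
        have := mem_range.mp hi
        omega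
      simp [this]

end Vale.Agent.P012
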