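import Mathlib
import Vale.Agent.P012.Exp
import Vale.Agent.P012.Select
import Vale.Agent.P012.Core

namespace Vale.Agent.P012
open Finset

lemma L_big (ν : ℕ) (hν : 11 ≤ ν) : 80000000 * ν ≤ 2 ^ (20 * ν) := by
  have h1 := nu_pow ν hν
  calc 80000000 * ν ≤ 160 * ν * 2 ^ 19 := by omega
    _ ≤ 2 ^ ν * 2 ^ 19 := Nat.mul_le_mul_right _ h1
    _ = 2 ^ (ν + 19) := by rw [pow_add]
    _ ≤ 2 ^ (20 * ν) := Nat.pow_le_pow_right (by norm_num) (by omega)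

lemma abs_cast_sub (a b : ℕ) : |(a : ℝ) - b| = (((a : ℤ) - b).natAbs : ℝ) := by
  rw [Nat.cast_natAbs]
  push_cast
  rfl

/-- the multipliers `2^e (2v+1)` -/
def mults (e U : ℕ) : Finset ℕ := (Ico U (2 * U)).image (fun v => 2 ^ e * (2 * v + 1))

lemma mults_inj (e : ℕ) : Function.Injective (fun v : ℕ => 2 ^ e * (2 * v + 1)) := by
  intro a b hab
  simp only at hab
  have h2 : 0 < 2 ^ e := by positivity
  have := Nat.eq_of_mul_eq_mul_left h2 hab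
  omega

lemma card_mults (e U : ℕ) : (mults e U).card = U := by
  rw [mults, card_image_of_injective _ (mults_inj e), Nat.card_Ico]
  omega

lemma mults_val {e U l : ℕ} (h : l ∈ mults e U) :
    padicValNat 2 l = e ∧ 2 * U ≤ l ∧ l ≤ 2 ^ e * (4 * U) ∧ l ≠ 0 := by
  obtain ⟨v, hv, rfl⟩ := mem_image.mp h
  obtain ⟨h1, h2⟩ := mem_Ico.mp hv
  refine ⟨?_, ?_, ?_, by positivity⟩
  · rw [padicValNat.mul (by positivity) (by omega), padicValNat.prime_pow,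
      padicValNat.eq_zero_of_not_dvd (by omega), add_zero]
  · have : 1 ≤ 2 ^ e := Nat.one_le_two_pow
    nlinarith
  · apply Nat.mul_le_mul_left
    omega

/-- averaging bound for the multipliers, in the form used by `select` -/
lemma mults_avg (X : Finset ℕ) (hX : X.Nonempty) (e U : ℕ) (α δ β : ℝ) (hδ : 0 < δ)
    (Bad : Finset (ℕ × ℕ))
    (hBad : ∀ p ∈ X ×ˢ X, p ∉ Bad → ∃ k : ℤ,
      δ ≤ |2 * ((2 ^ e : ℕ) : ℝ) * α * ((p.1 : ℝ) - p.2) - k| ∧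
      |2 * ((2 ^ e : ℕ) : ℝ) * α * ((p.1 : ℝ) - p.2) - k| ≤ 1 / 2)
    (hβ : (Bad.card : ℝ) * U + (X.card : ℝ) ^ 2 / (2 * δ) ≤ β * U * (X.card : ℝ) ^ 2) :
    ∑ l ∈ mults e U, ‖∑ x ∈ X, ee ((l : ℝ) * α * x)‖ ^ 2 / (X.card : ℝ) ^ 2
      ≤ β * (mults e U).card := by
  have hXc : (0:ℝ) < X.card := by exact_mod_cast card_pos.mpr hX
  rw [card_mults, ← sum_div, div_le_iff₀ (by positivity), mults,
    sum_image (fun a _ b _ hab => mults_inj e hab)]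
  refine (sum_sq_le X (2 ^ e) U α δ hδ Bad hBad).trans hβ

lemma real_nat1 (L e a b Δ : ℕ) (hL : 1 ≤ L) (ha : 1 ≤ a) (hb : 2 ^ (19 * L - 1) ≤ b)
    (hΔ : 1 ≤ Δ) : 2 ^ (19 * L) ≤ 2 * 2 ^ e * (a * b) * Δ := by
  have h2 : 2 ^ (19 * L) = 2 * 1 * (1 * 2 ^ (19 * L - 1)) * 1 := by
    have : 19 * L = (19 * L - 1) + 1 := by omega
    conv_lhs => rw [this, pow_succ]
    ring
  rw [h2]
  apply Nat.mul_le_mul _ hΔ
  apply Nat.mul_le_mul
  · exact Nat.mul_le_mul_left _ Nat.one_le_two_pow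
  · exact Nat.mul_le_mul ha hb

lemma real_nat2 (L e k0 a b Δ : ℕ) (he : e ≤ 31 * k0) (hk : 31 * k0 + 8 ≤ L)
    (ha : a ≤ 2 ^ (2 * L + 6)) (hb : b ≤ 2 ^ (19 * L)) (hΔ : Δ ≤ 2 ^ (14 * L)) :
    (2 * 2 ^ e * (a * b) * Δ) * 2 ≤ 2 ^ (37 * L) := by
  have h1 : 2 ^ e ≤ 2 ^ (31 * k0) := Nat.pow_le_pow_right (by norm_num) he
  calc (2 * 2 ^ e * (a * b) * Δ) * 2
      ≤ (2 * 2 ^ (31 * k0) * (2 ^ (2 * L + 6) * 2 ^ (19 * L)) * 2 ^ (14 * L)) * 2 := by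
        apply Nat.mul_le_mul_right
        apply Nat.mul_le_mul _ hΔ
        apply Nat.mul_le_mul
        · exact Nat.mul_le_mul_left _ h1
        · exact Nat.mul_le_mul ha hb
    _ = 2 ^ (31 * k0 + 8 + 35 * L) := by
        rw [show 31 * k0 + 8 + 35 * L = 1 + 31 * k0 + ((2 * L + 6) + 19 * L) + 14 * L + 1 by ring,
          pow_succ, pow_add, pow_add, pow_add, pow_add]
        ring
    _ ≤ 2 ^ (37 * L) := by
        apply Nat.pow_le_pow_right (by norm_num)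
        omega

lemma real_key (L k0 : ℕ) (hL : 1 ≤ L) (hk : 31 * k0 + 8 ≤ L) (X : Finset ℕ)
    (hXcard : 2 ^ (2 * L) ≤ X.card) (hXle : ∀ x ∈ X, x ≤ 2 ^ (14 * L)) (e : ℕ) (he : e ≤ 31 * k0)
    (a b : ℕ) (ha1 : 1 ≤ a) (ha2 : a ≤ 2 ^ (2 * L + 6)) (hb1 : 2 ^ (19 * L - 1) ≤ b)
    (hb2 : b ≤ 2 ^ (19 * L)) :
    ∑ l ∈ mults e (2 ^ (20 * L)),
      ‖∑ x ∈ X, ee ((l : ℝ) * ((a : ℝ) * b / (2 ^ (37 * L) : ℕ)) * x)‖ ^ 2 / (X.card : ℝ) ^ 2
      ≤ (2 / 2 ^ (2 * L)) * (mults e (2 ^ (20 * L))).card := by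
  classical
  have hXpos : 0 < X.card := lt_of_lt_of_le (by positivity) hXcard
  have hXne : X.Nonempty := card_pos.mp hXpos
  have hXc : (0:ℝ) < X.card := by exact_mod_cast hXpos
  set N := 2 ^ (37 * L) with hN
  set U := 2 ^ (20 * L) with hU
  have hN0 : (0:ℝ) < N := by rw [hN]; positivity
  apply mults_avg X hXne e U ((a : ℝ) * b / N) (1 / 2 ^ (18 * L)) (2 / 2 ^ (2 * L)) (by positivity)
    X.diag
  · rintro ⟨x, y⟩ hp hnd
    rw [mem_product] at hp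
    simp only at hp
    have hxy : x ≠ y := by
      intro h
      apply hnd
      rw [mem_diag]
      exact ⟨hp.1, h⟩
    refine ⟨0, ?_⟩
    set Δ := ((x : ℤ) - y).natAbs with hΔ
    have hΔ1 : 1 ≤ Δ := by omega
    have hΔ2 : Δ ≤ 2 ^ (14 * L) := by
      have h1 := hXle x hp.1
      have h2 := hXle y hp.2
      omega
    have hval : |2 * ((2 ^ e : ℕ) : ℝ) * ((a : ℝ) * b / N) * ((x : ℝ) - y) - ((0 : ℤ) : ℝ)|
        = ((2 * 2 ^ e * (a * b) * Δ : ℕ) : ℝ) / N := by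
      rw [Int.cast_zero, sub_zero, abs_mul, abs_cast_sub, ← hΔ, abs_of_nonneg (by positivity)]
      push_cast
      ring
    simp only
    rw [hval]
    constructor
    · rw [div_le_div_iff₀ (by positivity) hN0, one_mul]
      have h1 := real_nat1 L e a b Δ hL ha1 hb1 hΔ1
      calc (N : ℝ) = ((2 ^ (19 * L) : ℕ) : ℝ) * 2 ^ (18 * L) := by
            rw [hN]
            push_cast
            rw [← pow_add]
            congr 1
            ring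
        _ ≤ _ := by
            apply mul_le_mul_of_nonneg_right _ (by positivity)
            exact_mod_cast h1
    · rw [div_le_div_iff₀ hN0 (by norm_num), one_mul]
      have h1 := real_nat2 L e k0 a b Δ he hk ha2 hb2 hΔ2
      rw [← hN] at h1
      exact_mod_cast h1
  · have hdiag : (X.diag.card : ℝ) = X.card := by rw [diag_card]
    rw [hdiag]
    have hXge : (2:ℝ) ^ (2 * L) ≤ X.card := by exact_mod_cast hXcard
    have hUr : (U : ℝ) = 2 ^ (2 * L) * 2 ^ (18 * L) := by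
      rw [hU]
      push_cast
      rw [← pow_add]
      congr 1
      ring
    have h1 : (X.card : ℝ) * U ≤ 1 / 2 ^ (2 * L) * U * (X.card : ℝ) ^ 2 := by
      rw [div_mul_eq_mul_div, div_mul_eq_mul_div, le_div_iff₀ (by positivity)]
      have : (0:ℝ) ≤ U := by positivity
      nlinarith [mul_le_mul_of_nonneg_left hXge (mul_nonneg hXc.le this)]
    have h2 : (X.card : ℝ) ^ 2 / (2 * (1 / 2 ^ (18 * L)))
        ≤ 1 / 2 ^ (2 * L) * U * (X.card : ℝ) ^ 2 := by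
      rw [hUr]
      have hA : (0:ℝ) < 2 ^ (2 * L) := by positivity
      have hB : (0:ℝ) < 2 ^ (18 * L) := by positivity
      have e1 : (X.card : ℝ) ^ 2 / (2 * (1 / 2 ^ (18 * L))) = (X.card : ℝ) ^ 2 * 2 ^ (18 * L) / 2 := by
        field_simp
      have e2 : 1 / 2 ^ (2 * L) * (2 ^ (2 * L) * 2 ^ (18 * L)) * (X.card : ℝ) ^ 2
          = (X.card : ℝ) ^ 2 * 2 ^ (18 * L) := by
        field_simp
      rw [e1, e2]
      have : 0 ≤ (X.card : ℝ) ^ 2 * 2 ^ (18 * L) := by positivity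
      linarith
    calc (X.card : ℝ) * U + (X.card : ℝ) ^ 2 / (2 * (1 / 2 ^ (18 * L)))
        ≤ 1 / 2 ^ (2 * L) * U * (X.card : ℝ) ^ 2 + 1 / 2 ^ (2 * L) * U * (X.card : ℝ) ^ 2 :=
          add_le_add h1 h2
      _ = _ := by ring

lemma real_fin (L : ℕ) (hL : 100 ≤ L) (Pr Xc : ℝ) (hXc : 0 < Xc)
    (h5 : (Pr / Xc ^ 32) ^ 2 * (2 ^ (2 * L) / 2) ^ 32 ≤ 2 ^ (21 * L + 6)) :
    Pr ≤ Xc ^ 32 * (1 / 2 ^ (2 * L + 9)) := by
  have h6 : (Pr / Xc ^ 32) ^ 2 ≤ (1 / 2 ^ (2 * L + 9)) ^ 2 := by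
    have h7 : ((2:ℝ) ^ (2 * L) / 2) ^ 32 = 2 ^ (64 * L) / 2 ^ 32 := by
      rw [div_pow, ← pow_mul]
      congr 2
      ring
    rw [h7] at h5
    set q := (Pr / Xc ^ 32) ^ 2 with hq
    have hq0 : 0 ≤ q := by positivity
    have h8 : q * 2 ^ (64 * L) ≤ 2 ^ (21 * L + 38) := by
      have : q * 2 ^ (64 * L) = (q * (2 ^ (64 * L) / 2 ^ 32)) * 2 ^ 32 := by
        rw [mul_assoc, div_mul_cancel₀]
        positivity
      rw [this]
      calc _ ≤ (2:ℝ) ^ (21 * L + 6) * 2 ^ 32 := mul_le_mul_of_nonneg_right h5 (by positivity)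
        _ = _ := by rw [← pow_add]
    rw [div_pow, one_pow, ← pow_mul, le_div_iff₀ (by positivity)]
    have h9 : (2:ℝ) ^ (21 * L + 38) * 2 ^ ((2 * L + 9) * 2) ≤ 2 ^ (64 * L) := by
      rw [← pow_add]
      apply pow_le_pow_right₀ (by norm_num)
      omega
    have h10 : (0:ℝ) < 2 ^ (64 * L) := by positivity
    have h11 : (q * 2 ^ ((2 * L + 9) * 2)) * 2 ^ (64 * L) ≤ 1 * 2 ^ (64 * L) := by
      calc (q * 2 ^ ((2 * L + 9) * 2)) * 2 ^ (64 * L)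
          = (q * 2 ^ (64 * L)) * 2 ^ ((2 * L + 9) * 2) := by ring
        _ ≤ 2 ^ (21 * L + 38) * 2 ^ ((2 * L + 9) * 2) :=
            mul_le_mul_of_nonneg_right h8 (by positivity)
        _ ≤ _ := by rw [one_mul]; exact h9
    exact le_of_mul_le_mul_right h11 h10
  have h12 : Pr / Xc ^ 32 ≤ 1 / 2 ^ (2 * L + 9) :=
    by
    have := abs_le_of_sq_le_sq' h6 (by positivity)
    exact this.2
  rw [div_le_iff₀ (by positivity)] at h12
  linarith

/-- selection of universal multipliers for the real batches -/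
lemma real_sel (L k0 : ℕ) (hL : 100 ≤ L) (hk : 31 * k0 + 8 ≤ L) (X : Finset ℕ)
    (hXcard : 2 ^ (2 * L) ≤ X.card) (hXle : ∀ x ∈ X, x ≤ 2 ^ (14 * L)) :
    ∃ lam : ℕ → ℕ, (∀ i < 32, lam i ∈ mults (i * k0) (2 ^ (20 * L))) ∧
      ∀ θ : ℕ, 1 ≤ θ → θ ≤ 2 ^ (2 * L + 6) → ∀ u : ℕ, 2 ^ (19 * L - 1) ≤ u → u ≤ 2 ^ (19 * L) →
      ∏ i ∈ range 32, ‖∑ x ∈ X, ee ((lam i : ℝ) * ((θ : ℝ) * u / (2 ^ (37 * L) : ℕ)) * x)‖
        ≤ (X.card : ℝ) ^ 32 * (1 / 2 ^ (2 * L + 9)) := by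
  classical
  set U := 2 ^ (20 * L) with hU
  set N := 2 ^ (37 * L) with hN
  set Θ := 2 ^ (2 * L + 6) with hΘ
  have hXpos : 0 < X.card := lt_of_lt_of_le (by positivity) hXcard
  have hXne : X.Nonempty := card_pos.mp hXpos
  have hXc : (0:ℝ) < X.card := by exact_mod_cast hXpos
  set 𝒜 : Finset (ℕ × ℕ) := (Icc 1 Θ) ×ˢ (Icc (2 ^ (19 * L - 1)) (2 ^ (19 * L))) with h𝒜
  set G : ℕ → ℕ × ℕ → ℝ := fun l a =>
    ‖∑ x ∈ X, ee ((l : ℝ) * ((a.1 : ℝ) * a.2 / N) * x)‖ ^ 2 / (X.card : ℝ) ^ 2 with hG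
  have hG0 : ∀ l a, 0 ≤ G l a := fun l a => by simp only [hG]; positivity
  have hβ0 : (0:ℝ) < 2 / 2 ^ (2 * L) := by positivity
  have hkey : ∀ i, ∀ a ∈ 𝒜, ∑ l ∈ mults ((i % 32) * k0) U, G l a
      ≤ (2 / 2 ^ (2 * L)) * (mults ((i % 32) * k0) U).card := by
    intro i a ha
    obtain ⟨ha1, ha2⟩ := mem_product.mp ha
    rw [mem_Icc] at ha1 ha2
    exact real_key L k0 (by omega) hk X hXcard hXle ((i % 32) * k0)
      (Nat.mul_le_mul_right _ (by omega)) a.1 a.2 ha1.1 ha1.2 ha2.1 ha2.2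
  obtain ⟨lam, hlam, hsum⟩ := select 𝒜 (fun _ => 1) (fun _ => 2 / 2 ^ (2 * L))
    (fun _ _ => zero_le_one) (fun _ _ => hβ0) G
    (fun l a _ => hG0 l a) (fun i => mults ((i % 32) * k0) U)
    (fun i => card_pos.mp (by rw [card_mults]; positivity)) hkey 32
  refine ⟨lam, ?_, ?_⟩
  · intro i hi
    have := hlam i hi
    rwa [Nat.mod_eq_of_lt hi] at this
  · intro θ hθ1 hθ2 u hu1 hu2
    have ha : (θ, u) ∈ 𝒜 := mem_product.mpr ⟨mem_Icc.mpr ⟨hθ1, hθ2⟩, mem_Icc.mpr ⟨hu1, hu2⟩⟩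
    have h1 : ∏ i ∈ range 32, (G (lam i) (θ, u) / (2 / 2 ^ (2 * L))) ≤ 𝒜.card := by
      have h2 := single_le_sum
        (f := fun a => (1:ℝ) * ∏ i ∈ range 32, (G (lam i) a / (2 / 2 ^ (2 * L))))
        (fun a _ => by
          rw [one_mul]
          apply prod_nonneg
          intro i _
          exact div_nonneg (hG0 _ _) hβ0.le) ha
      simp only [one_mul] at h2 hsum
      refine h2.trans (hsum.trans (le_of_eq ?_))
      simp
    have hcard : (𝒜.card : ℝ) ≤ 2 ^ (21 * L + 6) := by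
      have : 𝒜.card ≤ 2 ^ (21 * L + 6) := by
        rw [h𝒜, card_product, Nat.card_Icc, Nat.card_Icc]
        calc (Θ + 1 - 1) * (2 ^ (19 * L) + 1 - 2 ^ (19 * L - 1))
            ≤ 2 ^ (2 * L + 6) * 2 ^ (19 * L) := by
              apply Nat.mul_le_mul
              · omega
              · have : 1 ≤ 2 ^ (19 * L - 1) := Nat.one_le_two_pow
                omega
          _ = 2 ^ (21 * L + 6) := by rw [← pow_add]; congr 1; ring
      exact_mod_cast this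
    set Pr := ∏ i ∈ range 32, ‖∑ x ∈ X, ee ((lam i : ℝ) * ((θ : ℝ) * u / N) * x)‖ with hPr
    have h3 : ∏ i ∈ range 32, (G (lam i) (θ, u) / (2 / 2 ^ (2 * L)))
        = (Pr / (X.card : ℝ) ^ 32) ^ 2 * (2 ^ (2 * L) / 2) ^ 32 := by
      have e0 : ∏ i ∈ range 32, G (lam i) (θ, u) = Pr ^ 2 / ((X.card : ℝ) ^ 2) ^ 32 := by
        simp only [hG]
        rw [prod_div_distrib, prod_pow, prod_const, card_range]
      rw [prod_div_distrib, e0, prod_const, card_range]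
      clear_value Pr
      have e4 : ((2:ℝ) / 2 ^ (2 * L)) ^ 32 * (2 ^ (2 * L) / 2) ^ 32 = 1 := by
        rw [← mul_pow]
        have : (2:ℝ) / 2 ^ (2 * L) * (2 ^ (2 * L) / 2) = 1 := by
          have : (2:ℝ) ^ (2 * L) ≠ 0 := by positivity
          field_simp
        rw [this, one_pow]
      have e5 : (0:ℝ) < (2 / 2 ^ (2 * L)) ^ 32 := by positivity
      rw [div_eq_iff e5.ne', mul_assoc, mul_comm ((2 ^ (2 * L) / 2 : ℝ) ^ 32), e4, mul_one]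
      rw [div_pow, ← pow_mul, ← pow_mul]
    rw [h3] at h1
    exact real_fin L hL Pr X.card hXc (h1.trans hcard)

end Vale.Agent.P012
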