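import Mathlib
import Vale.Agent.P012.RealSel

namespace Vale.Agent.P012
open Finset

lemma mod_key (L : ℕ) (X : Finset ℕ) (hX : X.Nonempty) (ρ θ e : ℕ) (hodd : Odd ρ)
    (hρ1 : 2 ^ 120 ≤ ρ) (hρ2 : ρ ≤ 2 ^ (40 * L)) (hθ : Nat.Coprime θ ρ)
    (hcoll : (((X ×ˢ X).filter (fun p => p.1 % ρ = p.2 % ρ)).card : ℝ)
      ≤ 2 * (ρ : ℝ) ^ (-(1/30) : ℝ) * (X.card : ℝ) ^ 2) :
    ∑ l ∈ mults e (2 ^ (80 * L)),
      ‖∑ x ∈ X, ee ((l : ℝ) * ((θ : ℝ) / ρ) * x)‖ ^ 2 / (X.card : ℝ) ^ 2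
      ≤ (ρ : ℝ) ^ (-(1/60) : ℝ) * (mults e (2 ^ (80 * L))).card := by
  classical
  have hXc : (0:ℝ) < X.card := by exact_mod_cast card_pos.mpr hX
  have hρ0 : 0 < ρ := lt_of_lt_of_le (by positivity) hρ1
  have hρr : (0:ℝ) < ρ := by exact_mod_cast hρ0
  set U := 2 ^ (80 * L) with hU
  apply mults_avg X hX e U ((θ : ℝ) / ρ) (1 / ρ) _ (by positivity)
    ((X ×ˢ X).filter (fun p => p.1 % ρ = p.2 % ρ))
  · rintro ⟨x, y⟩ hp hnb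
    have hxy : ¬ (x % ρ = y % ρ) := by
      intro h
      apply hnb
      rw [mem_filter]
      exact ⟨hp, h⟩
    set z : ℤ := 2 * 2 ^ e * θ * ((x : ℤ) - y) with hz
    have hval : 2 * ((2 ^ e : ℕ) : ℝ) * ((θ : ℝ) / ρ) * (((x, y).1 : ℝ) - (x, y).2) = (z : ℝ) / ρ := by
      rw [hz]
      push_cast
      ring
    have hndvd : ¬ ((ρ : ℤ) ∣ z) := by
      intro hd
      apply hxy
      have hcop : IsCoprime (ρ : ℤ) (2 * 2 ^ e * θ : ℤ) := by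
        have h1 : Nat.Coprime ρ (2 * 2 ^ e * θ) := by
          apply Nat.Coprime.mul_right _ hθ.symm
          rw [← pow_succ']
          exact Nat.Coprime.pow_right _ (Nat.coprime_two_right.mpr hodd)
        have := Nat.isCoprime_iff_coprime.mpr h1
        push_cast at this
        exact this
      have h2 : (ρ : ℤ) ∣ (x : ℤ) - y := hcop.dvd_of_dvd_mul_left hd
      have h3 : y ≡ x [MOD ρ] := Nat.modEq_iff_dvd.mpr h2
      exact h3.symm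
    refine ⟨round ((z : ℝ) / ρ), ?_, ?_⟩
    · rw [hval]
      have h1 : (z : ℝ) / ρ - (round ((z : ℝ) / ρ) : ℤ)
          = ((z - round ((z : ℝ) / ρ) * ρ : ℤ) : ℝ) / ρ := by
        push_cast
        field_simp
      rw [h1, abs_div, abs_of_pos hρr]
      apply div_le_div_of_nonneg_right _ hρr.le
      have h2 : z - round ((z : ℝ) / ρ) * ρ ≠ 0 := by
        intro h
        apply hndvd
        exact ⟨round ((z : ℝ) / ρ), by linarith⟩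
      have h3 : 1 ≤ |z - round ((z : ℝ) / ρ) * ρ| := Int.one_le_abs h2
      exact_mod_cast h3
    · rw [hval]
      exact abs_sub_round _
  · -- numerical part
    have hA : (ρ : ℝ) / 2 ≤ (ρ : ℝ) ^ (-(1/30) : ℝ) * U := by
      have h1 : (ρ : ℝ) ^ ((1:ℝ)/30) ≤ 2 ^ (40 * L) := by
        calc (ρ : ℝ) ^ ((1:ℝ)/30) ≤ (ρ : ℝ) ^ (1:ℝ) := by
              apply Real.rpow_le_rpow_of_exponent_le _ (by norm_num)
              exact_mod_cast hρ0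
          _ = ρ := Real.rpow_one _
          _ ≤ 2 ^ (40 * L) := by exact_mod_cast hρ2
      have h2 : (ρ : ℝ) ^ (-(1/30) : ℝ) * (ρ : ℝ) ^ ((1:ℝ)/30) = 1 := by
        rw [← Real.rpow_add hρr]
        norm_num
      have hpos : (0:ℝ) < (ρ : ℝ) ^ (-(1/30) : ℝ) := Real.rpow_pos_of_pos hρr _
      have h3 : (ρ : ℝ) ≤ (ρ : ℝ) ^ (-(1/30) : ℝ) * U := by
        calc (ρ : ℝ) = ((ρ : ℝ) ^ (-(1/30) : ℝ) * (ρ : ℝ) ^ ((1:ℝ)/30)) * ρ := by rw [h2, one_mul]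
          _ = (ρ : ℝ) ^ (-(1/30) : ℝ) * ((ρ : ℝ) ^ ((1:ℝ)/30) * ρ) := by ring
          _ ≤ (ρ : ℝ) ^ (-(1/30) : ℝ) * (2 ^ (40 * L) * 2 ^ (40 * L)) := by
              apply mul_le_mul_of_nonneg_left _ hpos.le
              apply mul_le_mul h1 _ hρr.le (by positivity)
              exact_mod_cast hρ2
          _ = (ρ : ℝ) ^ (-(1/30) : ℝ) * U := by
              rw [hU, ← pow_add]
              push_cast
              congr 2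
              ring
      linarith
    have hB : 3 * (ρ : ℝ) ^ (-(1/30) : ℝ) ≤ (ρ : ℝ) ^ (-(1/60) : ℝ) := by
      have h1 : (3:ℝ) ≤ (ρ : ℝ) ^ ((1:ℝ)/60) := by
        calc (3:ℝ) ≤ 4 := by norm_num
          _ = ((2:ℝ) ^ 120) ^ ((1:ℝ)/60) := by
              rw [← Real.rpow_natCast, ← Real.rpow_mul (by norm_num)]
              norm_num
          _ ≤ _ := by
              apply Real.rpow_le_rpow (by positivity) _ (by norm_num)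
              exact_mod_cast hρ1
      have h2 : (ρ : ℝ) ^ (-(1/60) : ℝ) = (ρ : ℝ) ^ ((1:ℝ)/60) * (ρ : ℝ) ^ (-(1/30) : ℝ) := by
        rw [← Real.rpow_add hρr]
        norm_num
      rw [h2]
      exact mul_le_mul_of_nonneg_right h1 (Real.rpow_nonneg hρr.le _)
    have hUr : (0:ℝ) < U := by rw [hU]; positivity
    have e1 : (X.card : ℝ) ^ 2 / (2 * (1 / (ρ : ℝ))) = (ρ : ℝ) / 2 * (X.card : ℝ) ^ 2 := by
      field_simp
    rw [e1]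
    have hX2 : (0:ℝ) < (X.card : ℝ) ^ 2 := by positivity
    calc (((X ×ˢ X).filter (fun p => p.1 % ρ = p.2 % ρ)).card : ℝ) * U + (ρ : ℝ) / 2 * (X.card : ℝ) ^ 2
        ≤ (2 * (ρ : ℝ) ^ (-(1/30) : ℝ) * (X.card : ℝ) ^ 2) * U +
          ((ρ : ℝ) ^ (-(1/30) : ℝ) * U) * (X.card : ℝ) ^ 2 :=
          add_le_add (mul_le_mul_of_nonneg_right hcoll hUr.le)
            (mul_le_mul_of_nonneg_right hA hX2.le)
      _ = (3 * (ρ : ℝ) ^ (-(1/30) : ℝ)) * U * (X.card : ℝ) ^ 2 := by ring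
      _ ≤ _ := by
          apply mul_le_mul_of_nonneg_right _ hX2.le
          exact mul_le_mul_of_nonneg_right hB hUr.le

open Classical in
/-- the moduli for which `X` is well distributed -/
noncomputable def goodMod (L : ℕ) (X : Finset ℕ) : Finset ℕ :=
  (Ioc (2 * L) (2 ^ (40 * L))).filter (fun ρ => Odd ρ ∧ 2 ^ 120 ≤ ρ ∧
    (((X ×ˢ X).filter (fun p => p.1 % ρ = p.2 % ρ)).card : ℝ)
      ≤ 2 * (ρ : ℝ) ^ (-(1/30) : ℝ) * (X.card : ℝ) ^ 2)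

lemma weights_le (L : ℕ) (hL : 1 ≤ L) (s : Finset ℕ) (hs : ∀ ρ ∈ s, 2 * L < ρ) :
    ∑ ρ ∈ s, ∑ _θ ∈ range ρ, ((ρ : ℝ) ^ 3)⁻¹ ≤ ((2 * L : ℕ) : ℝ)⁻¹ := by
  have h1 : ∀ ρ ∈ s, ∑ _θ ∈ range ρ, ((ρ : ℝ) ^ 3)⁻¹ = ((ρ : ℝ) ^ 2)⁻¹ := by
    intro ρ hρ
    rw [sum_const, card_range, nsmul_eq_mul]
    have : (ρ : ℝ) ≠ 0 := by
      have := hs ρ hρ
      exact_mod_cast (by omega : ρ ≠ 0)
    field_simp
  rw [sum_congr rfl h1]
  by_cases hne : s.Nonempty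
  · set R := s.max' hne with hR
    have hRL : 2 * L < R := hs _ (max'_mem s hne)
    calc ∑ ρ ∈ s, ((ρ : ℝ) ^ 2)⁻¹ ≤ ∑ ρ ∈ Ioc (2 * L) R, ((ρ : ℝ) ^ 2)⁻¹ := by
          apply sum_le_sum_of_subset_of_nonneg
          · intro ρ hρ
            rw [mem_Ioc]
            exact ⟨hs ρ hρ, le_max' s ρ hρ⟩
          · intro ρ _ _
            positivity
      _ ≤ ((2 * L : ℕ) : ℝ)⁻¹ - (R : ℝ)⁻¹ := sum_Ioc_inv_sq_le_sub (by omega) hRL.le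
      _ ≤ _ := by
          have : (0:ℝ) ≤ (R : ℝ)⁻¹ := by positivity
          linarith
  · rw [not_nonempty_iff_eq_empty.mp hne]
    simp

/-- selection of universal multipliers for the final (modular) batch -/
lemma mod_sel (L k0 : ℕ) (hL : 1 ≤ L) (X : Finset ℕ) (hX : X.Nonempty) :
    ∃ lam : ℕ → ℕ, (∀ i < 540, lam i ∈ mults (i * k0) (2 ^ (80 * L))) ∧
      ∀ ρ ∈ goodMod L X, ∀ θ < ρ, Nat.Coprime θ ρ →
      ∏ i ∈ range 540, ‖∑ x ∈ X, ee ((lam i : ℝ) * ((θ : ℝ) / ρ) * x)‖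
        ≤ (X.card : ℝ) ^ 540 * ((ρ : ℝ) ^ 3)⁻¹ := by
  classical
  have hXc : (0:ℝ) < X.card := by exact_mod_cast card_pos.mpr hX
  set 𝒜 : Finset ((_ : ℕ) × ℕ) := (goodMod L X).sigma
    (fun ρ => (range ρ).filter (fun θ => Nat.Coprime θ ρ)) with h𝒜
  set G : ℕ → ((_ : ℕ) × ℕ) → ℝ := fun l a =>
    ‖∑ x ∈ X, ee ((l : ℝ) * ((a.2 : ℝ) / a.1) * x)‖ ^ 2 / (X.card : ℝ) ^ 2 with hG
  have hG0 : ∀ l a, 0 ≤ G l a := fun l a => by simp only [hG]; positivity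
  have hmem : ∀ a ∈ 𝒜, a.1 ∈ goodMod L X ∧ a.2 < a.1 ∧ Nat.Coprime a.2 a.1 := by
    intro a ha
    rw [h𝒜, mem_sigma, mem_filter, mem_range] at ha
    exact ⟨ha.1, ha.2.1, ha.2.2⟩
  have hgood : ∀ ρ ∈ goodMod L X, 2 * L < ρ ∧ ρ ≤ 2 ^ (40 * L) ∧ Odd ρ ∧ 2 ^ 120 ≤ ρ ∧
      (((X ×ˢ X).filter (fun p => p.1 % ρ = p.2 % ρ)).card : ℝ)
      ≤ 2 * (ρ : ℝ) ^ (-(1/30) : ℝ) * (X.card : ℝ) ^ 2 := by
    intro ρ hρ
    rw [goodMod, mem_filter, mem_Ioc] at hρ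
    exact ⟨hρ.1.1, hρ.1.2, hρ.2.1, hρ.2.2.1, hρ.2.2.2⟩
  have hpos : ∀ a ∈ 𝒜, (0:ℝ) < a.1 := by
    intro a ha
    have := (hgood _ (hmem a ha).1).1
    exact_mod_cast (by omega : 0 < a.1)
  have hβ0 : ∀ a ∈ 𝒜, (0:ℝ) < (a.1 : ℝ) ^ (-(1/60) : ℝ) := fun a ha =>
    Real.rpow_pos_of_pos (hpos a ha) _
  obtain ⟨lam, hlam, hsum⟩ := select 𝒜 (fun a => ((a.1 : ℝ) ^ 3)⁻¹)
    (fun a => (a.1 : ℝ) ^ (-(1/60) : ℝ)) (fun a _ => by positivity) hβ0 G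
    (fun l a _ => hG0 l a) (fun i => mults (i * k0) (2 ^ (80 * L)))
    (fun i => card_pos.mp (by rw [card_mults]; positivity))
    (fun i a ha => by
      obtain ⟨h1, h2, h3⟩ := hmem a ha
      obtain ⟨g1, g2, g3, g4, g5⟩ := hgood _ h1
      exact mod_key L X hX a.1 a.2 (i * k0) g3 g4 g2 h3 g5) 540
  refine ⟨lam, hlam, ?_⟩
  intro ρ hρ θ hθ hcop
  have ha : (⟨ρ, θ⟩ : (_ : ℕ) × ℕ) ∈ 𝒜 := by
    rw [h𝒜, mem_sigma, mem_filter, mem_range]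
    exact ⟨hρ, hθ, hcop⟩
  have hρ0 : (0:ℝ) < ρ := hpos _ ha
  have htot : ∑ a ∈ 𝒜, ((a.1 : ℝ) ^ 3)⁻¹ ≤ 1 := by
    rw [h𝒜, sum_sigma]
    calc ∑ ρ ∈ goodMod L X, ∑ _θ ∈ (range ρ).filter (fun θ => Nat.Coprime θ ρ), ((ρ : ℝ) ^ 3)⁻¹
        ≤ ∑ ρ ∈ goodMod L X, ∑ _θ ∈ range ρ, ((ρ : ℝ) ^ 3)⁻¹ := by
          apply sum_le_sum
          intro ρ _
          apply sum_le_sum_of_subset_of_nonneg (filter_subset _ _)
          intro _ _ _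
          positivity
      _ ≤ ((2 * L : ℕ) : ℝ)⁻¹ := weights_le L hL _ (fun ρ hρ => (hgood ρ hρ).1)
      _ ≤ 1 := by
          apply inv_le_one_of_one_le₀
          exact_mod_cast (by omega : 1 ≤ 2 * L)
  have h1 : ((ρ : ℝ) ^ 3)⁻¹ * ∏ i ∈ range 540, (G (lam i) ⟨ρ, θ⟩ / (ρ : ℝ) ^ (-(1/60) : ℝ)) ≤ 1 := by
    have h2 := single_le_sum
      (f := fun a : (_ : ℕ) × ℕ => ((a.1 : ℝ) ^ 3)⁻¹ *
        ∏ i ∈ range 540, (G (lam i) a / (a.1 : ℝ) ^ (-(1/60) : ℝ)))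
      (fun a ha => by
        apply mul_nonneg (by positivity)
        apply prod_nonneg
        intro i _
        exact div_nonneg (hG0 _ _) (hβ0 a ha).le) ha
    exact h2.trans (hsum.trans htot)
  set Pr := ∏ i ∈ range 540, ‖∑ x ∈ X, ee ((lam i : ℝ) * ((θ : ℝ) / ρ) * x)‖ with hPr
  have e0 : ∏ i ∈ range 540, G (lam i) ⟨ρ, θ⟩ = (Pr / (X.card : ℝ) ^ 540) ^ 2 := by
    simp only [hG]
    rw [prod_div_distrib, prod_pow, prod_const, card_range, div_pow, ← hPr, ← pow_mul, ← pow_mul]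
  rw [prod_div_distrib, e0, prod_const, card_range] at h1
  have e1 : ((ρ : ℝ) ^ (-(1/60) : ℝ)) ^ 540 = ((ρ : ℝ) ^ 9)⁻¹ := by
    rw [← Real.rpow_natCast, ← Real.rpow_mul hρ0.le, ← Real.rpow_natCast, ← Real.rpow_neg hρ0.le]
    norm_num
  rw [e1, div_inv_eq_mul] at h1
  clear_value Pr
  have h2 : (Pr / (X.card : ℝ) ^ 540) ^ 2 ≤ (((ρ : ℝ) ^ 3)⁻¹) ^ 2 := by
    have h3 : ((ρ : ℝ) ^ 3)⁻¹ * ((Pr / (X.card : ℝ) ^ 540) ^ 2 * (ρ : ℝ) ^ 9)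
        = (Pr / (X.card : ℝ) ^ 540) ^ 2 * (ρ : ℝ) ^ 6 := by
      generalize (Pr / (X.card : ℝ) ^ 540) ^ 2 = q
      field_simp
    rw [h3] at h1
    rw [inv_pow, ← pow_mul, ← one_div, le_div_iff₀ (by positivity)]
    exact h1
  have h4 : Pr / (X.card : ℝ) ^ 540 ≤ ((ρ : ℝ) ^ 3)⁻¹ := by
    have := abs_le_of_sq_le_sq' h2 (by positivity)
    exact this.2
  have hQ : (0:ℝ) < (X.card : ℝ) ^ 540 := pow_pos hXc _
  rw [div_le_iff₀ hQ, mul_comm] at h4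
  exact h4

end Vale.Agent.P012
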