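import Mathlib
import Vale.Agent.P012.ModSel

namespace Vale.Agent.P012
open Finset

lemma mod_hit (L : ℕ) (hL : 1 ≤ L) (X : Finset ℕ) (hX : X.Nonempty) (lam : ℕ → ℕ)
    (hlam : ∀ i < 540, lam i ≠ 0)
    (hsel : ∀ ρ ∈ goodMod L X, ∀ θ < ρ, Nat.Coprime θ ρ →
      ∏ i ∈ range 540, ‖∑ x ∈ X, ee ((lam i : ℝ) * ((θ : ℝ) / ρ) * x)‖
        ≤ (X.card : ℝ) ^ 540 * ((ρ : ℝ) ^ 3)⁻¹)
    (N : ℕ) (hN : 1 < N) (hgood : ∀ ρ, ρ ∣ N → ρ ≠ 1 → ρ ∈ goodMod L X) :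
    ∃ x : ℕ → ℕ, (∀ i < 540, x i ∈ X) ∧ N ∣ ∑ i ∈ range 540, lam i * x i := by
  classical
  have hN0 : 0 < N := by omega
  have hNr : (0:ℝ) < N := by exact_mod_cast hN0
  have hXc : (0:ℝ) < X.card := by exact_mod_cast card_pos.mpr hX
  have hQ : (0:ℝ) < (X.card : ℝ) ^ 540 := pow_pos hXc _
  set Z : Fin 540 → Finset ℤ := fun i => X.image (fun x : ℕ => ((lam i * x : ℕ) : ℤ)) with hZ
  have hinj : ∀ i : Fin 540, Function.Injective (fun x : ℕ => ((lam i * x : ℕ) : ℤ)) := by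
    intro i a b hab
    simp only at hab
    have h1 : lam i * a = lam i * b := by exact_mod_cast hab
    exact Nat.eq_of_mul_eq_mul_left (Nat.pos_of_ne_zero (hlam i i.2)) h1
  have hcard : ∀ i : Fin 540, (Z i).card = X.card := fun i =>
    card_image_of_injective _ (hinj i)
  have hprod : ∀ θ : ℕ, ∏ j, ‖∑ z ∈ Z j, ee ((θ : ℝ) * z / N)‖
      = ∏ i ∈ range 540, ‖∑ x ∈ X, ee ((lam i : ℝ) * ((θ : ℝ) / N) * x)‖ := by
    intro θ
    rw [prod_range]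
    apply prod_congr rfl
    intro i _
    simp only [hZ]
    rw [sum_image (fun a _ b _ hab => hinj i hab)]
    congr 1
    apply sum_congr rfl
    intro x _
    congr 1
    push_cast
    ring
  -- reduction of θ / N to lowest terms
  set φ : ℕ → (_ : ℕ) × ℕ := fun θ => ⟨N / Nat.gcd θ N, θ / Nat.gcd θ N⟩ with hφ
  have hφ1 : ∀ θ ∈ Ico 1 N, (φ θ).1 ∣ N ∧ (φ θ).1 ≠ 1 ∧ (φ θ).2 < (φ θ).1 ∧
      Nat.Coprime (φ θ).2 (φ θ).1 ∧ (θ : ℝ) / N = ((φ θ).2 : ℝ) / (φ θ).1 := by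
    intro θ hθ
    obtain ⟨h1, h2⟩ := mem_Ico.mp hθ
    have hg : 0 < Nat.gcd θ N := Nat.gcd_pos_of_pos_right _ hN0
    obtain ⟨a, ha⟩ := Nat.gcd_dvd_left θ N
    obtain ⟨b, hb⟩ := Nat.gcd_dvd_right θ N
    have e1 : (φ θ).1 = b := by
      simp only [hφ]
      exact Nat.div_eq_of_eq_mul_right hg hb
    have e2 : (φ θ).2 = a := by
      simp only [hφ]
      exact Nat.div_eq_of_eq_mul_right hg ha
    have hcop : Nat.Coprime (φ θ).2 (φ θ).1 := Nat.coprime_div_gcd_div_gcd hg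
    have hab : a < b := by
      have : Nat.gcd θ N * a < Nat.gcd θ N * b := by rw [← ha, ← hb]; exact h2
      exact Nat.lt_of_mul_lt_mul_left this
    have ha0 : 0 < a := by
      apply Nat.pos_of_ne_zero
      rintro rfl
      rw [mul_zero] at ha
      omega
    refine ⟨?_, ?_, ?_, hcop, ?_⟩
    · rw [e1]; exact ⟨Nat.gcd θ N, by rw [mul_comm]; exact hb⟩
    · rw [e1]; omega
    · rw [e1, e2]; exact hab
    · rw [e1, e2]
      have hb0 : (0:ℝ) < b := by exact_mod_cast (by omega : 0 < b)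
      have e3 : (θ : ℝ) = (Nat.gcd θ N : ℝ) * a := by exact_mod_cast ha
      have e4 : (N : ℝ) = (Nat.gcd θ N : ℝ) * b := by exact_mod_cast hb
      rw [div_eq_div_iff hNr.ne' hb0.ne']
      rw [e4]
      conv_lhs => rw [e3]
      ring
  have hφinj : Set.InjOn φ (Ico 1 N : Finset ℕ) := by
    intro θ hθ θ' hθ' heq
    have h1 := (hφ1 θ (mem_coe.mp hθ)).2.2.2.2
    have h2 := (hφ1 θ' (mem_coe.mp hθ')).2.2.2.2
    rw [heq, ← h2] at h1
    have h3 : (θ : ℝ) = θ' := by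
      field_simp at h1
      exact h1
    exact_mod_cast h3
  have hbound : ∀ θ ∈ Ico 1 N, ∏ j, ‖∑ z ∈ Z j, ee ((θ : ℝ) * z / N)‖
      ≤ (X.card : ℝ) ^ 540 * ((((φ θ).1 : ℕ) : ℝ) ^ 3)⁻¹ := by
    intro θ hθ
    obtain ⟨h1, h2, h3, h4, h5⟩ := hφ1 θ hθ
    rw [hprod, h5]
    exact hsel _ (hgood _ h1 h2) _ h3 h4
  have hsum : ∑ θ ∈ Ico 1 N, ((((φ θ).1 : ℕ) : ℝ) ^ 3)⁻¹ ≤ ((2 * L : ℕ) : ℝ)⁻¹ := by
    have h1 : ∑ θ ∈ Ico 1 N, ((((φ θ).1 : ℕ) : ℝ) ^ 3)⁻¹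
        = ∑ a ∈ (Ico 1 N).image φ, ((a.1 : ℝ) ^ 3)⁻¹ := by
      rw [sum_image hφinj]
    rw [h1]
    calc ∑ a ∈ (Ico 1 N).image φ, ((a.1 : ℝ) ^ 3)⁻¹
        ≤ ∑ a ∈ (N.divisors.erase 1).sigma (fun ρ => range ρ), ((a.1 : ℝ) ^ 3)⁻¹ := by
          apply sum_le_sum_of_subset_of_nonneg
          · intro a ha
            obtain ⟨θ, hθ, rfl⟩ := mem_image.mp ha
            obtain ⟨h1, h2, h3, _⟩ := hφ1 θ hθ
            rw [mem_sigma, mem_erase, Nat.mem_divisors, mem_range]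
            exact ⟨⟨h2, h1, hN0.ne'⟩, h3⟩
          · intro _ _ _
            positivity
      _ = ∑ ρ ∈ N.divisors.erase 1, ∑ _θ ∈ range ρ, ((ρ : ℝ) ^ 3)⁻¹ := by rw [sum_sigma]
      _ ≤ _ := by
          apply weights_le L hL
          intro ρ hρ
          rw [mem_erase, Nat.mem_divisors] at hρ
          have := hgood ρ hρ.2.1 hρ.1
          rw [goodMod, mem_filter, mem_Ioc] at this
          exact this.1.1
  have hfinal : ∑ θ ∈ Ico 1 N, ∏ j, ‖∑ z ∈ Z j, ee ((θ : ℝ) * z / N)‖ < ∏ j, ((Z j).card : ℝ) := by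
    refine lt_of_le_of_lt (sum_le_sum hbound) ?_
    rw [← mul_sum]
    simp only [hcard, prod_const, card_univ, Fintype.card_fin]
    have h1 : ((2 * L : ℕ) : ℝ)⁻¹ < 1 := by
      apply inv_lt_one_of_one_lt₀
      exact_mod_cast (by omega : 1 < 2 * L)
    calc (X.card : ℝ) ^ 540 * ∑ θ ∈ Ico 1 N, ((((φ θ).1 : ℕ) : ℝ) ^ 3)⁻¹
        ≤ (X.card : ℝ) ^ 540 * ((2 * L : ℕ) : ℝ)⁻¹ := mul_le_mul_of_nonneg_left hsum hQ.le
      _ < (X.card : ℝ) ^ 540 * 1 := mul_lt_mul_of_pos_left h1 hQ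
      _ = _ := mul_one _
  obtain ⟨z, hz, hdvd⟩ := hit N hN0 Z 0 hfinal
  have hx : ∀ i : Fin 540, ∃ x ∈ X, ((lam i * x : ℕ) : ℤ) = z i := by
    intro i
    exact mem_image.mp (hz i)
  choose x hxX hxz using hx
  refine ⟨fun i => if h : i < 540 then x ⟨i, h⟩ else 0, ?_, ?_⟩
  · intro i hi
    simp only [hi, dif_pos]
    exact hxX _
  · rw [zero_add] at hdvd
    have e1 : ∑ i : Fin 540, z i
        = ((∑ i ∈ range 540, lam i * (if h : i < 540 then x ⟨i, h⟩ else 0) : ℕ) : ℤ) := by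
      rw [sum_range]
      push_cast
      apply sum_congr rfl
      intro i _
      rw [← hxz i]
      simp only [Fin.is_lt, dif_pos, Fin.eta]
      push_cast
      rfl
    rw [e1] at hdvd
    exact_mod_cast hdvd

end Vale.Agent.P012
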