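import Mathlib
import Vale.Agent.P012.RealSel

namespace Vale.Agent.P012
open Finset

/-- bound for the exponential sum over an interval -/
lemma interval_sum (N V θ : ℕ) (hθ1 : 1 ≤ θ) (hθN : θ < N) :
    ‖∑ v ∈ range V, ee (v * ((θ : ℝ) / N))‖ ^ 2 ≤ (if 2 * θ ≤ N then (N : ℝ) ^ 2 / (4 * (θ : ℝ) ^ 2)
      else (N : ℝ) ^ 2 / (4 * ((N - θ : ℕ) : ℝ) ^ 2)) := by
  have hN : (0:ℝ) < N := by exact_mod_cast (by omega : 0 < N)
  have hθ : (0:ℝ) < θ := by exact_mod_cast hθ1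
  split_ifs with h
  · have hle : |(θ : ℝ) / N - ((0 : ℤ) : ℝ)| ≤ 1 / 2 := by
      rw [Int.cast_zero, sub_zero, abs_of_nonneg (by positivity), div_le_div_iff₀ hN (by norm_num)]
      have : ((2 * θ : ℕ) : ℝ) ≤ N := by exact_mod_cast h
      push_cast at this
      linarith
    have hge : (θ : ℝ) / N ≤ |(θ : ℝ) / N - ((0 : ℤ) : ℝ)| := by
      rw [Int.cast_zero, sub_zero]
      exact le_abs_self _
    have h1 := norm_geom (x := (θ : ℝ) / N) (δ := (θ : ℝ) / N) 0 (by positivity) hge hle V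
    calc ‖∑ v ∈ range V, ee (v * ((θ : ℝ) / N))‖ ^ 2 ≤ (1 / (2 * ((θ : ℝ) / N))) ^ 2 := by
          gcongr
      _ = _ := by
          field_simp
          ring
  · have hNθ : (0:ℝ) < ((N - θ : ℕ) : ℝ) := by exact_mod_cast (by omega : 0 < N - θ)
    have hcast : ((N - θ : ℕ) : ℝ) = (N : ℝ) - θ := by
      rw [Nat.cast_sub hθN.le]
    have heq : |(θ : ℝ) / N - ((1 : ℤ) : ℝ)| = ((N - θ : ℕ) : ℝ) / N := by
      rw [Int.cast_one, hcast]
      have : (θ : ℝ) / N - 1 = -(((N : ℝ) - θ) / N) := by field_simp; ring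
      rw [this, abs_neg, abs_of_nonneg]
      rw [← hcast]
      positivity
    have hle : |(θ : ℝ) / N - ((1 : ℤ) : ℝ)| ≤ 1 / 2 := by
      rw [heq, div_le_div_iff₀ hN (by norm_num)]
      have : ((2 * (N - θ) : ℕ) : ℝ) ≤ N := by exact_mod_cast (by omega : 2 * (N - θ) ≤ N)
      push_cast at this
      linarith
    have h1 := norm_geom (x := (θ : ℝ) / N) (δ := ((N - θ : ℕ) : ℝ) / N) 1 (by positivity)
      (le_of_eq heq.symm) hle V
    calc ‖∑ v ∈ range V, ee (v * ((θ : ℝ) / N))‖ ^ 2 ≤ (1 / (2 * (((N - θ : ℕ) : ℝ) / N))) ^ 2 := by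
          gcongr
      _ = _ := by
          field_simp
          ring

lemma norm_reflect (X : Finset ℕ) (N θ u l : ℕ) (hN : 0 < N) (hθ : θ ≤ N) :
    ‖∑ x ∈ X, ee ((l : ℝ) * ((θ : ℝ) * u / N) * x)‖
      = ‖∑ x ∈ X, ee ((l : ℝ) * (((N - θ : ℕ) : ℝ) * u / N) * x)‖ := by
  have hN' : (N : ℝ) ≠ 0 := by exact_mod_cast hN.ne'
  rw [← Complex.norm_conj (∑ x ∈ X, ee ((l : ℝ) * ((θ : ℝ) * u / N) * x)), map_sum]
  congr 1
  apply sum_congr rfl
  intro x _
  rw [← ee_neg]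
  have : (l : ℝ) * (((N - θ : ℕ) : ℝ) * u / N) * x
      = -((l : ℝ) * ((θ : ℝ) * u / N) * x) + ((l * u * x : ℕ) : ℤ) := by
    rw [Nat.cast_sub hθ]
    push_cast
    field_simp
    ring
  rw [this, ee_add_int]

/-- the numerical part of the hitting argument -/
lemma tail_sum (N Θ : ℕ) (hΘ : 0 < Θ) (hΘN : Θ ≤ N) (c : ℝ) (hc : 0 ≤ c) :
    ∑ θ ∈ Ico 1 N, (if θ ≤ Θ then c else (N : ℝ) ^ 2 / (4 * (θ : ℝ) ^ 2))
      ≤ Θ * c + (N : ℝ) ^ 2 / (4 * Θ) := by
  have h1 : ∀ θ ∈ Ico 1 N, (if θ ≤ Θ then c else (N : ℝ) ^ 2 / (4 * (θ : ℝ) ^ 2))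
      = (if θ ≤ Θ then c else 0) + (if Θ < θ then (N : ℝ) ^ 2 / 4 * ((θ : ℝ) ^ 2)⁻¹ else 0) := by
    intro θ _
    by_cases h : θ ≤ Θ
    · simp [h, not_lt.mpr h]
    · simp only [h, if_false, not_le.mp h, if_true, zero_add]
      field_simp
  rw [sum_congr rfl h1, sum_add_distrib]
  apply add_le_add
  · rw [← sum_filter, sum_const, nsmul_eq_mul]
    apply mul_le_mul_of_nonneg_right _ hc
    have : ((Ico 1 N).filter (fun θ => θ ≤ Θ)).card ≤ Θ := by
      calc _ ≤ (Icc 1 Θ).card := card_le_card (by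
            intro θ hθ
            rw [mem_filter, mem_Ico] at hθ
            rw [mem_Icc]
            omega)
        _ = Θ := by rw [Nat.card_Icc]; omega
    exact_mod_cast this
  · rw [← sum_filter, ← mul_sum]
    have h2 : ∑ θ ∈ (Ico 1 N).filter (fun θ => Θ < θ), ((θ : ℝ) ^ 2)⁻¹ ≤ (Θ : ℝ)⁻¹ := by
      calc _ ≤ ∑ θ ∈ Ioc Θ N, ((θ : ℝ) ^ 2)⁻¹ := by
            apply sum_le_sum_of_subset_of_nonneg
            · intro θ hθ
              rw [mem_filter, mem_Ico] at hθ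
              rw [mem_Ioc]
              omega
            · intro θ _ _
              positivity
        _ ≤ (Θ : ℝ)⁻¹ - (N : ℝ)⁻¹ := sum_Ioc_inv_sq_le_sub hΘ.ne' hΘN
        _ ≤ _ := by
            have : (0:ℝ) ≤ (N : ℝ)⁻¹ := by positivity
            linarith
    calc (N : ℝ) ^ 2 / 4 * ∑ θ ∈ (Ico 1 N).filter (fun θ => Θ < θ), ((θ : ℝ) ^ 2)⁻¹
        ≤ (N : ℝ) ^ 2 / 4 * (Θ : ℝ)⁻¹ := mul_le_mul_of_nonneg_left h2 (by positivity)
      _ = _ := by
          have : (Θ : ℝ) ≠ 0 := by positivity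
          field_simp

/-- Fourier argument for a real batch -/
lemma real_hit (L : ℕ) (hL : 1 ≤ L) (X : Finset ℕ) (hX : X.Nonempty) (lam : ℕ → ℕ)
    (hlam : ∀ i < 32, lam i ≠ 0) (u : ℕ) (hu : 0 < u)
    (hsel : ∀ θ : ℕ, 1 ≤ θ → θ ≤ 2 ^ (2 * L + 6) →
      ∏ i ∈ range 32, ‖∑ x ∈ X, ee ((lam i : ℝ) * ((θ : ℝ) * u / (2 ^ (37 * L) : ℕ)) * x)‖
        ≤ (X.card : ℝ) ^ 32 * (1 / 2 ^ (2 * L + 9))) :
    ∃ x : ℕ → ℕ, (∀ i < 32, x i ∈ X) ∧ ∃ v0 v1 : ℕ, v0 < 2 ^ (36 * L - 3) ∧ v1 < 2 ^ (36 * L - 3) ∧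
      2 ^ (37 * L) ∣ 2 ^ (36 * L - 2) + v0 + v1 + u * ∑ i ∈ range 32, lam i * x i := by
  classical
  set N := 2 ^ (37 * L) with hN
  set V := 2 ^ (36 * L - 3) with hV
  set Θ := 2 ^ (2 * L + 6) with hΘ
  have hN0 : 0 < N := by positivity
  have hNr : (0:ℝ) < N := by exact_mod_cast hN0
  have hXc : (0:ℝ) < X.card := by exact_mod_cast card_pos.mpr hX
  set Z : Fin 32 ⊕ Fin 2 → Finset ℤ := Sum.elim
    (fun i => X.image (fun x => ((u * lam i * x : ℕ) : ℤ)))
    (fun _ => (range V).image (fun v : ℕ => (v : ℤ))) with hZ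
  have hinj1 : ∀ i : Fin 32, Function.Injective (fun x : ℕ => ((u * lam i * x : ℕ) : ℤ)) := by
    intro i a b hab
    simp only at hab
    have h1 : u * lam i * a = u * lam i * b := by exact_mod_cast hab
    have h2 : 0 < u * lam i := Nat.mul_pos hu (Nat.pos_of_ne_zero (hlam i i.2))
    exact Nat.eq_of_mul_eq_mul_left h2 h1
  have hcard1 : ∀ i : Fin 32, (Z (Sum.inl i)).card = X.card := fun i => by
    simp only [hZ, Sum.elim_inl]
    exact card_image_of_injective _ (hinj1 i)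
  have hcard2 : ∀ j : Fin 2, (Z (Sum.inr j)).card = V := fun j => by
    simp only [hZ, Sum.elim_inr]
    rw [card_image_of_injective _ Nat.cast_injective, card_range]
  set A : ℕ → ℝ := fun θ =>
    ∏ i ∈ range 32, ‖∑ x ∈ X, ee ((lam i : ℝ) * ((θ : ℝ) * u / N) * x)‖ with hA
  set I : ℕ → ℝ := fun θ => ‖∑ v ∈ range V, ee (v * ((θ : ℝ) / N))‖ with hI
  have hprod : ∀ θ : ℕ, ∏ j, ‖∑ z ∈ Z j, ee ((θ : ℝ) * z / N)‖ = A θ * I θ ^ 2 := by
    intro θ
    rw [Fintype.prod_sum_type]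
    congr 1
    · simp only [hA]
      rw [prod_range]
      apply prod_congr rfl
      intro i _
      simp only [hZ, Sum.elim_inl]
      rw [sum_image (fun a _ b _ hab => hinj1 i hab)]
      congr 1
      apply sum_congr rfl
      intro x _
      congr 1
      push_cast
      ring
    · have : ∀ j : Fin 2, ‖∑ z ∈ Z (Sum.inr j), ee ((θ : ℝ) * z / N)‖ = I θ := by
        intro j
        simp only [hZ, Sum.elim_inr, hI]
        rw [sum_image (fun a _ b _ hab => Nat.cast_injective hab)]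
        congr 1
        apply sum_congr rfl
        intro v _
        congr 1
        push_cast
        ring
      rw [Fin.prod_univ_two, this, this, sq]
  have hA0 : ∀ θ, 0 ≤ A θ := fun θ => prod_nonneg (fun _ _ => norm_nonneg _)
  have hAtriv : ∀ θ, A θ ≤ (X.card : ℝ) ^ 32 := by
    intro θ
    simp only [hA]
    calc ∏ i ∈ range 32, ‖∑ x ∈ X, ee ((lam i : ℝ) * ((θ : ℝ) * u / N) * x)‖
        ≤ ∏ _i ∈ range 32, (X.card : ℝ) := by
          apply prod_le_prod (fun _ _ => norm_nonneg _)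
          intro i _
          refine (norm_sum_le _ _).trans (le_of_eq ?_)
          simp [norm_ee]
      _ = _ := by rw [prod_const, card_range]
  have hI0 : ∀ θ, 0 ≤ I θ := fun θ => norm_nonneg _
  have hItriv : ∀ θ, I θ ≤ V := by
    intro θ
    simp only [hI]
    refine (norm_sum_le _ _).trans (le_of_eq ?_)
    simp [norm_ee]
  set ε : ℝ := 1 / 2 ^ (2 * L + 9) with hε
  set f : ℕ → ℝ := fun θ => if θ ≤ Θ then ε * (V : ℝ) ^ 2 else (N : ℝ) ^ 2 / (4 * (θ : ℝ) ^ 2) with hf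
  have hf0 : ∀ θ, 0 ≤ f θ := by
    intro θ
    simp only [hf]
    split_ifs <;> positivity
  have hbound : ∀ θ ∈ Ico 1 N, A θ * I θ ^ 2 ≤ (X.card : ℝ) ^ 32 * (f θ + f (N - θ)) := by
    intro θ hθ
    obtain ⟨hθ1, hθN⟩ := mem_Ico.mp hθ
    have hI2 : I θ ^ 2 ≤ (V : ℝ) ^ 2 := pow_le_pow_left₀ (hI0 θ) (hItriv θ) 2
    by_cases h1 : θ ≤ Θ
    · have h2 : f θ = ε * (V : ℝ) ^ 2 := by simp only [hf, h1, if_true]
      calc A θ * I θ ^ 2 ≤ ((X.card : ℝ) ^ 32 * ε) * (V : ℝ) ^ 2 :=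
            mul_le_mul (hsel θ hθ1 h1) hI2 (by positivity) (by positivity)
        _ = (X.card : ℝ) ^ 32 * f θ := by rw [h2]; ring
        _ ≤ _ := by
            apply mul_le_mul_of_nonneg_left _ (by positivity)
            linarith [hf0 (N - θ)]
    · by_cases h3 : N - θ ≤ Θ
      · have h2 : f (N - θ) = ε * (V : ℝ) ^ 2 := by simp only [hf, h3, if_true]
        have h4 : A θ = A (N - θ) := by
          simp only [hA]
          apply prod_congr rfl
          intro i _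
          exact norm_reflect X N θ u (lam i) hN0 hθN.le
        have h5 : A θ ≤ (X.card : ℝ) ^ 32 * ε := by
          rw [h4]
          exact hsel (N - θ) (by omega) h3
        calc A θ * I θ ^ 2 ≤ ((X.card : ℝ) ^ 32 * ε) * (V : ℝ) ^ 2 :=
              mul_le_mul h5 hI2 (by positivity) (by positivity)
          _ = (X.card : ℝ) ^ 32 * f (N - θ) := by rw [h2]; ring
          _ ≤ _ := by
              apply mul_le_mul_of_nonneg_left _ (by positivity)
              linarith [hf0 θ]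
      · have h2 : f θ = (N : ℝ) ^ 2 / (4 * (θ : ℝ) ^ 2) := by simp only [hf, h1, if_false]
        have h2' : f (N - θ) = (N : ℝ) ^ 2 / (4 * ((N - θ : ℕ) : ℝ) ^ 2) := by
          simp only [hf, h3, if_false]
        have h6 : I θ ^ 2 ≤ f θ + f (N - θ) := by
          refine (interval_sum N V θ hθ1 hθN).trans ?_
          split_ifs
          · rw [← h2]; linarith [hf0 (N - θ)]
          · rw [← h2']; linarith [hf0 θ]
        exact mul_le_mul (hAtriv θ) h6 (by positivity) (by positivity)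
  have hΘ0 : 0 < Θ := by positivity
  have hΘN : Θ ≤ N := by
    rw [hΘ, hN]
    apply Nat.pow_le_pow_right (by norm_num)
    omega
  have hsumf : ∑ θ ∈ Ico 1 N, f θ ≤ Θ * (ε * (V : ℝ) ^ 2) + (N : ℝ) ^ 2 / (4 * Θ) :=
    tail_sum N Θ hΘ0 hΘN _ (by positivity)
  have hsumf' : ∑ θ ∈ Ico 1 N, f (N - θ) = ∑ θ ∈ Ico 1 N, f θ := by
    rw [sum_Ico_reflect f 1 (by omega : N ≤ N + 1)]
    congr 1
    congr 1 <;> omega
  have hfinal : ∑ θ ∈ Ico 1 N, ∏ j, ‖∑ z ∈ Z j, ee ((θ : ℝ) * z / N)‖ < ∏ j, ((Z j).card : ℝ) := by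
    rw [sum_congr rfl (fun θ _ => hprod θ)]
    refine lt_of_le_of_lt (sum_le_sum hbound) ?_
    rw [← mul_sum, sum_add_distrib, hsumf', Fintype.prod_sum_type]
    simp only [hcard1, hcard2, prod_const, card_univ, Fintype.card_fin]
    apply mul_lt_mul_of_pos_left _ (by positivity)
    have hVr : (V : ℝ) = 2 ^ (36 * L - 3) := by rw [hV]; push_cast; rfl
    have hΘε : (Θ : ℝ) * ε = 1 / 8 := by
      rw [hΘ, hε]
      push_cast
      rw [show 2 * L + 9 = (2 * L + 6) + 3 by ring, pow_add (2:ℝ) (2 * L + 6) 3]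
      field_simp
      norm_num
    have hNΘ : (N : ℝ) ^ 2 / (4 * Θ) = (V : ℝ) ^ 2 / 4 := by
      rw [div_eq_div_iff (by positivity) (by norm_num), hVr, hN, hΘ]
      push_cast
      rw [← pow_mul, ← pow_mul]
      have e1 : (2:ℝ) ^ (37 * L * 2) * 4 = 2 ^ (37 * L * 2 + 2) := by rw [pow_add]; norm_num
      have e2 : (2:ℝ) ^ ((36 * L - 3) * 2) * (4 * 2 ^ (2 * L + 6))
          = 2 ^ ((36 * L - 3) * 2 + (2 * L + 6) + 2) := by rw [pow_add, pow_add]; ring
      rw [e1, e2]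
      congr 1
      omega
    have hV2 : (0:ℝ) < (V : ℝ) ^ 2 := by positivity
    have h1 : (Θ : ℝ) * (ε * (V : ℝ) ^ 2) = (V : ℝ) ^ 2 / 8 := by
      rw [← mul_assoc, hΘε]; ring
    rw [h1, hNΘ] at hsumf
    linarith
  obtain ⟨z, hz, hdvd⟩ := hit N hN0 Z ((2 ^ (36 * L - 2) : ℕ) : ℤ) hfinal
  -- extract
  have hx : ∀ i : Fin 32, ∃ x ∈ X, ((u * lam i * x : ℕ) : ℤ) = z (Sum.inl i) := by
    intro i
    have := hz (Sum.inl i)
    simp only [hZ, Sum.elim_inl] at this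
    exact mem_image.mp this
  have hv : ∀ j : Fin 2, ∃ v ∈ range V, (v : ℤ) = z (Sum.inr j) := by
    intro j
    have := hz (Sum.inr j)
    simp only [hZ, Sum.elim_inr] at this
    exact mem_image.mp this
  choose x hxX hxz using hx
  choose v hvV hvz using hv
  refine ⟨fun i => if h : i < 32 then x ⟨i, h⟩ else 0, ?_, v 0, v 1, mem_range.mp (hvV 0),
    mem_range.mp (hvV 1), ?_⟩
  · intro i hi
    simp only [hi, dif_pos]
    exact hxX _
  · rw [Fintype.sum_sum_type, Fin.sum_univ_two, ← hvz 0, ← hvz 1] at hdvd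
    have e1 : ∑ i : Fin 32, z (Sum.inl i)
        = ((u * ∑ i ∈ range 32, lam i * (if h : i < 32 then x ⟨i, h⟩ else 0) : ℕ) : ℤ) := by
      rw [mul_sum, sum_range]
      push_cast
      apply sum_congr rfl
      intro i _
      rw [← hxz i]
      simp only [Fin.is_lt, dif_pos, Fin.eta]
      push_cast
      ring
    rw [e1] at hdvd
    have e2 : (((2 ^ (36 * L - 2) + v 0 + v 1 +
        u * ∑ i ∈ range 32, lam i * (if h : i < 32 then x ⟨i, h⟩ else 0) : ℕ)) : ℤ)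
        = ((2 ^ (36 * L - 2) : ℕ) : ℤ) +
          (((u * ∑ i ∈ range 32, lam i * (if h : i < 32 then x ⟨i, h⟩ else 0) : ℕ) : ℤ)
            + ((v 0 : ℤ) + (v 1 : ℤ))) := by
      push_cast
      ring
    rw [← e2] at hdvd
    exact_mod_cast hdvd

end Vale.Agent.P012
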