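import Mathlib
import Vale.Agent.P012.RealHit

namespace Vale.Agent.P012
open Finset

lemma mults_prod_le (L k0 h c E : ℕ) (hE : E + (c * L + 2) ≤ (c + 1) * L) (lam : ℕ → ℕ)
    (hlam : ∀ i < h, lam i ∈ mults (i * k0) (2 ^ (c * L))) (hhE : ∀ i < h, i * k0 ≤ E) :
    (∀ i < h, lam i ≤ 2 ^ ((c + 1) * L)) ∧
    ∏ i ∈ range h, lam i ≤ (2 ^ ((c + 1) * L)) ^ h := by
  have h1 : ∀ i < h, lam i ≤ 2 ^ ((c + 1) * L) := by
    intro i hi
    obtain ⟨_, _, h3, _⟩ := mults_val (hlam i hi)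
    calc lam i ≤ 2 ^ (i * k0) * (4 * 2 ^ (c * L)) := h3
      _ ≤ 2 ^ E * (4 * 2 ^ (c * L)) := by
          apply Nat.mul_le_mul_right
          exact Nat.pow_le_pow_right (by norm_num) (hhE i hi)
      _ = 2 ^ (E + (c * L + 2)) := by rw [pow_add, pow_add]; ring
      _ ≤ _ := Nat.pow_le_pow_right (by norm_num) hE
  refine ⟨h1, ?_⟩
  calc ∏ i ∈ range h, lam i ≤ ∏ _i ∈ range h, 2 ^ ((c + 1) * L) :=
        prod_le_prod' (fun i hi => h1 i (mem_range.mp hi))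
    _ = _ := by rw [prod_const, card_range]

/-- extraction of the batch from the Fourier output -/
lemma batch_arith (L r D0 u t Y w : ℕ) (hL : 4 ≤ L) (hu1 : u * r ≤ 2 ^ (37 * L) * D0)
    (hu2 : 2 ^ (37 * L) * D0 < (u + 1) * r) (ht1 : 2 ^ (36 * L - 2) ≤ t)
    (ht2 : t < 2 ^ (36 * L - 1)) (hY : Y ≤ 2 ^ (35 * L)) (hw : t + u * Y = 2 ^ (37 * L) * w) :
    D0 * Y ≤ r * w ∧ (r * w - D0 * Y) * 2 ^ L ≤ r := by
  have hYt : Y ≤ t := by
    refine hY.trans (le_trans ?_ ht1)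
    apply Nat.pow_le_pow_right (by norm_num)
    omega
  have hNpos : 0 < 2 ^ (37 * L) := by positivity
  have e1 : 2 ^ (37 * L) * (r * w) = r * t + r * (u * Y) := by
    calc 2 ^ (37 * L) * (r * w) = r * (2 ^ (37 * L) * w) := by ring
      _ = _ := by rw [← hw]; ring
  have e2 : 2 ^ (37 * L) * (D0 * Y) ≤ r * (u * Y) + r * Y := by
    calc 2 ^ (37 * L) * (D0 * Y) = (2 ^ (37 * L) * D0) * Y := by ring
      _ ≤ ((u + 1) * r) * Y := Nat.mul_le_mul_right _ hu2.le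
      _ = _ := by ring
  have e3 : r * (u * Y) ≤ 2 ^ (37 * L) * (D0 * Y) := by
    calc r * (u * Y) = (u * r) * Y := by ring
      _ ≤ (2 ^ (37 * L) * D0) * Y := Nat.mul_le_mul_right _ hu1
      _ = _ := by ring
  have h1 : D0 * Y ≤ r * w := by
    have : 2 ^ (37 * L) * (D0 * Y) ≤ 2 ^ (37 * L) * (r * w) := by
      rw [e1]
      have : r * Y ≤ r * t := Nat.mul_le_mul_left _ hYt
      omega
    exact Nat.le_of_mul_le_mul_left this hNpos
  refine ⟨h1, ?_⟩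
  set r' := r * w - D0 * Y with hr'
  have e4 : 2 ^ (37 * L) * r' ≤ r * t := by
    have e5 : 2 ^ (37 * L) * r' + 2 ^ (37 * L) * (D0 * Y) = 2 ^ (37 * L) * (r * w) := by
      rw [← mul_add, hr', Nat.sub_add_cancel h1]
    omega
  have e6 : 2 ^ (36 * L) * (r' * 2 ^ L) ≤ 2 ^ (36 * L) * r := by
    calc 2 ^ (36 * L) * (r' * 2 ^ L) = 2 ^ (37 * L) * r' := by
          rw [show 37 * L = 36 * L + L by ring, pow_add]; ring
      _ ≤ r * t := e4
      _ ≤ r * 2 ^ (36 * L - 1) := Nat.mul_le_mul_left _ ht2.le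
      _ ≤ r * 2 ^ (36 * L) := by
          apply Nat.mul_le_mul_left
          exact Nat.pow_le_pow_right (by norm_num) (by omega)
      _ = _ := mul_comm _ _
  exact Nat.le_of_mul_le_mul_left e6 (by positivity)

lemma u_bounds (L r D0 : ℕ) (hL : 1 ≤ L) (hD0 : 0 < D0) (hr1 : 2 ^ (18 * L) * D0 ≤ r)
    (hr2 : r < 2 ^ (18 * L + 1) * D0) :
    2 ^ (19 * L - 1) ≤ 2 ^ (37 * L) * D0 / r ∧ 2 ^ (37 * L) * D0 / r ≤ 2 ^ (19 * L) := by
  have hr0 : 0 < r := lt_of_lt_of_le (by positivity) hr1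
  constructor
  · rw [Nat.le_div_iff_mul_le hr0]
    calc 2 ^ (19 * L - 1) * r ≤ 2 ^ (19 * L - 1) * (2 ^ (18 * L + 1) * D0) :=
          Nat.mul_le_mul_left _ hr2.le
      _ = 2 ^ (37 * L) * D0 := by
          rw [← mul_assoc, ← pow_add]
          congr 2
          omega
  · have : (2 ^ (37 * L) * D0 / r) * (2 ^ (18 * L) * D0) ≤ 2 ^ (19 * L) * (2 ^ (18 * L) * D0) := by
      calc (2 ^ (37 * L) * D0 / r) * (2 ^ (18 * L) * D0) ≤ (2 ^ (37 * L) * D0 / r) * r :=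
            Nat.mul_le_mul_left _ hr1
        _ ≤ 2 ^ (37 * L) * D0 := Nat.div_mul_le_self _ _
        _ = _ := by
          rw [show 37 * L = 19 * L + 18 * L by ring, pow_add]; ring
    exact Nat.le_of_mul_le_mul_right this (by positivity)

lemma Y_bound (L k0 : ℕ) (hk : 31 * k0 + 8 ≤ L) (lam x : ℕ → ℕ)
    (hlam : ∀ i < 32, lam i ∈ mults (i * k0) (2 ^ (20 * L))) (hx : ∀ i < 32, x i ≤ 2 ^ (14 * L)) :
    ∑ i ∈ range 32, lam i * x i ≤ 2 ^ (35 * L) := by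
  calc ∑ i ∈ range 32, lam i * x i
      ≤ ∑ _i ∈ range 32, 2 ^ (31 * k0 + 20 * L + 2) * 2 ^ (14 * L) := by
        apply sum_le_sum
        intro i hi
        have hi' := mem_range.mp hi
        apply Nat.mul_le_mul _ (hx i hi')
        calc lam i ≤ 2 ^ (i * k0) * (4 * 2 ^ (20 * L)) := (mults_val (hlam i hi')).2.2.1
          _ ≤ 2 ^ (31 * k0) * (4 * 2 ^ (20 * L)) := by
              apply Nat.mul_le_mul_right
              exact Nat.pow_le_pow_right (by norm_num) (Nat.mul_le_mul_right _ (by omega))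
          _ = _ := by rw [pow_add, pow_add]; ring
    _ = 32 * (2 ^ (31 * k0 + 20 * L + 2) * 2 ^ (14 * L)) := by
        rw [sum_const, card_range, smul_eq_mul]
    _ = 2 ^ (5 + (31 * k0 + 20 * L + 2) + 14 * L) := by
        rw [pow_add 2 (5 + _), pow_add 2 5]
        ring
    _ ≤ _ := by
        apply Nat.pow_le_pow_right (by norm_num)
        omega

lemma t_bound (L v0 v1 : ℕ) (hL : 1 ≤ L) (hv0 : v0 < 2 ^ (36 * L - 3)) (hv1 : v1 < 2 ^ (36 * L - 3)) :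
    2 ^ (36 * L - 2) + v0 + v1 < 2 ^ (36 * L - 1) := by
  have e1 : 2 ^ (36 * L - 2) = 2 * 2 ^ (36 * L - 3) := by
    rw [← pow_succ']; congr 1; omega
  have e2 : 2 ^ (36 * L - 1) = 2 * 2 ^ (36 * L - 2) := by
    rw [← pow_succ']; congr 1; omega
  omega

lemma real_batch_aux (L k0 MX : ℕ) (hL : 100 ≤ L) (hk : 31 * k0 + 8 ≤ L) (X : Finset ℕ)
    (hX : X.Nonempty) (hXle : ∀ x ∈ X, x ≤ 2 ^ (14 * L)) (hslot : ∀ x ∈ X, SlotSum MX k0 1 x)
    (lam : ℕ → ℕ) (hlam : ∀ i < 32, lam i ∈ mults (i * k0) (2 ^ (20 * L)))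
    (hsel : ∀ θ : ℕ, 1 ≤ θ → θ ≤ 2 ^ (2 * L + 6) → ∀ u : ℕ, 2 ^ (19 * L - 1) ≤ u → u ≤ 2 ^ (19 * L) →
      ∏ i ∈ range 32, ‖∑ x ∈ X, ee ((lam i : ℝ) * ((θ : ℝ) * u / (2 ^ (37 * L) : ℕ)) * x)‖
        ≤ (X.card : ℝ) ^ 32 * (1 / 2 ^ (2 * L + 9)))
    (r D0 : ℕ) (hD0 : 0 < D0) (hr1 : 2 ^ (18 * L) * D0 ≤ r) (hr2 : r < 2 ^ (18 * L + 1) * D0) :
    ∃ g : ℕ → ℕ, ∃ w r' : ℕ, (∀ s < 32 * k0, g s ∣ MX * ∏ i ∈ range 32, lam i ∧
        padicValNat 2 (g s) = s ∧ r < D0 * g s) ∧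
        r * w = D0 * (∑ s ∈ range (32 * k0), g s) + r' ∧ r' * 2 ^ L ≤ r ∧ 0 < w := by
  have hr0 : 0 < r := lt_of_lt_of_le (by positivity) hr1
  have hlam0 : ∀ i < 32, lam i ≠ 0 := fun i hi => (mults_val (hlam i hi)).2.2.2
  obtain ⟨huge, hule⟩ := u_bounds L r D0 (by omega) hD0 hr1 hr2
  have hu1 : (2 ^ (37 * L) * D0 / r) * r ≤ 2 ^ (37 * L) * D0 := Nat.div_mul_le_self _ _
  have hu2 : 2 ^ (37 * L) * D0 < (2 ^ (37 * L) * D0 / r + 1) * r := by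
    rw [mul_comm (2 ^ (37 * L) * D0 / r + 1) r]
    exact Nat.lt_mul_div_succ _ hr0
  generalize 2 ^ (37 * L) * D0 / r = u at huge hule hu1 hu2
  have hu0 : 0 < u := lt_of_lt_of_le (by positivity) huge
  obtain ⟨x, hx, v0, v1, hv0, hv1, hdvd⟩ := real_hit L (by omega) X hX lam hlam0 u hu0
    (fun θ h1 h2 => hsel θ h1 h2 u huge hule)
  have hYle := Y_bound L k0 hk lam x hlam (fun i hi => hXle _ (hx i hi))
  obtain ⟨w, hw⟩ := hdvd
  obtain ⟨g, hg, hgY⟩ := slot_many (M := MX) (k0 := k0) (lo := 2 * 2 ^ (20 * L)) 32 x lam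
    (fun i hi => hslot _ (hx i hi))
    (fun i hi => ⟨(mults_val (hlam i hi)).1, (mults_val (hlam i hi)).2.1, hlam0 i hi⟩)
  generalize ∑ i ∈ range 32, lam i * x i = Y at hYle hw hgY
  have ht2 := t_bound L v0 v1 (by omega) hv0 hv1
  have ht1 : 2 ^ (36 * L - 2) ≤ 2 ^ (36 * L - 2) + v0 + v1 := by omega
  have ht0 : 0 < 2 ^ (36 * L - 2) + v0 + v1 := by positivity
  generalize 2 ^ (36 * L - 2) + v0 + v1 = t at ht1 ht2 hw ht0
  obtain ⟨h1, h2⟩ := batch_arith L r D0 u t Y w (by omega) hu1 hu2 ht1 ht2 hYle hw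
  refine ⟨g, w, r * w - D0 * Y, ?_, ?_, h2, ?_⟩
  · intro s hs
    obtain ⟨ha, hb, hc⟩ := hg s hs
    refine ⟨ha, hc, ?_⟩
    calc r < 2 ^ (18 * L + 1) * D0 := hr2
      _ ≤ D0 * (2 * 2 ^ (20 * L)) := by
          rw [mul_comm D0]
          apply Nat.mul_le_mul_right
          rw [← pow_succ']
          apply Nat.pow_le_pow_right (by norm_num)
          omega
      _ ≤ D0 * g s := Nat.mul_le_mul_left _ hb
  · rw [← hgY]
    omega
  · apply Nat.pos_of_ne_zero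
    rintro rfl
    rw [mul_zero] at hw
    omega

theorem real_batch (ν : ℕ) (hν : 11 ≤ ν) (k0 MX : ℕ) (X : Finset ℕ) (hC : Core ν k0 X MX) :
    ∃ MR : ℕ, 0 < MR ∧ MR ≤ 2 ^ (685 * 2 ^ (20 * ν)) ∧ ∀ r D0 : ℕ, 0 < D0 →
      2 ^ (18 * 2 ^ (20 * ν)) * D0 ≤ r → r < 2 ^ (18 * 2 ^ (20 * ν) + 1) * D0 →
      ∃ g : ℕ → ℕ, ∃ w r' : ℕ, (∀ s < 32 * k0, g s ∣ MR ∧ padicValNat 2 (g s) = s ∧ r < D0 * g s) ∧
        r * w = D0 * (∑ s ∈ range (32 * k0), g s) + r' ∧ r' * 2 ^ (2 ^ (20 * ν)) ≤ r ∧ 0 < w := by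
  have hbig := L_big ν hν
  have hk0 := hC.k0_le
  have hXcard := hC.X_card
  have hXle := hC.X_le
  have hMX := hC.MX_le
  have hMX0 := hC.MX_pos
  have hslot := hC.slot
  generalize 2 ^ (20 * ν) = L at *
  have hXpos : 0 < X.card := lt_of_lt_of_le (by positivity) hXcard
  have hXne : X.Nonempty := card_pos.mp hXpos
  obtain ⟨lam, hlam, hsel⟩ := real_sel L k0 (by omega) (by omega) X hXcard hXle
  obtain ⟨_, hprodle⟩ := mults_prod_le L k0 32 20 (31 * k0) (by omega) lam hlam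
    (fun i hi => Nat.mul_le_mul_right _ (by omega))
  have hlam0 : ∀ i < 32, lam i ≠ 0 := fun i hi => (mults_val (hlam i hi)).2.2.2
  refine ⟨MX * ∏ i ∈ range 32, lam i, ?_, ?_, ?_⟩
  · apply Nat.mul_pos hMX0
    apply prod_pos
    intro i hi
    exact Nat.pos_of_ne_zero (hlam0 i (mem_range.mp hi))
  · calc MX * ∏ i ∈ range 32, lam i ≤ 2 ^ (13 * L) * (2 ^ ((20 + 1) * L)) ^ 32 :=
          Nat.mul_le_mul hMX hprodle
      _ = 2 ^ (685 * L) := by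
          rw [← pow_mul, ← pow_add]
          congr 1
          ring
  · intro r D0 hD0 hr1 hr2
    exact real_batch_aux L k0 MX (by omega) (by omega) X hXne hXle hslot lam hlam hsel r D0 hD0
      hr1 hr2

end Vale.Agent.P012
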