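import Mathlib
import Vale.Agent.P012.Base

namespace Vale.Agent.P012
open Finset

open Classical in
/-- divisors all of whose prime factors exceed `z` -/
noncomputable def roughDiv (z n : ℕ) : Finset ℕ :=
  n.divisors.filter (fun ρ => ∀ p, p.Prime → p ∣ ρ → z < p)

lemma rough_sum (z : ℕ) (hz : 1 ≤ z) (σ : ℝ) (hσ : 0 < σ) (n : ℕ) (hn : 0 < n) :
    ∑ ρ ∈ roughDiv z n, (ρ : ℝ) ^ (-σ) ≤ (1 + (z : ℝ) ^ (-σ)) ^ (Nat.log 2 n) := by
  classical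
  induction n using Nat.strong_induction_on with
  | _ n ih =>
    have hz0 : (0:ℝ) < (z : ℝ) ^ (-σ) := Real.rpow_pos_of_pos (by exact_mod_cast hz) _
    rcases Nat.eq_or_lt_of_le hn with h1 | h1
    · have h1' : n = 1 := h1.symm
      subst h1'
      have h2 : roughDiv z 1 = {1} := by
        ext ρ
        simp only [roughDiv, Nat.divisors_one, mem_filter, mem_singleton]
        constructor
        · exact fun h => h.1
        · rintro rfl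
          refine ⟨rfl, fun p hp hp1 => ?_⟩
          exact absurd (Nat.dvd_one.mp hp1) hp.ne_one
      rw [h2]
      simp
    · have hn1 : n ≠ 1 := by omega
      set p := n.minFac with hp
      have hpp : p.Prime := Nat.minFac_prime hn1
      obtain ⟨m, hm⟩ := Nat.minFac_dvd n
      rw [← hp] at hm
      have hm0 : 0 < m := by
        rcases Nat.eq_zero_or_pos m with h | h
        · rw [h] at hm; omega
        · exact h
      have hmn : m < n := by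
        rw [hm]
        nlinarith [hpp.two_le]
      have ihm := ih m hmn hm0
      have hlog : Nat.log 2 m + 1 ≤ Nat.log 2 n := by
        have h2 : Nat.log 2 (m * 2) = Nat.log 2 m + 1 := Nat.log_mul_base (by norm_num) (by omega)
        rw [← h2]
        apply Nat.log_mono_right
        rw [hm]
        nlinarith [hpp.two_le]
      have hsub : roughDiv z n ⊆ roughDiv z m ∪
          (if z < p then (roughDiv z m).image (fun ρ => p * ρ) else ∅) := by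
        intro ρ hρ
        simp only [roughDiv, mem_filter, Nat.mem_divisors] at hρ
        obtain ⟨⟨hρn, _⟩, hρr⟩ := hρ
        by_cases hpρ : p ∣ ρ
        · have hzp := hρr p hpp hpρ
          obtain ⟨ρ', rfl⟩ := hpρ
          rw [if_pos hzp]
          apply mem_union_right
          apply mem_image_of_mem
          simp only [roughDiv, mem_filter, Nat.mem_divisors]
          refine ⟨⟨?_, by omega⟩, fun q hq hqd => hρr q hq (hqd.mul_left p)⟩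
          rw [hm] at hρn
          exact Nat.dvd_of_mul_dvd_mul_left hpp.pos hρn
        · apply mem_union_left
          simp only [roughDiv, mem_filter, Nat.mem_divisors]
          refine ⟨⟨?_, by omega⟩, hρr⟩
          rw [hm] at hρn
          exact (Nat.Coprime.dvd_of_dvd_mul_left
            ((Nat.Prime.coprime_iff_not_dvd hpp).mpr hpρ).symm hρn)
      have hnonneg : ∀ ρ : ℕ, (0:ℝ) ≤ (ρ : ℝ) ^ (-σ) := fun ρ => Real.rpow_nonneg (by positivity) _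
      set F := ∑ ρ ∈ roughDiv z m, (ρ : ℝ) ^ (-σ) with hF
      have hF0 : 0 ≤ F := sum_nonneg (fun ρ _ => hnonneg ρ)
      have h3 : ∑ ρ ∈ roughDiv z n, (ρ : ℝ) ^ (-σ) ≤ F + (z : ℝ) ^ (-σ) * F := by
        refine (sum_le_sum_of_subset_of_nonneg hsub (fun ρ _ _ => hnonneg ρ)).trans ?_
        have h4 : ∑ ρ ∈ roughDiv z m ∪
          (if z < p then (roughDiv z m).image (fun ρ => p * ρ) else ∅), (ρ : ℝ) ^ (-σ) ≤
          F + ∑ ρ ∈ (if z < p then (roughDiv z m).image (fun ρ => p * ρ) else ∅), (ρ : ℝ) ^ (-σ) := by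
          rw [hF, ← sum_union_inter]
          have : 0 ≤ ∑ ρ ∈ roughDiv z m ∩
            (if z < p then (roughDiv z m).image (fun ρ => p * ρ) else ∅), (ρ : ℝ) ^ (-σ) :=
            sum_nonneg (fun ρ _ => hnonneg ρ)
          linarith
        refine h4.trans ?_
        split_ifs with hzp
        · rw [sum_image (by
            intro a _ b _ hab
            exact Nat.eq_of_mul_eq_mul_left hpp.pos hab)]
          have h5 : ∑ ρ ∈ roughDiv z m, ((p * ρ : ℕ) : ℝ) ^ (-σ)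
              ≤ (z : ℝ) ^ (-σ) * F := by
            rw [hF, mul_sum]
            apply sum_le_sum
            intro ρ _
            push_cast
            rw [Real.mul_rpow (by positivity) (by positivity)]
            apply mul_le_mul_of_nonneg_right _ (hnonneg ρ)
            apply Real.rpow_le_rpow_of_nonpos (by exact_mod_cast hz) _ (by linarith)
            exact_mod_cast hzp.le
          linarith
        · rw [sum_empty]
          have : 0 ≤ (z : ℝ) ^ (-σ) * F := mul_nonneg hz0.le hF0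
          linarith
      calc ∑ ρ ∈ roughDiv z n, (ρ : ℝ) ^ (-σ) ≤ (1 + (z : ℝ) ^ (-σ)) * F := by linarith
        _ ≤ (1 + (z : ℝ) ^ (-σ)) * (1 + (z : ℝ) ^ (-σ)) ^ (Nat.log 2 m) :=
            mul_le_mul_of_nonneg_left ihm (by linarith)
        _ = (1 + (z : ℝ) ^ (-σ)) ^ (Nat.log 2 m + 1) := by ring
        _ ≤ _ := pow_le_pow_right₀ (by linarith) hlog

/-- number of `w` in a dyadic block with `ρ ∣ k w - 1` -/
lemma count_w (k H ρ : ℕ) (hρ : 0 < ρ) (_hH : 0 < H) (hk : 0 < k) :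
    ((Ico H (2 * H)).filter (fun w => ρ ∣ k * w - 1)).card ≤ H / ρ + 1 := by
  apply card_le_of_modEq _ H H ρ hρ
  · intro w hw
    have := mem_Ico.mp (mem_filter.mp hw).1
    omega
  · intro w hw w' hw'
    obtain ⟨hw1, hw2⟩ := mem_filter.mp hw
    obtain ⟨hw1', hw2'⟩ := mem_filter.mp hw'
    have h1 : 1 ≤ k * w := Nat.mul_pos hk (by have := mem_Ico.mp hw1; omega)
    have h1' : 1 ≤ k * w' := Nat.mul_pos hk (by have := mem_Ico.mp hw1'; omega)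
    have h2 : k * w ≡ 1 [MOD ρ] := ((Nat.modEq_iff_dvd' h1).mpr hw2).symm
    have h2' : k * w' ≡ 1 [MOD ρ] := ((Nat.modEq_iff_dvd' h1').mpr hw2').symm
    have hcop : Nat.Coprime ρ k := by
      have h3 : Nat.gcd ρ k ∣ 1 := by
        have h4 : Nat.gcd ρ k ∣ k * w := (Nat.gcd_dvd_right ρ k).mul_right w
        have h5 : Nat.gcd ρ k ∣ k * w - 1 := (Nat.gcd_dvd_left ρ k).trans hw2
        have := Nat.dvd_sub h4 h5
        rwa [Nat.sub_sub_self h1] at this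
      exact Nat.dvd_one.mp h3
    exact Nat.ModEq.cancel_left_of_coprime hcop (h2.trans h2'.symm)

lemma nu_pow' (ν : ℕ) (hν : 11 ≤ ν) : 160 * ν ≤ 2 ^ ν := by
  induction ν, hν using Nat.le_induction with
  | base => norm_num
  | succ n hn ih =>
    rw [pow_succ]
    omega

/-- the numerical estimate behind the first moment argument -/
lemma rough_arith (ν : ℕ) (hν : 11 ≤ ν) (n : ℕ) (_hn : 0 < n) (hn2 : n ≤ 2 ^ (14 * 2 ^ (20 * ν)))
    (y : ℝ) (hy : (2 : ℝ) ^ ((20 * ν + 1) * 2 ^ (5 * ν)) ≤ y) :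
    y ^ (-(1/6) : ℝ) * (1 + ((2 * 2 ^ (20 * ν) : ℕ) : ℝ) ^ (-(4/5) : ℝ)) ^ (Nat.log 2 n) ≤ 1 / 4 := by
  set L := 2 ^ (20 * ν) with hL
  have hlog : Nat.log 2 n ≤ 14 * L := by
    calc Nat.log 2 n ≤ Nat.log 2 (2 ^ (14 * L)) := Nat.log_mono_right hn2
      _ = 14 * L := Nat.log_pow (by norm_num) _
  have h1 : ((2 * L : ℕ) : ℝ) ^ (-(4/5) : ℝ) ≤ ((2:ℝ) ^ (16 * ν))⁻¹ := by
    have h2 : (2:ℝ) ^ (16 * ν) ≤ ((2 * L : ℕ) : ℝ) ^ ((4:ℝ)/5) := by
      have h3 : ((2:ℝ) ^ (20 * ν)) ^ ((4:ℝ)/5) = 2 ^ (16 * ν) := by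
        rw [← Real.rpow_natCast, ← Real.rpow_mul (by norm_num), ← Real.rpow_natCast]
        congr 1
        push_cast
        ring
      rw [← h3]
      apply Real.rpow_le_rpow (by positivity) _ (by norm_num)
      rw [hL]
      push_cast
      nlinarith [show (0:ℝ) < 2 ^ (20 * ν) by positivity]
    rw [Real.rpow_neg (by positivity)]
    exact inv_anti₀ (by positivity) h2
  have h16 : (0:ℝ) < 2 ^ (16 * ν) := by positivity
  have h2 : (1 + ((2 * L : ℕ) : ℝ) ^ (-(4/5) : ℝ)) ^ (Nat.log 2 n) ≤ 2 ^ (28 * 2 ^ (4 * ν)) := by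
    have hpos : (0:ℝ) < ((2 * L : ℕ) : ℝ) ^ (-(4/5) : ℝ) :=
      Real.rpow_pos_of_pos (by rw [hL]; positivity) _
    calc (1 + ((2 * L : ℕ) : ℝ) ^ (-(4/5) : ℝ)) ^ (Nat.log 2 n)
        ≤ (1 + ((2 * L : ℕ) : ℝ) ^ (-(4/5) : ℝ)) ^ (14 * L) :=
          pow_le_pow_right₀ (by linarith) hlog
      _ ≤ (Real.exp (((2 * L : ℕ) : ℝ) ^ (-(4/5) : ℝ))) ^ (14 * L) := by
          apply pow_le_pow_left₀ (by linarith)
          have := Real.add_one_le_exp (((2 * L : ℕ) : ℝ) ^ (-(4/5) : ℝ))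
          linarith
      _ = Real.exp ((14 * L : ℕ) * ((2 * L : ℕ) : ℝ) ^ (-(4/5) : ℝ)) := by
          rw [← Real.exp_nat_mul]
      _ ≤ Real.exp ((14 * 2 ^ (4 * ν) : ℕ) * 1) := by
          apply Real.exp_le_exp.mpr
          have h3 : ((14 * L : ℕ) : ℝ) * ((2 * L : ℕ) : ℝ) ^ (-(4/5) : ℝ)
              ≤ ((14 * L : ℕ) : ℝ) * ((2:ℝ) ^ (16 * ν))⁻¹ :=
            mul_le_mul_of_nonneg_left h1 (by positivity)
          refine h3.trans (le_of_eq ?_)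
          rw [hL]
          push_cast
          rw [show 20 * ν = 4 * ν + 16 * ν by ring, pow_add]
          field_simp
      _ = (Real.exp 1) ^ (14 * 2 ^ (4 * ν)) := by rw [← Real.exp_nat_mul]
      _ ≤ (4:ℝ) ^ (14 * 2 ^ (4 * ν)) := by
          apply pow_le_pow_left₀ (Real.exp_pos _).le
          have := Real.exp_one_lt_d9
          linarith
      _ = 2 ^ (28 * 2 ^ (4 * ν)) := by
          rw [show (4:ℝ) = 2 ^ 2 by norm_num, ← pow_mul]
          congr 1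
          ring
  have h3 : y ^ (-(1/6) : ℝ) ≤ ((2:ℝ) ^ (3 * ν * 2 ^ (5 * ν)))⁻¹ := by
    have hy0 : 0 < y := lt_of_lt_of_le (by positivity) hy
    rw [Real.rpow_neg hy0.le]
    apply inv_anti₀ (by positivity)
    have h4 : ((2:ℝ) ^ (3 * ν * 2 ^ (5 * ν))) ≤ ((2 : ℝ) ^ ((20 * ν + 1) * 2 ^ (5 * ν))) ^ ((1:ℝ)/6) := by
      rw [← Real.rpow_natCast (2:ℝ) ((20 * ν + 1) * 2 ^ (5 * ν)), ← Real.rpow_mul (by norm_num),
        ← Real.rpow_natCast]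
      apply Real.rpow_le_rpow_of_exponent_le (by norm_num)
      push_cast
      have : (0:ℝ) < 2 ^ (5 * ν) := by positivity
      have hν' : (0:ℝ) ≤ ν := by positivity
      nlinarith [mul_nonneg hν' this.le]
    exact h4.trans (Real.rpow_le_rpow (by positivity) hy (by norm_num))
  have h5 : 28 * 2 ^ (4 * ν) + 2 ≤ 3 * ν * 2 ^ (5 * ν) := by
    have h6 := nu_pow' ν hν
    have h7 : 2 ^ (5 * ν) = 2 ^ (4 * ν) * 2 ^ ν := by rw [← pow_add]; congr 1; ring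
    rw [h7]
    have h8 : 1 ≤ 2 ^ (4 * ν) := Nat.one_le_two_pow
    have h9 : 30 * 2 ^ (4 * ν) ≤ 3 * ν * (2 ^ (4 * ν) * 2 ^ ν) := by
      calc 30 * 2 ^ (4 * ν) ≤ (3 * ν * 2 ^ ν) * 2 ^ (4 * ν) := by
            apply Nat.mul_le_mul_right
            nlinarith
        _ = _ := by ring
    omega
  calc y ^ (-(1/6) : ℝ) * (1 + ((2 * L : ℕ) : ℝ) ^ (-(4/5) : ℝ)) ^ (Nat.log 2 n)
      ≤ ((2:ℝ) ^ (3 * ν * 2 ^ (5 * ν)))⁻¹ * 2 ^ (28 * 2 ^ (4 * ν)) := by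
        apply mul_le_mul h3 h2 _ (by positivity)
        have hpos : (0:ℝ) < ((2 * L : ℕ) : ℝ) ^ (-(4/5) : ℝ) :=
          Real.rpow_pos_of_pos (by rw [hL]; positivity) _
        positivity
    _ ≤ 1 / 4 := by
        rw [inv_mul_le_iff₀ (by positivity)]
        have h6 : (2:ℝ) ^ (28 * 2 ^ (4 * ν) + 2) ≤ 2 ^ (3 * ν * 2 ^ (5 * ν)) :=
          pow_le_pow_right₀ (by norm_num) h5
        rw [pow_add] at h6
        linarith

lemma rough_of_dvd {ν k w ρ : ℕ} (hkW : primorial (2 * 2 ^ (20 * ν)) ∣ k) (hkw : 1 ≤ k * w)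
    (h : ρ ∣ k * w - 1) (p : ℕ) (hp : p.Prime) (hpρ : p ∣ ρ) : 2 * 2 ^ (20 * ν) < p := by
  by_contra hcon
  push Not at hcon
  have h1 : p ∣ primorial (2 * 2 ^ (20 * ν)) := by
    rw [primorial_eq_prod_primesLE]
    apply dvd_prod_of_mem
    rw [Nat.mem_primesLE]
    exact ⟨hcon, hp⟩
  have h2 : p ∣ k * w := (h1.trans hkW).mul_right w
  have h3 : p ∣ k * w - 1 := hpρ.trans h
  have h4 := Nat.dvd_sub h2 h3
  rw [Nat.sub_sub_self hkw] at h4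
  exact hp.one_lt.ne' (Nat.dvd_one.mp h4)

lemma pair_bound (ν : ℕ) (hν : 11 ≤ ν) (k : ℕ) (hk : 0 < k)
    (hkW : primorial (2 * 2 ^ (20 * ν)) ∣ k) (Δ : ℕ) (hΔ : 0 < Δ)
    (hΔle : Δ ≤ 2 ^ (14 * 2 ^ (20 * ν))) :
    ∑ ρ ∈ Icc 1 (2 ^ (40 * 2 ^ (20 * ν))),
      ∑ w ∈ Ico (2 ^ (17 * 2 ^ (20 * ν))) (2 * 2 ^ (17 * 2 ^ (20 * ν))),
      (if ρ ∣ k * w - 1 ∧ (2 * 2 ^ (20 * ν)) ^ (2 ^ (5 * ν)) < ρ ∧ ρ ∣ Δ then
        (ρ : ℝ) ^ ((1:ℝ)/30) else 0)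
      ≤ ((2 ^ (17 * 2 ^ (20 * ν)) : ℕ) : ℝ) / 2 := by
  classical
  set L := 2 ^ (20 * ν) with hL
  set H := 2 ^ (17 * L) with hH
  set R := 2 ^ (40 * L) with hR
  set y1 := (2 * L) ^ (2 ^ (5 * ν)) with hy1
  have hH0 : 0 < H := by positivity
  have hL0 : 0 < L := by positivity
  have hstep : ∀ ρ ∈ Icc 1 R, ∑ w ∈ Ico H (2 * H), (if ρ ∣ k * w - 1 ∧ y1 < ρ ∧ ρ ∣ Δ then
        (ρ : ℝ) ^ ((1:ℝ)/30) else 0) ≤
      (if ρ ∈ roughDiv (2 * L) Δ ∧ y1 < ρ then (ρ : ℝ) ^ ((1:ℝ)/30) * ((H : ℝ) / ρ + 1) else 0) := by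
    intro ρ hρ
    have hρ1 : 1 ≤ ρ := (mem_Icc.mp hρ).1
    have hρ0 : (0:ℝ) < ρ := by exact_mod_cast hρ1
    have hc0 : (0:ℝ) ≤ (ρ : ℝ) ^ ((1:ℝ)/30) := Real.rpow_nonneg hρ0.le _
    by_cases hex : ∃ w ∈ Ico H (2 * H), ρ ∣ k * w - 1 ∧ y1 < ρ ∧ ρ ∣ Δ
    · obtain ⟨w, hw, h1, h2, h3⟩ := hex
      have hkw : 1 ≤ k * w := Nat.mul_pos hk (by have := mem_Ico.mp hw; omega)
      have hrough : ρ ∈ roughDiv (2 * L) Δ := by
        simp only [roughDiv, mem_filter, Nat.mem_divisors]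
        exact ⟨⟨h3, hΔ.ne'⟩, fun p hp hpρ => rough_of_dvd hkW hkw h1 p hp hpρ⟩
      rw [if_pos ⟨hrough, h2⟩, ← sum_filter, sum_const, nsmul_eq_mul, mul_comm]
      apply mul_le_mul_of_nonneg_left _ hc0
      have h4 : ((Ico H (2 * H)).filter (fun w => ρ ∣ k * w - 1 ∧ y1 < ρ ∧ ρ ∣ Δ)).card
          ≤ H / ρ + 1 := by
        refine le_trans (card_le_card ?_) (count_w k H ρ (by omega) hH0 hk)
        intro w hw
        rw [mem_filter] at hw ⊢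
        exact ⟨hw.1, hw.2.1⟩
      have h5 : ((H / ρ : ℕ) : ℝ) ≤ (H : ℝ) / ρ := Nat.cast_div_le
      calc (((Ico H (2 * H)).filter (fun w => ρ ∣ k * w - 1 ∧ y1 < ρ ∧ ρ ∣ Δ)).card : ℝ)
          ≤ ((H / ρ + 1 : ℕ) : ℝ) := by exact_mod_cast h4
        _ = ((H / ρ : ℕ) : ℝ) + 1 := by push_cast; ring
        _ ≤ _ := by linarith
    · push Not at hex
      have h1 : ∑ w ∈ Ico H (2 * H), (if ρ ∣ k * w - 1 ∧ y1 < ρ ∧ ρ ∣ Δ then
        (ρ : ℝ) ^ ((1:ℝ)/30) else 0) = 0 := by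
        apply sum_eq_zero
        intro w hw
        rw [if_neg]
        rintro ⟨ha, hb, hc⟩
        exact hex w hw ha hb hc
      rw [h1]
      split_ifs
      · positivity
      · exact le_rfl
  refine (sum_le_sum hstep).trans ?_
  rw [← sum_filter]
  set F := (Icc 1 R).filter (fun ρ => ρ ∈ roughDiv (2 * L) Δ ∧ y1 < ρ) with hF
  have hF1 : ∀ ρ ∈ F, 1 ≤ ρ ∧ ρ ≤ R ∧ ρ ∈ roughDiv (2 * L) Δ ∧ y1 < ρ := by
    intro ρ hρ
    rw [hF, mem_filter, mem_Icc] at hρ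
    exact ⟨hρ.1.1, hρ.1.2, hρ.2.1, hρ.2.2⟩
  have hy10 : 0 < y1 := by positivity
  have hy10' : (0:ℝ) < y1 := by exact_mod_cast hy10
  have hterm : ∀ ρ ∈ F, (ρ : ℝ) ^ ((1:ℝ)/30) * ((H : ℝ) / ρ + 1)
      ≤ (H : ℝ) * ((y1 : ℝ) ^ (-(1/6) : ℝ) * (ρ : ℝ) ^ (-(4/5) : ℝ)) + 2 ^ (2 * L) := by
    intro ρ hρ
    obtain ⟨h1, h2, h3, h4⟩ := hF1 ρ hρ
    have hρ0 : (0:ℝ) < ρ := by exact_mod_cast h1
    rw [mul_add, mul_one]
    apply add_le_add
    · have h5 : (ρ : ℝ) ^ ((1:ℝ)/30) * ((H : ℝ) / ρ)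
          = H * ((ρ : ℝ) ^ (-(1/6) : ℝ) * (ρ : ℝ) ^ (-(4/5) : ℝ)) := by
        rw [← Real.rpow_add hρ0]
        have h6 : (ρ : ℝ) ^ ((1:ℝ)/30) * ((H : ℝ) / ρ)
            = H * ((ρ : ℝ) ^ ((1:ℝ)/30) * (ρ : ℝ) ^ (-1 : ℝ)) := by
          rw [Real.rpow_neg_one]
          field_simp
        rw [h6, ← Real.rpow_add hρ0]
        norm_num
      rw [h5]
      apply mul_le_mul_of_nonneg_left _ (by positivity)
      apply mul_le_mul_of_nonneg_right _ (Real.rpow_nonneg hρ0.le _)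
      apply Real.rpow_le_rpow_of_nonpos hy10' _ (by norm_num)
      exact_mod_cast h4.le
    · calc (ρ : ℝ) ^ ((1:ℝ)/30) ≤ ((2:ℝ) ^ (40 * L)) ^ ((1:ℝ)/30) := by
            apply Real.rpow_le_rpow hρ0.le _ (by norm_num)
            exact_mod_cast h2
        _ ≤ 2 ^ (2 * L) := by
            rw [← Real.rpow_natCast, ← Real.rpow_mul (by norm_num), ← Real.rpow_natCast]
            apply Real.rpow_le_rpow_of_exponent_le (by norm_num)
            push_cast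
            have : (0:ℝ) ≤ (L : ℝ) := by positivity
            nlinarith
  refine (sum_le_sum hterm).trans ?_
  rw [sum_add_distrib, ← mul_sum, ← mul_sum, sum_const, nsmul_eq_mul]
  have hy : (2 : ℝ) ^ ((20 * ν + 1) * 2 ^ (5 * ν)) ≤ y1 := by
    rw [hy1, hL]
    push_cast
    rw [← pow_succ', ← pow_mul]
  have h1 : (y1 : ℝ) ^ (-(1/6) : ℝ) * ∑ ρ ∈ F, (ρ : ℝ) ^ (-(4/5) : ℝ) ≤ 1 / 4 := by
    refine le_trans ?_ (rough_arith ν hν Δ hΔ hΔle y1 hy)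
    apply mul_le_mul_of_nonneg_left _ (Real.rpow_nonneg hy10'.le _)
    refine le_trans ?_ (rough_sum (2 * L) (by omega) (4/5) (by norm_num) Δ hΔ)
    apply sum_le_sum_of_subset_of_nonneg
    · intro ρ hρ
      exact (hF1 ρ hρ).2.2.1
    · intro ρ _ _
      exact Real.rpow_nonneg (by positivity) _
  have h2 : (F.card : ℝ) ≤ 2 ^ (14 * L) := by
    have h3 : F.card ≤ 2 ^ (14 * L) := by
      calc F.card ≤ Δ.divisors.card := card_le_card (fun ρ hρ => by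
            have := (hF1 ρ hρ).2.2.1
            simp only [roughDiv, mem_filter] at this
            exact this.1)
        _ ≤ Δ := Nat.card_divisors_le_self Δ
        _ ≤ _ := hΔle
    exact_mod_cast h3
  have h3 : (F.card : ℝ) * 2 ^ (2 * L) ≤ (H : ℝ) / 4 := by
    calc (F.card : ℝ) * 2 ^ (2 * L) ≤ 2 ^ (14 * L) * 2 ^ (2 * L) :=
          mul_le_mul_of_nonneg_right h2 (by positivity)
      _ = 2 ^ (16 * L) := by rw [← pow_add]; congr 1; ring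
      _ ≤ (H : ℝ) / 4 := by
          rw [le_div_iff₀ (by norm_num), hH]
          push_cast
          calc (2:ℝ) ^ (16 * L) * 4 = 2 ^ (16 * L + 2) := by rw [pow_add]; norm_num
            _ ≤ 2 ^ (17 * L) := by
                apply pow_le_pow_right₀ (by norm_num)
                have : 2 ≤ L := by
                  rw [hL]
                  calc 2 = 2 ^ 1 := by norm_num
                    _ ≤ 2 ^ (20 * ν) := Nat.pow_le_pow_right (by norm_num) (by omega)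
                omega
  have hH0' : (0:ℝ) < H := by exact_mod_cast hH0
  have h4 : (H : ℝ) * ((y1 : ℝ) ^ (-(1/6) : ℝ) * ∑ ρ ∈ F, (ρ : ℝ) ^ (-(4/5) : ℝ)) ≤ H * (1 / 4) :=
    mul_le_mul_of_nonneg_left h1 hH0'.le
  linarith

lemma exists_generic (ν : ℕ) (hν : 11 ≤ ν) (X : Finset ℕ) (hX : ∀ x ∈ X, x ≤ 2 ^ (14 * 2 ^ (20 * ν)))
    (hXne : X.Nonempty) (k : ℕ) (hk : 0 < k) (hkW : primorial (2 * 2 ^ (20 * ν)) ∣ k)
    (hkle : k * (2 * 2 ^ (17 * 2 ^ (20 * ν))) ≤ 2 ^ (40 * 2 ^ (20 * ν))) :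
    ∃ w ∈ Ico (2 ^ (17 * 2 ^ (20 * ν))) (2 * 2 ^ (17 * 2 ^ (20 * ν))), ∀ ρ, ρ ∣ k * w - 1 →
      (2 * 2 ^ (20 * ν)) ^ (2 ^ (5 * ν)) < ρ →
      (((X ×ˢ X).filter (fun p => p.1 ≠ p.2 ∧ p.1 % ρ = p.2 % ρ)).card : ℝ)
        ≤ (ρ : ℝ) ^ (-(1/30) : ℝ) * (X.card : ℝ) ^ 2 := by
  classical
  set L := 2 ^ (20 * ν) with hL
  set H := 2 ^ (17 * L) with hH
  set R := 2 ^ (40 * L) with hR
  set y1 := (2 * L) ^ (2 ^ (5 * ν)) with hy1
  have hH0 : 0 < H := by positivity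
  by_contra hcon
  push Not at hcon
  have hXc : (0:ℝ) < X.card := by exact_mod_cast card_pos.mpr hXne
  -- lower bound
  have hlow : ∀ w ∈ Ico H (2 * H), (X.card : ℝ) ^ 2 ≤ ∑ ρ ∈ Icc 1 R,
      ∑ p ∈ (X ×ˢ X).filter (fun p => p.1 ≠ p.2),
        (if ρ ∣ k * w - 1 ∧ y1 < ρ ∧ ρ ∣ ((p.1 : ℤ) - p.2).natAbs then
        (ρ : ℝ) ^ ((1:ℝ)/30) else 0) := by
    intro w hw
    obtain ⟨ρ, h1, h2, h3⟩ := hcon w hw
    have hw' := mem_Ico.mp hw
    have hkw : 1 ≤ k * w := Nat.mul_pos hk (by omega)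
    have hkw2 : 2 ≤ k * w := by
      have : 2 ≤ H := by
        rw [hH]
        calc 2 = 2 ^ 1 := by norm_num
          _ ≤ 2 ^ (17 * L) := Nat.pow_le_pow_right (by norm_num) (by
            have : 0 < L := by positivity
            omega)
      nlinarith
    have hρ0 : 0 < ρ := by omega
    have hρ0' : (0:ℝ) < ρ := by exact_mod_cast hρ0
    have hρR : ρ ∈ Icc 1 R := by
      rw [mem_Icc]
      refine ⟨hρ0, ?_⟩
      have h4 : ρ ≤ k * w - 1 := Nat.le_of_dvd (by omega) h1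
      have h5 : k * w ≤ k * (2 * H) := Nat.mul_le_mul_left _ (by omega)
      omega
    have hnn : ∀ ρ ∈ Icc 1 R, 0 ≤ ∑ p ∈ (X ×ˢ X).filter (fun p => p.1 ≠ p.2),
        (if ρ ∣ k * w - 1 ∧ y1 < ρ ∧ ρ ∣ ((p.1 : ℤ) - p.2).natAbs then
        (ρ : ℝ) ^ ((1:ℝ)/30) else 0) := by
      intro ρ _
      apply sum_nonneg
      intro p _
      split_ifs
      · exact Real.rpow_nonneg (by positivity) _
      · exact le_rfl
    refine le_trans ?_ (single_le_sum hnn hρR)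
    rw [← sum_filter, sum_const, nsmul_eq_mul]
    have h6 : ((X ×ˢ X).filter (fun p => p.1 ≠ p.2 ∧ p.1 % ρ = p.2 % ρ)).card
        ≤ (((X ×ˢ X).filter (fun p => p.1 ≠ p.2)).filter
          (fun p => ρ ∣ k * w - 1 ∧ y1 < ρ ∧ ρ ∣ ((p.1 : ℤ) - p.2).natAbs)).card := by
      apply card_le_card
      intro p hp
      rw [mem_filter] at hp
      rw [mem_filter, mem_filter]
      refine ⟨⟨hp.1, hp.2.1⟩, h1, h2, ?_⟩
      rw [← Int.natCast_dvd_natCast, Int.dvd_natAbs]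
      have h7 : p.2 ≡ p.1 [MOD ρ] := hp.2.2.symm
      exact (Nat.modEq_iff_dvd.mp h7)
    have h8 : (ρ : ℝ) ^ ((1:ℝ)/30) * (ρ : ℝ) ^ (-(1/30) : ℝ) = 1 := by
      rw [← Real.rpow_add hρ0']
      norm_num
    have hc0 : (0:ℝ) < (ρ : ℝ) ^ ((1:ℝ)/30) := Real.rpow_pos_of_pos hρ0' _
    calc (X.card : ℝ) ^ 2 = (ρ : ℝ) ^ ((1:ℝ)/30) * ((ρ : ℝ) ^ (-(1/30) : ℝ) * (X.card : ℝ) ^ 2) := by
          rw [← mul_assoc, h8, one_mul]
      _ ≤ (ρ : ℝ) ^ ((1:ℝ)/30) *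
          (((X ×ˢ X).filter (fun p => p.1 ≠ p.2 ∧ p.1 % ρ = p.2 % ρ)).card : ℝ) :=
          mul_le_mul_of_nonneg_left h3.le hc0.le
      _ ≤ (ρ : ℝ) ^ ((1:ℝ)/30) * ((((X ×ˢ X).filter (fun p => p.1 ≠ p.2)).filter
          (fun p => ρ ∣ k * w - 1 ∧ y1 < ρ ∧ ρ ∣ ((p.1 : ℤ) - p.2).natAbs)).card : ℝ) := by
          apply mul_le_mul_of_nonneg_left _ hc0.le
          exact_mod_cast h6
      _ = _ := mul_comm _ _
  have h1 : (H : ℝ) * (X.card : ℝ) ^ 2 ≤ ∑ w ∈ Ico H (2 * H), ∑ ρ ∈ Icc 1 R,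
      ∑ p ∈ (X ×ˢ X).filter (fun p => p.1 ≠ p.2),
        (if ρ ∣ k * w - 1 ∧ y1 < ρ ∧ ρ ∣ ((p.1 : ℤ) - p.2).natAbs then
        (ρ : ℝ) ^ ((1:ℝ)/30) else 0) := by
    have h2 := sum_le_sum hlow
    rw [sum_const, nsmul_eq_mul, Nat.card_Ico] at h2
    have : 2 * H - H = H := by omega
    rwa [this] at h2
  have h2 : ∑ w ∈ Ico H (2 * H), ∑ ρ ∈ Icc 1 R,
      ∑ p ∈ (X ×ˢ X).filter (fun p => p.1 ≠ p.2),
        (if ρ ∣ k * w - 1 ∧ y1 < ρ ∧ ρ ∣ ((p.1 : ℤ) - p.2).natAbs then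
        (ρ : ℝ) ^ ((1:ℝ)/30) else 0)
      = ∑ p ∈ (X ×ˢ X).filter (fun p => p.1 ≠ p.2), ∑ ρ ∈ Icc 1 R, ∑ w ∈ Ico H (2 * H),
        (if ρ ∣ k * w - 1 ∧ y1 < ρ ∧ ρ ∣ ((p.1 : ℤ) - p.2).natAbs then
        (ρ : ℝ) ^ ((1:ℝ)/30) else 0) := by
    rw [sum_comm]
    have : ∀ ρ ∈ Icc 1 R, ∑ w ∈ Ico H (2 * H),
      ∑ p ∈ (X ×ˢ X).filter (fun p => p.1 ≠ p.2),
        (if ρ ∣ k * w - 1 ∧ y1 < ρ ∧ ρ ∣ ((p.1 : ℤ) - p.2).natAbs then
        (ρ : ℝ) ^ ((1:ℝ)/30) else 0) = ∑ p ∈ (X ×ˢ X).filter (fun p => p.1 ≠ p.2),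
        ∑ w ∈ Ico H (2 * H), (if ρ ∣ k * w - 1 ∧ y1 < ρ ∧ ρ ∣ ((p.1 : ℤ) - p.2).natAbs then
        (ρ : ℝ) ^ ((1:ℝ)/30) else 0) := fun ρ _ => sum_comm
    rw [sum_congr rfl this, sum_comm]
  have h3 : ∑ p ∈ (X ×ˢ X).filter (fun p => p.1 ≠ p.2), ∑ ρ ∈ Icc 1 R, ∑ w ∈ Ico H (2 * H),
        (if ρ ∣ k * w - 1 ∧ y1 < ρ ∧ ρ ∣ ((p.1 : ℤ) - p.2).natAbs then
        (ρ : ℝ) ^ ((1:ℝ)/30) else 0)
      ≤ ∑ _p ∈ (X ×ˢ X).filter (fun p => p.1 ≠ p.2), (H : ℝ) / 2 := by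
    apply sum_le_sum
    intro p hp
    rw [mem_filter, mem_product] at hp
    apply pair_bound ν hν k hk hkW
    · rw [Int.natAbs_pos]
      intro h
      apply hp.2
      omega
    · have ha := hX _ hp.1.1
      have hb := hX _ hp.1.2
      change _ ≤ 2 ^ (14 * L)
      omega
  rw [sum_const, nsmul_eq_mul] at h3
  have h4 : (((X ×ˢ X).filter (fun p => p.1 ≠ p.2)).card : ℝ) ≤ (X.card : ℝ) ^ 2 := by
    have : ((X ×ˢ X).filter (fun p => p.1 ≠ p.2)).card ≤ X.card ^ 2 := by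
      refine (card_filter_le _ _).trans (le_of_eq ?_)
      rw [card_product]; ring
    exact_mod_cast this
  have hH0' : (0:ℝ) < H := by exact_mod_cast hH0
  have h5 : (((X ×ˢ X).filter (fun p => p.1 ≠ p.2)).card : ℝ) * ((H : ℝ) / 2)
      ≤ (X.card : ℝ) ^ 2 * ((H : ℝ) / 2) := mul_le_mul_of_nonneg_right h4 (by positivity)
  rw [h2] at h1
  have h6 := h1.trans (h3.trans h5)
  nlinarith [mul_pos hH0' (pow_pos hXc 2)]

end Vale.Agent.P012
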