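import Mathlib
import Vale.Agent.P012.ModHit
import Vale.Agent.P012.Rough
import Vale.Agent.P012.RealBatch

namespace Vale.Agent.P012
open Finset

/-- total number of collisions modulo `ρ` -/
lemma coll_le_of_classes (X : Finset ℕ) (ρ : ℕ) (κ : ℝ)
    (h : ∀ c, ((X.filter (fun x => x % ρ = c)).card : ℝ) ≤ κ * X.card) :
    (((X ×ˢ X).filter (fun p => p.1 % ρ = p.2 % ρ)).card : ℝ) ≤ κ * (X.card : ℝ) ^ 2 := by
  classical
  have h1 : ((X ×ˢ X).filter (fun p => p.1 % ρ = p.2 % ρ)).card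
      = ∑ y ∈ X, (X.filter (fun x => x % ρ = y % ρ)).card := by
    rw [card_filter, sum_product_right]
    apply sum_congr rfl
    intro y _
    rw [card_filter]
  rw [h1]
  push_cast
  calc ∑ y ∈ X, ((X.filter (fun x => x % ρ = y % ρ)).card : ℝ) ≤ ∑ _y ∈ X, κ * X.card :=
        sum_le_sum (fun y _ => h (y % ρ))
    _ = _ := by rw [sum_const, nsmul_eq_mul]; ring

lemma coll_le_of_generic (X : Finset ℕ) (ρ : ℕ) :
    (((X ×ˢ X).filter (fun p => p.1 % ρ = p.2 % ρ)).card : ℝ) ≤ X.card +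
      (((X ×ˢ X).filter (fun p => p.1 ≠ p.2 ∧ p.1 % ρ = p.2 % ρ)).card : ℝ) := by
  classical
  have h1 : ((X ×ˢ X).filter (fun p => p.1 % ρ = p.2 % ρ)) ⊆ X.diag ∪
      ((X ×ˢ X).filter (fun p => p.1 ≠ p.2 ∧ p.1 % ρ = p.2 % ρ)) := by
    intro p hp
    rw [mem_filter, mem_product] at hp
    rw [mem_union, mem_diag, mem_filter, mem_product]
    by_cases h : p.1 = p.2
    · left; exact ⟨hp.1.1, h⟩
    · right; exact ⟨hp.1, h, hp.2⟩
  have h2 := (card_le_card h1).trans (card_union_le _ _)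
  rw [diag_card] at h2
  exact_mod_cast h2

lemma Y_bound' (L k0 : ℕ) (hk : 539 * k0 + 12 ≤ L) (lam x : ℕ → ℕ)
    (hlam : ∀ i < 540, lam i ∈ mults (i * k0) (2 ^ (80 * L))) (hx : ∀ i < 540, x i ≤ 2 ^ (14 * L)) :
    ∑ i ∈ range 540, lam i * x i ≤ 2 ^ (95 * L) := by
  calc ∑ i ∈ range 540, lam i * x i
      ≤ ∑ _i ∈ range 540, 2 ^ (539 * k0 + 80 * L + 2) * 2 ^ (14 * L) := by
        apply sum_le_sum
        intro i hi
        have hi' := mem_range.mp hi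
        apply Nat.mul_le_mul _ (hx i hi')
        calc lam i ≤ 2 ^ (i * k0) * (4 * 2 ^ (80 * L)) := (mults_val (hlam i hi')).2.2.1
          _ ≤ 2 ^ (539 * k0) * (4 * 2 ^ (80 * L)) := by
              apply Nat.mul_le_mul_right
              exact Nat.pow_le_pow_right (by norm_num) (Nat.mul_le_mul_right _ (by omega))
          _ = _ := by rw [pow_add, pow_add]; ring
    _ = 540 * (2 ^ (539 * k0 + 80 * L + 2) * 2 ^ (14 * L)) := by
        rw [sum_const, card_range, smul_eq_mul]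
    _ ≤ 2 ^ 10 * (2 ^ (539 * k0 + 80 * L + 2) * 2 ^ (14 * L)) := by
        apply Nat.mul_le_mul_right
        norm_num
    _ = 2 ^ (10 + (539 * k0 + 80 * L + 2) + 14 * L) := by
        rw [pow_add 2 (10 + _), pow_add 2 10]
        ring
    _ ≤ _ := by
        apply Nat.pow_le_pow_right (by norm_num)
        omega

lemma good_of_dvd (ν : ℕ) (hν : 11 ≤ ν) (k0 MX : ℕ) (X : Finset ℕ) (hC : Core ν k0 X MX) (k w : ℕ)
    (hkW : primorial (2 * 2 ^ (20 * ν)) ∣ k) (hkw : 2 ≤ k * w)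
    (hkwle : k * w ≤ 2 ^ (40 * 2 ^ (20 * ν)))
    (hgen : ∀ ρ, ρ ∣ k * w - 1 → (2 * 2 ^ (20 * ν)) ^ (2 ^ (5 * ν)) < ρ →
      (((X ×ˢ X).filter (fun p => p.1 ≠ p.2 ∧ p.1 % ρ = p.2 % ρ)).card : ℝ)
        ≤ (ρ : ℝ) ^ (-(1/30) : ℝ) * (X.card : ℝ) ^ 2)
    (ρ : ℕ) (hρ : ρ ∣ k * w - 1) (hρ1 : ρ ≠ 1) : ρ ∈ goodMod (2 ^ (20 * ν)) X := by
  classical
  have hρ0 : 0 < ρ := Nat.pos_of_dvd_of_pos hρ (by omega)
  have hrough : ∀ p, p.Prime → p ∣ ρ → 2 * 2 ^ (20 * ν) < p := fun p hp hpρ =>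
    rough_of_dvd hkW (by omega) hρ p hp hpρ
  set L := 2 ^ (20 * ν) with hL
  have hXcard := hC.X_card
  rw [← hL] at hXcard
  have hXc : (0:ℝ) < X.card := by
    have : 0 < X.card := lt_of_lt_of_le (by positivity) hXcard
    exact_mod_cast this
  have hLpos : 1 ≤ L := Nat.one_le_two_pow
  have hρL : 2 * L < ρ := by
    have h1 := hrough _ (Nat.minFac_prime hρ1) (Nat.minFac_dvd ρ)
    have h2 := Nat.minFac_le hρ0
    omega
  have hodd : Odd ρ := by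
    rw [← Nat.not_even_iff_odd]
    intro he
    have := hrough 2 Nat.prime_two (even_iff_two_dvd.mp he)
    omega
  have hρle : ρ ≤ 2 ^ (40 * L) := by
    have := Nat.le_of_dvd (by omega) hρ
    omega
  have h120 : 2 ^ 120 ≤ ρ := by
    calc 2 ^ 120 ≤ 2 ^ (20 * ν) := Nat.pow_le_pow_right (by norm_num) (by omega)
      _ = L := hL.symm
      _ ≤ ρ := by omega
  have hρr : (0:ℝ) < ρ := by exact_mod_cast hρ0
  have hκ : (0:ℝ) < (ρ : ℝ) ^ (-(1/30) : ℝ) := Real.rpow_pos_of_pos hρr _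
  rw [goodMod, mem_filter, mem_Ioc]
  refine ⟨⟨hρL, hρle⟩, hodd, h120, ?_⟩
  by_cases hsm : ρ ≤ (2 * L) ^ (2 ^ (5 * ν))
  · have hcop : Nat.Coprime (primorial (2 * L)) ρ := by
      apply Nat.coprime_of_dvd
      intro p hp hp1 hp2
      have h1 := hrough p hp hp2
      have h2 : p ≤ 2 * L := by
        rw [primorial_eq_prod_primesLE] at hp1
        obtain ⟨q, hq, hpq⟩ := (Prime.dvd_finset_prod_iff hp.prime _).mp hp1
        rw [Nat.mem_primesLE] at hq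
        have := (Nat.prime_dvd_prime_iff_eq hp hq.2).mp hpq
        omega
      omega
    have h1 := hC.small ρ hcop hρL hsm
    have h2 := coll_le_of_classes X ρ _ h1
    refine h2.trans ?_
    have : 0 ≤ (ρ : ℝ) ^ (-(1/30) : ℝ) * (X.card : ℝ) ^ 2 := by positivity
    linarith
  · have h1 := hgen ρ hρ (not_le.mp hsm)
    have h2 := coll_le_of_generic X ρ
    have h3 : (X.card : ℝ) ≤ (ρ : ℝ) ^ (-(1/30) : ℝ) * (X.card : ℝ) ^ 2 := by
      have h4 : (ρ : ℝ) ^ ((1:ℝ)/30) ≤ X.card := by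
        calc (ρ : ℝ) ^ ((1:ℝ)/30) ≤ ((2:ℝ) ^ (40 * L)) ^ ((1:ℝ)/30) := by
              apply Real.rpow_le_rpow hρr.le _ (by norm_num)
              exact_mod_cast hρle
          _ ≤ 2 ^ (2 * L) := by
              rw [← Real.rpow_natCast, ← Real.rpow_mul (by norm_num), ← Real.rpow_natCast]
              apply Real.rpow_le_rpow_of_exponent_le (by norm_num)
              push_cast
              have : (0:ℝ) ≤ (L : ℝ) := by positivity
              nlinarith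
          _ ≤ X.card := by exact_mod_cast hXcard
      have h5 : (ρ : ℝ) ^ (-(1/30) : ℝ) * (ρ : ℝ) ^ ((1:ℝ)/30) = 1 := by
        rw [← Real.rpow_add hρr]
        norm_num
      calc (X.card : ℝ) = ((ρ : ℝ) ^ (-(1/30) : ℝ) * (ρ : ℝ) ^ ((1:ℝ)/30)) * X.card := by
            rw [h5, one_mul]
        _ = (ρ : ℝ) ^ (-(1/30) : ℝ) * ((ρ : ℝ) ^ ((1:ℝ)/30) * X.card) := by ring
        _ ≤ (ρ : ℝ) ^ (-(1/30) : ℝ) * ((X.card : ℝ) * X.card) := by
            apply mul_le_mul_of_nonneg_left _ hκ.le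
            exact mul_le_mul_of_nonneg_right h4 hXc.le
        _ = _ := by ring
    linarith

lemma mod_arith (L k0 r W0 w : ℕ) (hL : 100 ≤ L) (hr1 : 1 ≤ r) (hr2 : r < 2 ^ (18 * L + 1))
    (hW01 : 1 ≤ W0) (hW02 : W0 ≤ 2 ^ (4 * L)) (hw1 : 2 ^ (17 * L) ≤ w) (hw2 : w < 2 * 2 ^ (17 * L)) :
    r * W0 * (2 * 2 ^ (17 * L)) ≤ 2 ^ (40 * L) ∧ 2 ^ (16 * L) < r * W0 * w - 1 := by
  constructor
  · calc r * W0 * (2 * 2 ^ (17 * L)) ≤ 2 ^ (18 * L + 1) * 2 ^ (4 * L) * (2 * 2 ^ (17 * L)) :=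
          Nat.mul_le_mul_right _ (Nat.mul_le_mul hr2.le hW02)
      _ = 2 ^ ((18 * L + 1) + 4 * L + (17 * L + 1)) := by
          rw [pow_add 2 (18 * L + 1 + 4 * L), pow_add 2 (18 * L + 1), pow_succ 2 (17 * L)]
          ring
      _ ≤ _ := Nat.pow_le_pow_right (by norm_num) (by omega)
  · have h1 : 1 * 1 * 2 ^ (17 * L) ≤ r * W0 * w :=
      Nat.mul_le_mul (Nat.mul_le_mul hr1 hW01) hw1
    have h2 : 2 ^ (17 * L) = 2 ^ (16 * L) * 2 ^ L := by rw [← pow_add]; congr 1; ring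
    have h3 : 4 ≤ 2 ^ L := by
      calc 4 = 2 ^ 2 := by norm_num
        _ ≤ 2 ^ L := Nat.pow_le_pow_right (by norm_num) (by omega)
    have h4 : 2 ^ (16 * L) * 4 ≤ 2 ^ (16 * L) * 2 ^ L := Nat.mul_le_mul_left _ h3
    have h5 : 1 ≤ 2 ^ (16 * L) := Nat.one_le_two_pow
    omega

lemma mod_batch_aux (L k0 MX : ℕ) (hL : 100 ≤ L) (hk : 539 * k0 + 12 ≤ L) (X : Finset ℕ)
    (hX : X.Nonempty) (hXle : ∀ x ∈ X, x ≤ 2 ^ (14 * L)) (hslot : ∀ x ∈ X, SlotSum MX k0 1 x)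
    (lam : ℕ → ℕ) (hlam : ∀ i < 540, lam i ∈ mults (i * k0) (2 ^ (80 * L)))
    (hsel : ∀ ρ ∈ goodMod L X, ∀ θ < ρ, Nat.Coprime θ ρ →
      ∏ i ∈ range 540, ‖∑ x ∈ X, ee ((lam i : ℝ) * ((θ : ℝ) / ρ) * x)‖
        ≤ (X.card : ℝ) ^ 540 * ((ρ : ℝ) ^ 3)⁻¹)
    (hk0 : 0 < k0) (N : ℕ) (hN : 2 ^ (16 * L) < N) (hgood : ∀ ρ, ρ ∣ N → ρ ≠ 1 → ρ ∈ goodMod L X) :
    ∃ g : ℕ → ℕ, ∃ w' : ℕ, 0 < w' ∧ (∀ s < 540 * k0, g s ∣ MX * ∏ i ∈ range 540, lam i ∧
        padicValNat 2 (g s) = s ∧ w' < g s) ∧ N * w' = ∑ s ∈ range (540 * k0), g s := by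
  have hN1 : 1 < N := lt_of_le_of_lt Nat.one_le_two_pow hN
  have hlam0 : ∀ i < 540, lam i ≠ 0 := fun i hi => (mults_val (hlam i hi)).2.2.2
  obtain ⟨x, hx, hdvd⟩ := mod_hit L (by omega) X hX lam hlam0 hsel N hN1 hgood
  have hYle := Y_bound' L k0 hk lam x hlam (fun i hi => hXle _ (hx i hi))
  obtain ⟨g, hg, hgY⟩ := slot_many (M := MX) (k0 := k0) (lo := 2 * 2 ^ (80 * L)) 540 x lam
    (fun i hi => hslot _ (hx i hi))
    (fun i hi => ⟨(mults_val (hlam i hi)).1, (mults_val (hlam i hi)).2.1, hlam0 i hi⟩)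
  generalize ∑ i ∈ range 540, lam i * x i = Y at hYle hdvd hgY
  obtain ⟨w', hw'⟩ := hdvd
  have hYpos : 0 < Y := by
    rw [hgY]
    have h1 : 0 < 540 * k0 := by omega
    have h2 : g 0 ≤ ∑ s ∈ range (540 * k0), g s :=
      single_le_sum (f := g) (fun _ _ => Nat.zero_le _) (mem_range.mpr h1)
    have h3 := (hg 0 h1).2.1
    have h4 : 0 < 2 ^ (80 * L) := by positivity
    omega
  refine ⟨g, w', ?_, ?_, ?_⟩
  · apply Nat.pos_of_ne_zero
    rintro rfl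
    omega
  · intro s hs
    obtain ⟨ha, hb, hc⟩ := hg s hs
    refine ⟨ha, hc, lt_of_lt_of_le ?_ hb⟩
    by_contra hcon
    push Not at hcon
    have h1 : 2 ^ (16 * L) * (2 * 2 ^ (80 * L)) ≤ N * w' := Nat.mul_le_mul hN.le hcon
    have h2 : 2 ^ (16 * L) * (2 * 2 ^ (80 * L)) = 2 ^ (96 * L + 1) := by
      rw [← pow_succ', ← pow_add]
      congr 1
      ring
    have h3 : 2 ^ (95 * L) < 2 ^ (96 * L + 1) := Nat.pow_lt_pow_right (by norm_num) (by omega)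
    omega
  · rw [← hw', hgY]

theorem mod_batch (ν : ℕ) (hν : 11 ≤ ν) (k0 MX : ℕ) (X : Finset ℕ) (hC : Core ν k0 X MX) :
    ∃ MM : ℕ, 0 < MM ∧ MM ≤ 2 ^ (43753 * 2 ^ (20 * ν)) ∧ ∀ r : ℕ, 1 ≤ r →
      r < 2 ^ (18 * 2 ^ (20 * ν) + 1) →
      ∃ g : ℕ → ℕ, ∃ W w' : ℕ, 0 < W ∧ 0 < w' ∧ 1 < r * W ∧
        (∀ s < 540 * k0, g s ∣ MM ∧ padicValNat 2 (g s) = s ∧ w' < g s) ∧
        (r * W - 1) * w' = ∑ s ∈ range (540 * k0), g s := by
  have hbig := L_big ν hν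
  have hk0 := hC.k0_le
  have hk0' := hC.k0_ge
  have hXcard := hC.X_card
  have hXle := hC.X_le
  have hMX := hC.MX_le
  have hMX0 := hC.MX_pos
  have hslot := hC.slot
  have hXpos : 0 < X.card := lt_of_lt_of_le (by positivity) hXcard
  have hXne : X.Nonempty := card_pos.mp hXpos
  have hk539 : 539 * k0 + 12 ≤ 2 ^ (20 * ν) := by omega
  have hL100 : 100 ≤ 2 ^ (20 * ν) := by omega
  obtain ⟨lam, hlam, hsel⟩ := mod_sel (2 ^ (20 * ν)) k0 (by omega) X hXne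
  obtain ⟨_, hprodle⟩ := mults_prod_le (2 ^ (20 * ν)) k0 540 80 (539 * k0) (by omega) lam hlam
    (fun i hi => Nat.mul_le_mul_right _ (by omega))
  have hlam0 : ∀ i < 540, lam i ≠ 0 := fun i hi => (mults_val (hlam i hi)).2.2.2
  refine ⟨MX * ∏ i ∈ range 540, lam i, ?_, ?_, ?_⟩
  · apply Nat.mul_pos hMX0
    apply prod_pos
    intro i hi
    exact Nat.pos_of_ne_zero (hlam0 i (mem_range.mp hi))
  · generalize 2 ^ (20 * ν) = L at *
    calc MX * ∏ i ∈ range 540, lam i ≤ 2 ^ (13 * L) * (2 ^ ((80 + 1) * L)) ^ 540 :=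
          Nat.mul_le_mul hMX hprodle
      _ = 2 ^ (43753 * L) := by
          rw [← pow_mul, ← pow_add]
          congr 1
          ring
  · intro r hr1 hr2
    set W0 := primorial (2 * 2 ^ (20 * ν)) with hW0
    have hW01 : 1 ≤ W0 := primorial_pos _
    have hW02 : W0 ≤ 2 ^ (4 * 2 ^ (20 * ν)) := by
      calc W0 ≤ 4 ^ (2 * 2 ^ (20 * ν)) := primorial_le_four_pow _
        _ = 2 ^ (4 * 2 ^ (20 * ν)) := by
          rw [show (4:ℕ) = 2 ^ 2 by norm_num, ← pow_mul]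
          congr 1
          ring
    obtain ⟨w, hw, hgen⟩ := exists_generic ν hν X hXle hXne (r * W0) (Nat.mul_pos hr1 hW01)
      (Dvd.intro_left _ rfl) (by
        exact (mod_arith (2 ^ (20 * ν)) k0 r W0 (2 ^ (17 * 2 ^ (20 * ν))) hL100 hr1 hr2 hW01 hW02
          le_rfl (by have : 0 < 2 ^ (17 * 2 ^ (20 * ν)) := by positivity
                     omega)).1)
    obtain ⟨hw1, hw2⟩ := mem_Ico.mp hw
    obtain ⟨hA, hB⟩ := mod_arith (2 ^ (20 * ν)) k0 r W0 w hL100 hr1 hr2 hW01 hW02 hw1 hw2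
    have hkw : 2 ≤ r * W0 * w := by
      have : 1 ≤ 2 ^ (16 * 2 ^ (20 * ν)) := Nat.one_le_two_pow
      omega
    have hkwle : r * W0 * w ≤ 2 ^ (40 * 2 ^ (20 * ν)) :=
      (Nat.mul_le_mul_left _ hw2.le).trans hA
    obtain ⟨g, w', hw'0, hg, hsum⟩ := mod_batch_aux (2 ^ (20 * ν)) k0 MX hL100 hk539 X hXne hXle
      hslot lam hlam hsel (by omega) (r * W0 * w - 1) hB
      (good_of_dvd ν hν k0 MX X hC (r * W0) w (Dvd.intro_left _ rfl) hkw hkwle hgen)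
    refine ⟨g, W0 * w, w', ?_, hw'0, ?_, hg, ?_⟩
    · apply Nat.mul_pos hW01
      have : 0 < 2 ^ (17 * 2 ^ (20 * ν)) := by positivity
      omega
    · rw [← mul_assoc]; omega
    · rw [← mul_assoc]; exact hsum

end Vale.Agent.P012
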