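import Mathlib
import Vale.Agent.P012.Egy
import Vale.Agent.P012.ModBatch

namespace Vale.Agent.P012
open Finset

/-- Abstract iteration: real batches until the numerator is small, then the final batch. -/
lemma loop (L K1 K2 MR MM E B1 : ℕ)
    (hreal : ∀ r D0, 0 < D0 → 2 ^ (18 * L) * D0 ≤ r → r < 2 ^ (18 * L + 1) * D0 →
      ∃ (g : ℕ → ℕ) (w r' : ℕ), (∀ s < K1, g s ∣ MR ∧ padicValNat 2 (g s) = s ∧ r < D0 * g s) ∧
        r * w = D0 * (∑ s ∈ range K1, g s) + r' ∧ r' * 2 ^ L ≤ r ∧ 0 < w)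
    (hmod : ∀ r, 1 ≤ r → r < 2 ^ (18 * L + 1) → ∃ (g : ℕ → ℕ) (W w' : ℕ),
      0 < W ∧ 0 < w' ∧ 1 < r * W ∧ (∀ s < K2, g s ∣ MM ∧ padicValNat 2 (g s) = s ∧ w' < g s) ∧
        (r * W - 1) * w' = ∑ s ∈ range K2, g s)
    (hB1 : 0 < B1) (hMM : 0 < MM) (hE : B1 * MM ≤ 2 ^ E) :
    ∀ t r B, 2 ^ E * (B1 * MM) * MR ∣ B → 0 < B → r ≤ 2 ^ (18 * L) * (2 ^ E * (B1 * MM)) →
      r < 2 ^ (18 * L + 1 + t * L) → Egy ((r : ℚ) / B) (t * K1 + (K2 + 1)) := by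
  intro t
  induction t with
  | zero =>
    intro r B hdvd hB _ hr
    rcases Nat.eq_zero_or_pos r with h0 | h0
    · subst h0
      simpa using egy_zero _
    · obtain ⟨g, W, w', h1, h2, h3, h4, h5⟩ := hmod r h0 (by simpa using hr)
      have := mod_step K2 B r W w' MM g
        (Dvd.dvd.trans ⟨2 ^ E * B1 * MR, by ring⟩ hdvd) hB h1 h2 h3 h4 h5
      exact this.mono (by omega)
  | succ t ih =>
    intro r B hdvd hB hrQ hr
    rcases Nat.eq_zero_or_pos r with h0 | h0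
    · subst h0
      simpa using egy_zero _
    rcases lt_or_ge r (2 ^ (18 * L + 1)) with hsmall | hbig
    · obtain ⟨g, W, w', h1, h2, h3, h4, h5⟩ := hmod r h0 hsmall
      have := mod_step K2 B r W w' MM g
        (Dvd.dvd.trans ⟨2 ^ E * B1 * MR, by ring⟩ hdvd) hB h1 h2 h3 h4 h5
      exact this.mono (by nlinarith [Nat.zero_le (t * K1), Nat.zero_le K1])
    · have hPpos : 0 < 2 ^ (18 * L) := by positivity
      have hy1 : 1 ≤ r / 2 ^ (18 * L) := by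
        rw [Nat.one_le_div_iff hPpos]
        calc 2 ^ (18 * L) ≤ 2 ^ (18 * L + 1) := Nat.pow_le_pow_right (by norm_num) (by omega)
          _ ≤ r := hbig
      have hy2 : r / 2 ^ (18 * L) ≤ 2 ^ E * (B1 * MM) := by
        rw [Nat.div_le_iff_le_mul_add_pred hPpos]
        omega
      obtain ⟨D0, hD1, hD2, hD3, hD4⟩ := chain E (B1 * MM) (r / 2 ^ (18 * L))
        (Nat.mul_pos hB1 hMM) hE hy1 hy2
      have hr1 : 2 ^ (18 * L) * D0 ≤ r :=
        (Nat.mul_le_mul_left _ hD3).trans (Nat.mul_div_le r _)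
      have hr2 : r < 2 ^ (18 * L + 1) * D0 := by
        have h1 : r < 2 ^ (18 * L) * (2 * D0) := by
          have := (Nat.div_lt_iff_lt_mul hPpos).mp hD4
          rw [mul_comm] at this
          exact this
        calc r < 2 ^ (18 * L) * (2 * D0) := h1
          _ = 2 ^ (18 * L + 1) * D0 := by rw [pow_succ]; ring
      obtain ⟨g, w, r', hg, heq, hr', hw⟩ := hreal r D0 hD2 hr1 hr2
      have hr'le : r' ≤ r := by
        calc r' = r' * 1 := (mul_one _).symm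
          _ ≤ r' * 2 ^ L := Nat.mul_le_mul_left _ Nat.one_le_two_pow
          _ ≤ r := hr'
      have hr'lt : r' < 2 ^ (18 * L + 1 + t * L) := by
        have h1 : r' * 2 ^ L < 2 ^ (18 * L + 1 + t * L) * 2 ^ L := by
          calc r' * 2 ^ L ≤ r := hr'
            _ < 2 ^ (18 * L + 1 + (t + 1) * L) := hr
            _ = 2 ^ (18 * L + 1 + t * L) * 2 ^ L := by rw [← pow_add]; congr 1; ring
        exact lt_of_mul_lt_mul_right h1 (Nat.zero_le _)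
      have hIH := ih r' (B * w) (Dvd.dvd.mul_right hdvd w) (Nat.mul_pos hB hw)
        (hr'le.trans hrQ) hr'lt
      have := real_step K1 D0 B r w r' MR g _ ((Nat.mul_dvd_mul_right hD1 MR).trans hdvd) hB hw hD2
        hg heq hr'le hIH
      exact this.mono (by ring_nf; omega)

/-- The end game: `a1/B1` with `a1 MR ≤ 2^{18L} B1`. -/
lemma endgame (L K1 K2 MR MM E B1 a1 c : ℕ)
    (hreal : ∀ r D0, 0 < D0 → 2 ^ (18 * L) * D0 ≤ r → r < 2 ^ (18 * L + 1) * D0 →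
      ∃ (g : ℕ → ℕ) (w r' : ℕ), (∀ s < K1, g s ∣ MR ∧ padicValNat 2 (g s) = s ∧ r < D0 * g s) ∧
        r * w = D0 * (∑ s ∈ range K1, g s) + r' ∧ r' * 2 ^ L ≤ r ∧ 0 < w)
    (hmod : ∀ r, 1 ≤ r → r < 2 ^ (18 * L + 1) → ∃ (g : ℕ → ℕ) (W w' : ℕ),
      0 < W ∧ 0 < w' ∧ 1 < r * W ∧ (∀ s < K2, g s ∣ MM ∧ padicValNat 2 (g s) = s ∧ w' < g s) ∧
        (r * W - 1) * w' = ∑ s ∈ range K2, g s)
    (hB1 : 0 < B1) (hMM : 0 < MM) (hMR : 0 < MR) (hE : B1 * MM ≤ 2 ^ E)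
    (ha : a1 * MR ≤ 2 ^ (18 * L) * B1) (hc : 2 * E ≤ c * L) :
    Egy ((a1 : ℚ) / B1) (c * K1 + (K2 + 1)) := by
  have h1 : a1 * (2 ^ E * MR * MM) ≤ 2 ^ (18 * L) * (2 ^ E * (B1 * MM)) := by
    calc a1 * (2 ^ E * MR * MM) = (a1 * MR) * (2 ^ E * MM) := by ring
      _ ≤ (2 ^ (18 * L) * B1) * (2 ^ E * MM) := Nat.mul_le_mul_right _ ha
      _ = _ := by ring
  have h2 : a1 * (2 ^ E * MR * MM) < 2 ^ (18 * L + 1 + c * L) := by
    calc a1 * (2 ^ E * MR * MM) ≤ 2 ^ (18 * L) * (2 ^ E * (B1 * MM)) := h1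
      _ ≤ 2 ^ (18 * L) * (2 ^ E * 2 ^ E) := by gcongr
      _ = 2 ^ (18 * L + 2 * E) := by rw [← pow_add, ← pow_add]; congr 1; ring
      _ < 2 ^ (18 * L + 1 + c * L) := Nat.pow_lt_pow_right (by norm_num) (by omega)
  have h3 := loop L K1 K2 MR MM E B1 hreal hmod hB1 hMM hE c (a1 * (2 ^ E * MR * MM))
    (B1 * (2 ^ E * MR * MM)) ⟨1, by ring⟩ (by positivity) h1 h2
  have h4 : ((a1 * (2 ^ E * MR * MM) : ℕ) : ℚ) / ((B1 * (2 ^ E * MR * MM) : ℕ) : ℚ)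
      = (a1 : ℚ) / B1 := by
    rw [Nat.cast_mul a1, Nat.cast_mul B1]
    have : ((2 ^ E * MR * MM : ℕ) : ℚ) ≠ 0 := by
      have : 0 < 2 ^ E * MR * MM := by positivity
      exact_mod_cast this.ne'
    rw [mul_div_mul_right _ _ this]
  rw [h4] at h3
  exact h3

end Vale.Agent.P012
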