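import Mathlib

namespace Vale.Agent.P012
open Finset

/-- `(∑ 1/n) ∏ n` is an integer. -/
lemma sum_mul_prod_int (A : Finset ℕ) (h0 : 0 ∉ A) :
    ∃ z : ℤ, (∑ n ∈ A, (1 : ℚ) / n) * ((∏ n ∈ A, n : ℕ) : ℚ) = z := by
  classical
  induction A using Finset.induction_on with
  | empty => exact ⟨0, by simp⟩
  | insert a s ha ih =>
    obtain ⟨z, hz⟩ := ih (fun h => h0 (mem_insert_of_mem h))
    have ha0 : (a : ℚ) ≠ 0 := by
      intro h
      apply h0
      have : a = 0 := by exact_mod_cast h
      rw [this]; exact mem_insert_self _ _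
    refine ⟨(∏ n ∈ s, n : ℕ) + z * a, ?_⟩
    rw [sum_insert ha, prod_insert ha]
    push_cast at hz ⊢
    rw [← hz]
    field_simp

lemma prod_lower (A : Finset ℕ) (h0 : 0 ∉ A) (h : ∑ n ∈ A, (1 : ℚ) / n < 1) :
    1 ≤ (1 - ∑ n ∈ A, (1 : ℚ) / n) * ((∏ n ∈ A, n : ℕ) : ℚ) := by
  obtain ⟨z, hz⟩ := sum_mul_prod_int A h0
  have hP : (0 : ℚ) < ((∏ n ∈ A, n : ℕ) : ℚ) := by
    have : 0 < ∏ n ∈ A, n := by
      apply prod_pos
      intro i hi
      rcases Nat.eq_zero_or_pos i with h | h
      · subst h; exact absurd hi h0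
      · exact h
    exact_mod_cast this
  have h1 : (1 - ∑ n ∈ A, (1 : ℚ) / n) * ((∏ n ∈ A, n : ℕ) : ℚ)
      = (((∏ n ∈ A, n : ℕ) : ℤ) - z : ℤ) := by
    rw [sub_mul, hz, one_mul]; push_cast; ring
  have h2 : (0 : ℚ) < (((∏ n ∈ A, n : ℕ) : ℤ) - z : ℤ) := by
    rw [← h1]
    exact mul_pos (by linarith) hP
  rw [h1]
  have h3 : (0 : ℤ) < ((∏ n ∈ A, n : ℕ) : ℤ) - z := by exact_mod_cast h2
  exact_mod_cast h3

lemma lower_aux (b K : ℕ) (hb : 0 < b) (hK : 1 ≤ K) :
    ∀ m (A R : Finset ℕ) (Y : ℕ), Disjoint A R → 0 ∉ A → 0 ∉ R → R.card = m → m ≤ K →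
      ∑ n ∈ A, (1 : ℚ) / n + ∑ n ∈ R, (1 : ℚ) / n = 1 - 1 / b →
      2 * K * ∏ n ∈ A, n ≤ Y → b ≤ Y ^ (2 ^ m) := by
  intro m
  have hbq : (0 : ℚ) < b := by exact_mod_cast hb
  induction m with
  | zero =>
    intro A R Y _ hA _ hR _ hsum hY
    rw [card_eq_zero] at hR
    subst hR
    rw [sum_empty, add_zero] at hsum
    have h1 := prod_lower A hA (by rw [hsum]; have : (0 : ℚ) < 1 / b := by positivity
                                   linarith)
    rw [hsum] at h1
    have h2 : (b : ℚ) ≤ ((∏ n ∈ A, n : ℕ) : ℚ) := by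
      have e : (1 - (1 - 1 / (b : ℚ))) * ((∏ n ∈ A, n : ℕ) : ℚ)
        = ((∏ n ∈ A, n : ℕ) : ℚ) / b := by ring
      rw [e, le_div_iff₀ hbq] at h1
      linarith
    have h3 : b ≤ ∏ n ∈ A, n := by exact_mod_cast h2
    rw [pow_zero, pow_one]
    calc b ≤ ∏ n ∈ A, n := h3
      _ ≤ 2 * K * ∏ n ∈ A, n := Nat.le_mul_of_pos_left _ (by omega)
      _ ≤ Y := hY
  | succ m ih =>
    intro A R Y hdis hA hR hcard hmK hsum hY
    have hRne : R.Nonempty := by rw [← card_pos]; omega
    have hRpos : 0 < ∑ n ∈ R, (1 : ℚ) / n := by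
      apply sum_pos _ hRne
      intro i hi
      have : 0 < i := by
        rcases Nat.eq_zero_or_pos i with h | h
        · subst h; exact absurd hi hR
        · exact h
      have : (0 : ℚ) < i := by exact_mod_cast this
      positivity
    have hb1 : (0 : ℚ) < 1 / b := by positivity
    have hAlt : ∑ n ∈ A, (1 : ℚ) / n < 1 := by linarith
    have hlow := prod_lower A hA hAlt
    set P := ∏ n ∈ A, n with hP
    have hPpos : 0 < P := by
      rcases Nat.eq_zero_or_pos P with h | h
      · rw [h] at hlow; norm_num at hlow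
      · exact h
    have hPq : (0 : ℚ) < P := by exact_mod_cast hPpos
    have hYpos : 1 ≤ Y := by
      have : 0 < 2 * K * P := by positivity
      omega
    set ε : ℚ := 1 - ∑ n ∈ A, (1 : ℚ) / n with hε
    rcases lt_or_ge (ε * b) 2 with hc | hc
    · -- 1 ≤ ε P, ε b < 2
      have h1 : (b : ℚ) < 2 * P := by
        have h2 : (b : ℚ) ≤ ε * P * b := by nlinarith
        nlinarith
      have h2 : b ≤ 2 * P := by
        have : b < 2 * P := by exact_mod_cast h1
        exact this.le
      calc b ≤ 2 * P := h2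
        _ ≤ 2 * K * P := by nlinarith
        _ ≤ Y := hY
        _ ≤ Y ^ (2 ^ (m + 1)) := Nat.le_self_pow (by positivity) Y
    · set n := R.min' hRne with hn
      have hnR : n ∈ R := min'_mem R hRne
      have hnpos : 0 < n := by
        rcases Nat.eq_zero_or_pos n with h | h
        · rw [h] at hnR; exact absurd hnR hR
        · exact h
      have hnq : (0 : ℚ) < n := by exact_mod_cast hnpos
      have hnA : n ∉ A := fun h => (disjoint_left.mp hdis) h hnR
      have h1 : ∑ i ∈ R, (1 : ℚ) / i ≤ K / n := by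
        calc ∑ i ∈ R, (1 : ℚ) / i ≤ ∑ _i ∈ R, (1 : ℚ) / n := by
              apply sum_le_sum
              intro i hi
              apply one_div_le_one_div_of_le hnq
              exact_mod_cast min'_le R i hi
          _ = (R.card : ℚ) * (1 / n) := by rw [sum_const, nsmul_eq_mul]
          _ ≤ (K : ℚ) * (1 / n) := by
              apply mul_le_mul_of_nonneg_right _ (by positivity)
              exact_mod_cast (by omega : R.card ≤ K)
          _ = K / n := by ring
      have h2 : ε - 1 / b ≤ K / n := by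
        have : ε - 1 / b = ∑ i ∈ R, (1 : ℚ) / i := by rw [hε]; linarith
        rw [this]; exact h1
      have h3 : 1 / (b : ℚ) ≤ ε / 2 := by
        rw [div_le_div_iff₀ hbq (by norm_num)]; linarith
      have h4 : ε / 2 ≤ K / n := by linarith
      have h5 : (n : ℚ) ≤ 2 * K * P := by
        rw [div_le_div_iff₀ (by norm_num) hnq] at h4
        have hεpos : 0 < ε := by
          by_contra hcon
          push Not at hcon
          nlinarith
        have : (n : ℚ) * 1 ≤ n * (ε * P) := mul_le_mul_of_nonneg_left hlow hnq.le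
        nlinarith
      have h6 : n ≤ 2 * K * P := by exact_mod_cast h5
      have := ih (insert n A) (R.erase n) (Y ^ 2) (by
          rw [disjoint_left]
          intro i hi hi2
          rw [mem_insert] at hi
          rw [mem_erase] at hi2
          rcases hi with rfl | hi
          · exact hi2.1 rfl
          · exact (disjoint_left.mp hdis) hi hi2.2)
        (by rw [mem_insert]; push Not; exact ⟨hnpos.ne, hA⟩)
        (fun h => hR (mem_of_mem_erase h))
        (by rw [card_erase_of_mem hnR]; omega) (by omega)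
        (by
          rw [sum_insert hnA, ← hsum, ← add_sum_erase R (fun i : ℕ => (1 : ℚ) / i) hnR]
          ring)
        (by
          rw [prod_insert hnA, ← hP]
          calc 2 * K * (n * P) = n * (2 * K * P) := by ring
            _ ≤ Y * Y := Nat.mul_le_mul (h6.trans hY) hY
            _ = Y ^ 2 := by ring)
      calc b ≤ (Y ^ 2) ^ (2 ^ m) := this
        _ = Y ^ (2 ^ (m + 1)) := by rw [← pow_mul, ← pow_succ']

/-- An expansion of `(b-1)/b` of length `k` forces `b ≤ (2k)^{2^k}`. -/
lemma lower (b k : ℕ) (hb : 2 ≤ b) (S : Finset ℕ) (h0 : 0 ∉ S) (hk : S.card = k)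
    (hsum : ∑ n ∈ S, (1 : ℚ) / n = ((b - 1 : ℕ) : ℚ) / b) : 1 ≤ k ∧ b ≤ (2 * k) ^ (2 ^ k) := by
  have hk1 : 1 ≤ k := by
    rcases Nat.eq_zero_or_pos k with h | h
    · rw [h, card_eq_zero] at hk
      subst hk
      rw [sum_empty, Nat.cast_sub (by omega), eq_comm, div_eq_zero_iff] at hsum
      rcases hsum with h1 | h1
      · have : (b : ℚ) = 1 := by push_cast at h1; linarith
        have : b = 1 := by exact_mod_cast this
        omega
      · have : b = 0 := by exact_mod_cast h1
        omega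
    · exact h
  refine ⟨hk1, ?_⟩
  apply lower_aux b k (by omega) hk1 k ∅ S (2 * k) (disjoint_empty_left S) (by simp) h0 hk le_rfl
  · rw [sum_empty, zero_add, hsum, Nat.cast_sub (by omega)]
    have : (b : ℚ) ≠ 0 := by
      have : b ≠ 0 := by omega
      exact_mod_cast this
    push_cast
    field_simp
  · simp

end Vale.Agent.P012
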