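import Mathlib
import Vale.Agent.P012.Loop
import Vale.Agent.P012.Greedy

namespace Vale.Agent.P012
open Finset

lemma size_arith (L b T MM B1 : ℕ) (hL : 4 ≤ L) (hb : b ≤ 2 ^ L) (hT : T = 2 ^ (1024 * L))
    (hMM : MM ≤ 2 ^ (43753 * L)) (hB : B1 ≤ 2 * b * T * (2 * T + 1) + b) :
    B1 * MM ≤ 2 ^ (50000 * L) := by
  have h1 : 2 * b * T ≤ 2 ^ (1026 * L) := by
    calc 2 * b * T ≤ 2 * 2 ^ L * 2 ^ (1024 * L) := by rw [hT]; gcongr
      _ = 2 ^ (1 + L + 1024 * L) := by rw [pow_add, pow_add, pow_one]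
      _ ≤ 2 ^ (1026 * L) := Nat.pow_le_pow_right (by norm_num) (by omega)
  have h2 : 2 * T + 1 ≤ 2 ^ (1025 * L) := by
    have : 1 ≤ T := by rw [hT]; exact Nat.one_le_two_pow
    calc 2 * T + 1 ≤ 2 ^ 2 * T := by omega
      _ = 2 ^ (2 + 1024 * L) := by rw [hT, pow_add]
      _ ≤ 2 ^ (1025 * L) := Nat.pow_le_pow_right (by norm_num) (by omega)
  have h3 : B1 ≤ 2 ^ (2052 * L) := by
    calc B1 ≤ 2 * b * T * (2 * T + 1) + b := hB
      _ ≤ 2 ^ (1026 * L) * 2 ^ (1025 * L) + 2 ^ L := by gcongr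
      _ = 2 ^ (2051 * L) + 2 ^ L := by rw [← pow_add]; congr 2; ring
      _ ≤ 2 ^ (2051 * L) + 2 ^ (2051 * L) := by gcongr <;> omega
      _ = 2 ^ (2051 * L + 1) := by rw [pow_succ]; ring
      _ ≤ 2 ^ (2052 * L) := Nat.pow_le_pow_right (by norm_num) (by omega)
  calc B1 * MM ≤ 2 ^ (2052 * L) * 2 ^ (43753 * L) := Nat.mul_le_mul h3 hMM
    _ = 2 ^ (45805 * L) := by rw [← pow_add]; congr 1; ring
    _ ≤ 2 ^ (50000 * L) := Nat.pow_le_pow_right (by norm_num) (by omega)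

theorem upper_nu (ν : ℕ) (hν : 11 ≤ ν) (a b : ℕ) (hab : a < b) (hb : b ≤ 2 ^ (2 ^ (20 * ν))) :
    Egy ((a : ℚ) / b) (256043222 * ν) := by
  obtain ⟨k0, X, MX, hC⟩ := core_exists ν hν
  obtain ⟨MR, hMR0, hMR, hreal⟩ := real_batch ν hν k0 MX X hC
  obtain ⟨MM, hMM0, hMM, hmod⟩ := mod_batch ν hν k0 MX X hC
  have hk0 := hC.k0_le
  have hLbig : 4 ≤ 2 ^ (20 * ν) := by
    calc 4 = 2 ^ 2 := by norm_num
      _ ≤ 2 ^ (20 * ν) := Nat.pow_le_pow_right (by norm_num) (by omega)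
  have hpow : 2 ^ (20 * ν + 10) = 1024 * 2 ^ (20 * ν) := by rw [pow_add]; norm_num; ring
  have hTm : 2 ^ (1024 * 2 ^ (20 * ν)) ≤ 2 ^ (2 ^ (20 * ν + 10)) := by rw [hpow]
  clear hC
  generalize 2 ^ (20 * ν) = L at *
  have hgr := greedy b (2 ^ (1024 * L)) (100000 * (32 * k0) + (540 * k0 + 1)) (20 * ν + 10)
    (by omega) (by
      calc b ^ 3 ≤ (2 ^ L) ^ 3 := Nat.pow_le_pow_left hb 3
        _ = 2 ^ (L * 3) := (pow_mul 2 L 3).symm
        _ ≤ 2 ^ (1024 * L) := Nat.pow_le_pow_right (by norm_num) (by omega)) hTm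
    (by
      intro r B hB0 hrT _ hBb
      apply endgame L (32 * k0) (540 * k0) MR MM (50000 * L) B r 100000
      · intro r D0 h1 h2 h3
        obtain ⟨g, w, r', h4, h5, h6, h7⟩ := hreal r D0 h1 h2 h3
        exact ⟨g, w, r', h4, h5, h6, h7⟩
      · exact hmod
      · exact hB0
      · exact hMM0
      · exact hMR0
      · exact size_arith L b _ MM B hLbig hb rfl hMM hBb
      · have h1 : MR ≤ 2 ^ (1024 * L) :=
          hMR.trans (Nat.pow_le_pow_right (by norm_num) (by omega))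
        calc r * MR ≤ r * 2 ^ (1024 * L) := Nat.mul_le_mul_left _ h1
          _ ≤ B := by nlinarith [Nat.zero_le (r * 2 ^ (1024 * L))]
          _ ≤ 2 ^ (18 * L) * B := Nat.le_mul_of_pos_left _ (by positivity)
      · omega) a hab
  exact hgr.mono (by omega)

end Vale.Agent.P012
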